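import Vale.Agent.P216R.Basic

/-! # Statements: short time existence of the Ricci flow, linear heat equations -/

open scoped Manifold ContDiff Topology
open Set

noncomputable section

namespace Vale.Agent.P216ST

open Vale.Agent.P216R

variable (E : Type) [NormedAddCommGroup E] [NormedSpace ℝ E]
  {M : Type} [TopologicalSpace M] [ChartedSpace E M]

/-- a smooth function on `U` -/
def Sm0 (u : M → ℝ) (U : Set M) : Prop := ∀ a, ContDiffOn ℝ ∞ (rd E u a) (dom E a U)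

/-- a smooth function on `I × U` -/
def SmF (u : ℝ → M → ℝ) (I : Set ℝ) (U : Set M) : Prop :=
  ∀ a, ContDiffOn ℝ ∞ (fun p : ℝ × E => rd E (u p.1) a p.2) (I ×ˢ dom E a U)

variable [FiniteDimensional ℝ E]

/-- short time existence of the Ricci flow on a closed manifold -/
def STE : Prop :=
  ∀ (M : Type) [TopologicalSpace M] [ChartedSpace E M] [IsManifold 𝓘(ℝ, E) ∞ M] (U : Set M)
    (g₀ : Ten E M), IsCompact U → Hs U → Met g₀ U →
    ∃ T > 0, ∃ g : ℝ → Ten E M, RF g (Icc 0 T) U ∧ g 0 = g₀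

/-- the linear heat equation with drift, potential and source on a closed manifold -/
def HEAT : Prop :=
  ∀ (M : Type) [TopologicalSpace M] [ChartedSpace E M] [IsManifold 𝓘(ℝ, E) ∞ M] (U : Set M)
    (g : ℝ → Ten E M) (a b : ℝ) (φ c f : ℝ → M → ℝ) (u₀ : M → ℝ), IsCompact U → Hs U → a < b →
    Fam g (Icc a b) U → SmF E φ (Icc a b) U → SmF E c (Icc a b) U → SmF E f (Icc a b) U →
    Sm0 E u₀ U → ∃ u : ℝ → M → ℝ, SmF E u (Icc a b) U ∧ u a = u₀ ∧ ∀ t ∈ Icc a b, ∀ x ∈ U,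
      HasDerivWithinAt (fun s => u s x)
        (lap (g t) (u t) x + gam (g t) (φ t) (u t) x + c t x * u t x + f t x) (Icc a b) t

/-- the backward version: final datum at time `b` -/
def CHEAT : Prop :=
  ∀ (M : Type) [TopologicalSpace M] [ChartedSpace E M] [IsManifold 𝓘(ℝ, E) ∞ M] (U : Set M)
    (g : ℝ → Ten E M) (a b : ℝ) (φ c f : ℝ → M → ℝ) (u₀ : M → ℝ), IsCompact U → Hs U → a < b →
    Fam g (Icc a b) U → SmF E φ (Icc a b) U → SmF E c (Icc a b) U → SmF E f (Icc a b) U →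
    Sm0 E u₀ U → ∃ u : ℝ → M → ℝ, SmF E u (Icc a b) U ∧ u b = u₀ ∧ ∀ t ∈ Icc a b, ∀ x ∈ U,
      HasDerivWithinAt (fun s => u s x)
        (-(lap (g t) (u t) x + gam (g t) (φ t) (u t) x + c t x * u t x + f t x)) (Icc a b) t

/-- the version on a half line -/
def HEATI : Prop :=
  ∀ (M : Type) [TopologicalSpace M] [ChartedSpace E M] [IsManifold 𝓘(ℝ, E) ∞ M] (U : Set M)
    (g : ℝ → Ten E M) (a : ℝ) (φ c f : ℝ → M → ℝ) (u₀ : M → ℝ), IsCompact U → Hs U →
    Fam g (Ici a) U → SmF E φ (Ici a) U → SmF E c (Ici a) U → SmF E f (Ici a) U →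
    Sm0 E u₀ U → ∃ u : ℝ → M → ℝ, SmF E u (Ici a) U ∧ u a = u₀ ∧ ∀ t ∈ Ici a, ∀ x ∈ U,
      HasDerivWithinAt (fun s => u s x)
        (lap (g t) (u t) x + gam (g t) (φ t) (u t) x + c t x * u t x + f t x) (Ici a) t

end Vale.Agent.P216ST
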