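import Vale.Agent.P216ST.Lin
import Vale.Agent.P216R.Flow

/-! # The heat equation on a closed manifold -/

set_option maxSynthPendingDepth 3
set_option linter.unusedSectionVars false

open Set Metric Filter Topology
open scoped Manifold ContDiff
open Vale.Agent.P272.K.LIN (Jet jet)

noncomputable section

namespace Vale.Agent.P216ST

open Vale.Agent.P253W.FP (j2 j2_apply)
open Vale.Agent.P216R Vale.Agent.P219.RG
open Vale.Agent.P210.R2.H53 (gradG gamG hessG lapG)

variable {E : Type} [NormedAddCommGroup E] [NormedSpace ℝ E] [FiniteDimensional ℝ E]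
  {M : Type} [TopologicalSpace M] [ChartedSpace E M] [IsManifold 𝓘(ℝ, E) ∞ M]
  {N : Type} [TopologicalSpace N] [ChartedSpace E N] [IsManifold 𝓘(ℝ, E) ∞ N]
  {u φ c f : ℝ → M → ℝ} {g : ℝ → Ten E M} {I : Set ℝ} {U : Set M}

theorem SmF.ps (h : SmF E u I U) (hU : IsOpen U) {t : ℝ} (ht : t ∈ I) {a : M} {y : E}
    (hy : y ∈ dom E a U) : PS (fun s => rd E (u s) a) I t y :=
  contDiffWithinAt_univ_of (h a) (isOpen_dom a hU) ht hy

theorem SmF.ps_comp (h : SmF E u I U) (hU : IsOpen U) {t : ℝ} (ht : t ∈ I) {ψ : E → M} {y : E}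
    (hψ : SM E ψ y) (hy : ψ y ∈ U) : PS (fun s z => u s (ψ z)) I t y := by
  have ha := mem_chart_source E (ψ y)
  have h1 : PS (fun s z => rd E (u s) (ψ y) (chartAt E (ψ y) (ψ z))) I t y :=
    ContDiffWithinAt.comp (t, y) (g := fun q : ℝ × E => rd E (u q.1) (ψ y) q.2) (t := I ×ˢ univ)
      (f := fun q : ℝ × E => (q.1, chartAt E (ψ y) (ψ q.2))) (h.ps hU ht (mem_dom ha hy))
      (contDiffAt_fst.prodMk ((contDiffAt_chart_comp hψ ha).comp (t, y)
        contDiffAt_snd)).contDiffWithinAt fun _ hp => ⟨hp.1, trivial⟩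
  refine h1.congr ht ?_
  filter_upwards [hψ.continuousAt.eventually_mem ((chartAt E (ψ y)).open_source.mem_nhds ha)]
    with z hz s _
  simp only [rd, Function.comp_apply, (chartAt E (ψ y)).left_inv hz]

theorem SmF.comp (h : SmF E u I U) (hU : IsOpen U) {k : N → M} {V : Set N} (hk : LD E k V)
    (hm : MapsTo k V U) : SmF E (fun t => u t ∘ k) I V := fun a =>
  contDiffOn_of_ps (f := fun t => rd E (u t ∘ k) a) fun _ ht y hy =>
    h.ps_comp hU ht (ψ := k ∘ (chartAt E a).symm) ((hk.sm hy.2).comp y (sm_symm hy.1)) (hm hy.2)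

theorem Sm0.smF {w : M → ℝ} (h : Sm0 E w U) (I : Set ℝ) : SmF E (fun _ => w) I U :=
  fun a => (h a).comp contDiffOn_snd fun _ hq => hq.2

theorem Sm0.comp {w : M → ℝ} (h : Sm0 E w U) (hU : IsOpen U) {k : N → M} {V : Set N}
    (hk : LD E k V) (hm : MapsTo k V U) : Sm0 E (w ∘ k) V :=
  ((h.smF univ).comp hU hk hm).sm0 (mem_univ 0)

theorem Sm0.pt {w : M → ℝ} (h : Sm0 E w U) (hU : IsOpen U) {x : M} (hx : x ∈ U) :
    ContDiffAt ℝ ∞ (rd E w x) (pt E x) := h.at hU (pt_mem_dom hx)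

theorem sm0_iff {w : M → ℝ} (hU : IsOpen U) :
    Sm0 E w U ↔ ContMDiffOn 𝓘(ℝ, E) 𝓘(ℝ, ℝ) ∞ w U :=
  ⟨fun h _ hx => (contMDiffAt_iff_rd.2 (h.pt hU hx)).contMDiffWithinAt,
    fun h _ _ hy => (smooth_rd hy.1 (h.contMDiffAt (hU.mem_nhds hy.2))).contDiffWithinAt⟩

theorem rd_chart {α : Type} (w : M → α) {a x : M} (hx : x ∈ (chartAt E a).source) :
    w =ᶠ[𝓝 x] rd E w a ∘ chartAt E a := by
  filter_upwards [(chartAt E a).open_source.mem_nhds hx] with z hz
  simp only [rd, Function.comp_apply, (chartAt E a).left_inv hz]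

theorem lap_chart {g : Ten E M} (hg : Met g U) {w : M → ℝ} {a : M} {y : E} (hy : y ∈ dom E a U)
    (hw : ContDiffAt ℝ 2 (rd E w a) y) :
    lap g w ((chartAt E a).symm y) = lapG (co g a) (rd E w a) y := by
  have hs := (chartAt E a).map_target hy.1
  have e := (chartAt E a).right_inv hy.1
  rw [lap_congr EventuallyEq.rfl (rd_chart w hs), (li_chart hg hy.2 hs).lap (by simpa [e] using hw),
    lap_model, e]

theorem gam_chart {g : Ten E M} (hg : Met g U) {w w' : M → ℝ} {a : M} {y : E} (hy : y ∈ dom E a U)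
    (hw : DifferentiableAt ℝ (rd E w a) y) (hw' : DifferentiableAt ℝ (rd E w' a) y) :
    gam g w w' ((chartAt E a).symm y) = gamG (co g a) (rd E w a) (rd E w' a) y := by
  have hs := (chartAt E a).map_target hy.1
  have e := (chartAt E a).right_inv hy.1
  rw [gam_congr rfl (rd_chart w hs) (rd_chart w' hs),
    (li_chart hg hy.2 hs).gam (by simpa [e] using hw) (by simpa [e] using hw'), gam_model, e]

theorem trB_sq {A : Bil E} (h : ∀ v, v ≠ 0 → 0 < A v v) {ξ : E →L[ℝ] ℝ} (hξ : ξ ≠ 0) :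
    0 < trB A (ξ.smulRight ξ) := by
  have e : ((A.inverse ∘L ξ.smulRight ξ : E →L[ℝ] E) : E →ₗ[ℝ] E) =
      (ξ : E →ₗ[ℝ] ℝ).smulRight (A.inverse ξ) := by ext v; simp
  rw [trB, e, LinearMap.trace_smulRight]
  have h1 := app_inverse h ξ
  have := h (A.inverse ξ) fun h0 => hξ (by rw [← h1, h0, map_zero])
  rwa [h1] at this

/-- the heat operator on jets -/
def hl (A : Bil E) (Γ : E →L[ℝ] E →L[ℝ] E) (d : E →L[ℝ] ℝ) (c : ℝ) : Jet E →L[ℝ] ℝ :=
  LinearMap.toContinuousLinearMap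
    { toFun := fun z => trB A (z.2.2 - (ContinuousLinearMap.compL ℝ E E ℝ z.2.1).comp Γ) +
        d (A.inverse z.2.1) + c * z.1
      map_add' := fun z w => by
        simp only [Prod.snd_add, Prod.fst_add, map_add, ContinuousLinearMap.add_comp, trB_sub,
          trB_add]
        ring
      map_smul' := fun r z => by
        simp only [Prod.smul_snd, Prod.smul_fst, map_smul, ContinuousLinearMap.smul_comp, trB_sub,
          trB_smul, smul_eq_mul, RingHom.id_apply]
        ring }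

theorem hl_apply (A : Bil E) (Γ : E →L[ℝ] E →L[ℝ] E) (d : E →L[ℝ] ℝ) (c : ℝ) (z : Jet E) :
    hl A Γ d c z = trB A (z.2.2 - (ContinuousLinearMap.compL ℝ E E ℝ z.2.1).comp Γ) +
      d (A.inverse z.2.1) + c * z.1 := rfl

theorem heat_linD (hg : Fam g I univ) (hφ : SmF E φ I univ) (hc : SmF E c I univ) :
    LinD (fun t w x => lap (g t) w x + gam (g t) (φ t) w x + c t x * w x) (fun a t y =>
      hl (co (g t) a y) (chrisB (co (g t) a) y) (fderiv ℝ (rd E (φ t) a) y) (rd E (c t) a y)) I := by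
  refine ⟨fun a => contDiffOn_clm_apply.2 fun z => contDiffOn_of_ps
    (f := fun t y => hl (co (g t) a y) (chrisB (co (g t) a) y) (fderiv ℝ (rd E (φ t) a) y)
      (rd E (c t) a y) z) fun t ht y hy => ?_, fun a t ht y hy ξ hξ => ?_,
    fun a t ht y hy w hw => ?_⟩
  · have m : y ∈ dom E a univ := ⟨hy, trivial⟩
    have h1 := hg.ps ht m
    have p := hg.co_pos ht m
    exact ((h1.trB (B := fun t y => z.2.2 - (ContinuousLinearMap.compL ℝ E E ℝ z.2.1).comp
      (chrisB (co (g t) a) y)) p (contDiffWithinAt_const.sub (contDiffWithinAt_const.clm_comp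
      (h1.chrisB ht p)))).add (((hφ.ps isOpen_univ ht m).fderiv ht).clm_apply
        ((h1.inverse p).clm_apply contDiffWithinAt_const))).add
      (ContDiffWithinAt.mul (hc.ps isOpen_univ ht m) contDiffWithinAt_const)
  · simpa [hl_apply, j2_apply] using trB_sq (hg.co_pos ht ⟨hy, trivial⟩) hξ
  · have m : y ∈ dom E a univ := ⟨hy, trivial⟩
    rw [lap_chart (hg.met ht) m hw, gam_chart (hg.met ht) m
      (((hφ.sm0 ht).at isOpen_univ m).differentiableAt (by simp)) (hw.differentiableAt (by simp)),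
      lapG_eq, hessG, chris210]
    rfl

/-- an open compact Hausdorff subset is the image of a compact Hausdorff manifold -/
theorem exists_model (hU : IsOpen U) (hc : IsCompact U) (hH : Hs U) (hne : U.Nonempty) :
    ∃ (X : Type) (_ : TopologicalSpace X) (_ : ChartedSpace E X) (_ : IsManifold 𝓘(ℝ, E) ∞ X)
      (_ : CompactSpace X) (_ : T2Space X) (i : X → M) (j : M → X), LD E i univ ∧ LD E j U ∧
      MapsTo i univ U ∧ ∀ x ∈ U, i (j x) = x := by
  classical
  let W : TopologicalSpace.Opens M := ⟨U, hU⟩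
  let j : M → W := fun x => if h : x ∈ U then ⟨x, h⟩ else ⟨hne.choose, hne.choose_spec⟩
  have e : ∀ x ∈ U, (j x : M) = x := fun x hx => by simp only [j, dif_pos hx]
  have sj : ∀ x ∈ U, SM E j x := fun x hx => (ContMDiffAt.subtypeVal_comp_iff W j x).1
    (contMDiffAt_id.congr_of_eventuallyEq (eventually_of_mem (hU.mem_nhds hx) e))
  refine ⟨W, inferInstance, inferInstance, inferInstance, isCompact_iff_compactSpace.1 hc,
    t2Space_iff_disjoint_nhds.2 fun x y h => ?_, Subtype.val, j,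
    ld_of_left_inv isOpen_univ contMDiff_subtype_val.contMDiffOn (fun x _ => (sj x x.2).md)
      fun x _ => Subtype.ext (e x x.2),
    ld_of_left_inv hU (fun x hx => (sj x hx).contMDiffWithinAt)
      (fun x _ => SM.md (contMDiff_subtype_val _)) e, fun x _ => x.2, e⟩
  change Disjoint (𝓝 x) (𝓝 y)
  rw [nhds_subtype, nhds_subtype]
  exact disjoint_comap (hH x.2 y.2 fun h' => h (Subtype.ext h'))

theorem heat_gen {a : ℝ} {u₀ : M → ℝ} (hc : IsCompact U) (hH : Hs U) (hg : Fam g I U)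
    (hφ : SmF E φ I U) (hc' : SmF E c I U) (hf : SmF E f I U) (h₀ : Sm0 E u₀ U)
    (H : ∀ (X : Type) [TopologicalSpace X] [ChartedSpace E X] [IsManifold 𝓘(ℝ, E) ∞ X]
      [CompactSpace X] [T2Space X] (L : ℝ → (X → ℝ) → X → ℝ) (l : X → ℝ → E → Jet E →L[ℝ] ℝ)
      (f : ℝ → X → ℝ) (u₀ : X → ℝ), LinD L l I → SmF E f I univ → Sm0 E u₀ univ →
      ∃ u, Sol E L f I u ∧ u a = u₀) :
    ∃ u : ℝ → M → ℝ, SmF E u I U ∧ u a = u₀ ∧ ∀ t ∈ I, ∀ x ∈ U, HasDerivWithinAt (fun s => u s x)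
      (lap (g t) (u t) x + gam (g t) (φ t) (u t) x + c t x * u t x + f t x) I t := by
  classical
  have hU := hg.isOpen
  rcases U.eq_empty_or_nonempty with rfl | hne
  · exact ⟨fun _ => u₀, h₀.smF I, rfl, fun _ _ _ h => h.elim⟩
  obtain ⟨X, _, _, _, _, _, i, j, hi, hj, hm, e⟩ := exists_model (E := E) hU hc hH hne
  have hg' := hg.comap hi hm
  obtain ⟨v, hv, v0⟩ := H X _ _ _ _ (heat_linD hg' (hφ.comp hU hi hm) (hc'.comp hU hi hm))
    (hf.comp hU hi hm) (h₀.comp hU hi hm)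
  have e1 : ∀ t, EqOn (fun x => if x ∈ U then v t (j x) else u₀ x) (v t ∘ j) U :=
    fun t x hx => if_pos hx
  refine ⟨fun t x => if x ∈ U then v t (j x) else u₀ x,
    (hv.sm.comp isOpen_univ hj (mapsTo_univ _ _)).congr fun t _ => e1 t, funext fun x => ?_,
    fun t ht x hx => ?_⟩
  · dsimp only
    split_ifs with h
    · rw [v0, Function.comp_apply, e x h]
    · rfl
  · have n := hU.eventually_mem hx
    have li : LI (g t) (comap i (g t)) j x := ⟨⟨_, hg'.met ht, trivial⟩, ⟨_, hj, hx⟩,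
      n.mono fun z hz => (comap_inv _ (hj.md hz) (hi.md trivial)
        ((hU.eventually_mem hz).mono e)).symm⟩
    have s1 := (hv.sm.sm0 ht).pt isOpen_univ (mem_univ (j x))
    have s2 := ((hφ.comp hU hi hm).sm0 ht).pt isOpen_univ (mem_univ (j x))
    have e2 : φ t =ᶠ[𝓝 x] (φ t ∘ i) ∘ j := n.mono fun z hz => by simp [e z hz]
    rw [lap_congr EventuallyEq.rfl ((e1 t).eventuallyEq_of_mem n), li.lap (s1.of_le two_le),
      gam_congr rfl e2 ((e1 t).eventuallyEq_of_mem n),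
      li.gam (s2.differentiableAt (by simp)) (s1.differentiableAt (by simp))]
    simpa only [if_pos hx, Function.comp_apply, e x hx] using hv.eqn t ht (j x)

variable (E)

/-- **The heat equation on a closed manifold.** -/
theorem heat : HEAT E := fun _ _ _ _ _ _ _ _ _ _ _ _ hc hH hab hg hφ hc' hf h₀ =>
  heat_gen hc hH hg hφ hc' hf h₀ fun _ _ _ _ _ _ _ _ _ _ D hf h₀ =>
    lin_Icc hab D hf h₀

theorem heati : HEATI E := fun _ _ _ _ _ _ _ _ _ _ _ hc hH hg hφ hc' hf h₀ =>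
  heat_gen hc hH hg hφ hc' hf h₀ fun _ _ _ _ _ _ _ _ _ _ D hf h₀ => lin_Ici D hf h₀

theorem cheat : CHEAT E := by
  intro M _ _ _ U g a b φ c f u₀ hc hH hab hg hφ hc' hf h₀
  have m : MapsTo (fun t => -t) (Icc (-b) (-a)) (Icc a b) := fun t ht =>
    ⟨le_neg.1 ht.2, neg_le.1 ht.1⟩
  have m' : MapsTo (fun t => -t) (Icc a b) (Icc (-b) (-a)) := fun t ht =>
    ⟨neg_le_neg ht.2, neg_le_neg ht.1⟩
  have r : ∀ {w : ℝ → M → ℝ} {I J : Set ℝ}, SmF E w I U → MapsTo (fun t => -t) J I →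
      SmF E (fun t => w (-t)) J U := fun h hm a => (h a).comp
    (f := fun q : ℝ × E => (-q.1, q.2)) (by fun_prop) fun q hq => ⟨hm hq.1, hq.2⟩
  obtain ⟨u, h1, h2, h3⟩ := heat E M U (fun t => g (-t)) (-b) (-a) _ _ _ u₀ hc hH (neg_lt_neg hab)
    (by simpa using hg.resc one_pos (θ := fun t => -t) (by fun_prop) m) (r hφ m) (r hc' m) (r hf m) h₀
  refine ⟨fun t => u (-t), r h1 m', h2, fun t ht x hx => ?_⟩
  exact ((h3 _ (m' ht) x hx).comp t (hasDerivAt_neg' t).hasDerivWithinAt m').congr_deriv (by simp)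

end Vale.Agent.P216ST
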