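import Vale.Agent.P216ST.Stmt

/-! # Statement: from the Ricci flow modified by a Lie derivative to the Ricci flow -/

open scoped Manifold ContDiff Topology
open Set

noncomputable section

namespace Vale.Agent.P216ST

open Vale.Agent.P216R

variable {E : Type} [NormedAddCommGroup E] [NormedSpace ℝ E]

/-- the Lie derivative of a field of bilinear forms along a vector field -/
def lie (G : E → Bil E) (W : E → E) (y : E) : Bil E :=
  fderiv ℝ G y (W y) + (G y).comp (fderiv ℝ W y) + ((G y).flip.comp (fderiv ℝ W y)).flip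

theorem lie_apply (G : E → Bil E) (W : E → E) (y v w : E) : lie G W y v w =
    fderiv ℝ G y (W y) v w + G y (fderiv ℝ W y v) w + G y v (fderiv ℝ W y w) := rfl

variable (E) in
/-- the change of charts from the chart at `a` to the chart at `b` -/
def trn {M : Type} [TopologicalSpace M] [ChartedSpace E M] (a b : M) (y : E) : E :=
  chartAt E b ((chartAt E a).symm y)

/-- a smooth time dependent vector field on `U`, given by its expressions `W a` in the charts -/
structure VF {M : Type} [TopologicalSpace M] [ChartedSpace E M] (W : M → ℝ → E → E) (I : Set ℝ)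
    (U : Set M) : Prop where
  smooth : ∀ a, ContDiffOn ℝ ∞ (fun p : ℝ × E => W a p.1 p.2) (I ×ˢ dom E a U)
  compat : ∀ a b, ∀ t ∈ I, ∀ y ∈ dom E a U, (chartAt E a).symm y ∈ (chartAt E b).source →
    fderiv ℝ (trn E a b) y (W a t y) = W b t (trn E a b y)

variable (E) in
/-- pulling back by the flow of `-W` removes the Lie derivative -/
def PULL [FiniteDimensional ℝ E] : Prop :=
  ∀ (M : Type) [TopologicalSpace M] [ChartedSpace E M] [IsManifold 𝓘(ℝ, E) ∞ M] (U : Set M)
    (g : ℝ → Ten E M) (W : M → ℝ → E → E) (T : ℝ), IsCompact U → Hs U → 0 < T →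
    Fam g (Icc 0 T) U → VF W (Icc 0 T) U →
    (∀ a, ∀ t ∈ Icc 0 T, ∀ y ∈ dom E a U, HasDerivWithinAt (fun s => co (g s) a y)
      ((-2 : ℝ) • ricG (co (g t) a) y + lie (co (g t) a) (W a t) y) (Icc 0 T) t) →
    ∃ τ > 0, ∃ h : ℝ → Ten E M, RF h (Icc 0 τ) U ∧ h 0 = g 0

end Vale.Agent.P216ST
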