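import Vale.Agent.P216ST.Pull1
import Vale.Agent.P216ST.Stmt2
import Vale.Agent.P216R.Flow
import Mathlib.Analysis.ODE.ExistUnique

/-! # From the Ricci flow modified by a Lie derivative to the Ricci flow -/

open scoped Manifold ContDiff Topology
open Set Filter

set_option maxSynthPendingDepth 3

noncomputable section

namespace Vale.Agent.P216ST

open Vale.Agent.P216R

variable {E : Type} [NormedAddCommGroup E] [NormedSpace ℝ E]

/-- chain rule for a time dependent function along a curve -/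
theorem ps_chain {Y : Type} [NormedAddCommGroup Y] [NormedSpace ℝ Y] {f : ℝ → E → Y} {I J : Set ℝ}
    {t : ℝ} {c : ℝ → E} (h : PS f I t (c t)) (ht : t ∈ I) (hI : UniqueDiffWithinAt ℝ I t) {f₁ : Y}
    (h1 : HasDerivWithinAt (fun s => f s (c t)) f₁ I t) {c' : E} (hc : HasDerivWithinAt c c' J t)
    (hJ : J ⊆ I) : HasDerivWithinAt (fun s => f s (c s)) (f₁ + fderiv ℝ (f t) (c t) c') J t := by
  obtain ⟨L, hL⟩ := h.differentiableWithinAt (by simp)
  have a1 := hI.eq_deriv _ h1 (hL.comp_hasDerivWithinAt (f := fun s => (s, c t)) t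
    ((hasDerivWithinAt_id t _).prodMk (hasDerivWithinAt_const t _ _))
    fun s hs => mk_mem_prod hs (mem_univ _))
  have a2 := (hasFDerivWithinAt_univ.1 (hL.comp (f := fun y => (t, y)) (c t)
    (hasFDerivAt_prodMk_right t (c t)).hasFDerivWithinAt
    fun y hy => mk_mem_prod ht hy)).fderiv
  refine (hL.comp_hasDerivWithinAt (f := fun s => (s, c s)) t
    ((hasDerivWithinAt_id t _).prodMk hc) fun s hs => mk_mem_prod (hJ hs) (mem_univ _)).congr_deriv ?_
  have a3 : fderiv ℝ (f t) (c t) c' = L (0, c') := congrArg (fun A : E →L[ℝ] Y => A c') a2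
  rw [a1, a3, ← map_add]
  simp

theorem LF.ld {W : ℝ → E → E} {O V : Set E} {ψ : ℝ → E → E} {τ t : ℝ} (h : LF W O ψ τ V)
    (ht : t ∈ Icc 0 τ) : LD E (ψ t) V :=
  ld_model h.isOpen (fun y hy => ((h.sm t ht y hy).contDiffAt ht).contDiffWithinAt) (h.inj t ht)

variable [FiniteDimensional ℝ E]

/-- the pull back in a chart -/
theorem LF.rf {W : ℝ → E → E} {O V : Set E} {ψ : ℝ → E → E} {τ T : ℝ}
    (h : LF (fun t y => -W t y) O ψ τ V) (hT : 0 < T) (hτ : τ ≤ T) {G : ℝ → E → Bil E}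
    (hG : Fam G (Icc 0 T) O) (he : ∀ t ∈ Icc 0 T, ∀ y ∈ O, HasDerivWithinAt (fun s => G s y)
      ((-2 : ℝ) • ricG (G t) y + lie (G t) (W t) y) (Icc 0 T) t) :
    RF (fun t => comap (ψ t) (G t)) (Icc 0 τ) V := by
  have hs : Icc 0 τ ⊆ Icc 0 T := Icc_subset_Icc_right hτ
  have hm := fun t ht => (hG.met (hs ht)).comap (h.ld ht) (h.mem t ht)
  have hp : ∀ t ∈ Icc 0 τ, ∀ y ∈ V, PS G (Icc 0 T) t (ψ t y) := fun t ht y hy =>
    contDiffWithinAt_univ_of hG.contDiffOn_model hG.isOpen (hs ht) (h.mem t ht y hy)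
  have e : ∀ s y, comap (ψ s) (G s) y =
      (((G s (ψ s y)).comp (fderiv ℝ (ψ s) y)).flip.comp (fderiv ℝ (ψ s) y)).flip := fun s y => by
    ext v w
    rw [comap_model]
    rfl
  refine ⟨fam_model h.isOpen (fun t ht => (hm t ht).symm) (fun t ht => (hm t ht).pos)
    (contDiffOn_of_ps (f := fun t => comap (ψ t) (G t)) fun t ht y hy => ?_), fun t ht y hy => ?_⟩
  · have a1 := (h.sm t ht y hy).fderiv ht
    have a2 : PS (fun s y => G s (ψ s y)) (Icc 0 τ) t y :=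
      ContDiffWithinAt.comp (t, y) (g := fun q : ℝ × E => G q.1 q.2)
        (f := fun q : ℝ × E => (q.1, ψ q.1 q.2)) (hp t ht y hy)
        (contDiffWithinAt_fst.prodMk (h.sm t ht y hy)) fun q hq => mk_mem_prod (hs hq.1) (mem_univ _)
    simp only [PS, e]
    exact cdw_flip ((cdw_flip (a2.clm_comp a1)).clm_comp a1)
  · have a1 := h.var t ht y hy
    have a2 := ps_chain (c := fun s => ψ s y) (hp t ht y hy) (hs ht) (uniqueDiffOn_Icc hT t (hs ht))
      (he t (hs ht) _ (h.mem t ht y hy)) (h.eqn t ht y hy) hs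
    have fl := fun {B : ℝ → Bil E} {B' : Bil E} (k : HasDerivWithinAt B B' (Icc 0 τ) t) =>
      (ContinuousLinearMap.flipₗᵢ ℝ E E ℝ).toContinuousLinearEquiv.hasFDerivAt.comp_hasDerivWithinAt
        t k
    rw [(li_comap (hG.met (hs ht)) (h.ld ht) hy (h.mem t ht y hy)).Ric]
    simp only [e _ y]
    refine (fl ((fl (a2.clm_comp a1)).clm_comp a1)).congr_deriv ?_
    ext v w
    simp [comap_model, Ric_model, lie_apply, fderiv_fun_neg]
    abel

variable {M : Type} [TopologicalSpace M] [ChartedSpace E M] [IsManifold 𝓘(ℝ, E) ∞ M]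
  {W : M → ℝ → E → E} {I : Set ℝ} {U : Set M} {τ : ℝ}

/-- an integral curve of `W` in `U` -/
structure IC (W : M → ℝ → E → E) (U : Set M) (γ : ℝ → M) (J : Set ℝ) : Prop where
  cont : ContinuousOn γ J
  mem : MapsTo γ J U
  eqn : ∀ b, ∀ t ∈ J, γ t ∈ (chartAt E b).source →
    HasDerivWithinAt (fun s => chartAt E b (γ s)) (W b t (chartAt E b (γ t))) J t

omit [FiniteDimensional ℝ E] [IsManifold 𝓘(ℝ, E) ∞ M] in
theorem VF.neg (h : VF W I U) : VF (fun a t y => -W a t y) I U :=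
  ⟨fun a => (h.smooth a).neg, fun a b t ht y hy k => by rw [map_neg, h.compat a b t ht y hy k]⟩

omit [FiniteDimensional ℝ E] in
theorem VF.ic (h : VF W I U) {J : Set ℝ} (hJ : J ⊆ I) {a : M} {c : ℝ → E}
    (h1 : MapsTo c J (dom E a U)) (h2 : ∀ t ∈ J, HasDerivWithinAt c (W a t (c t)) J t) :
    IC W U (fun t => (chartAt E a).symm (c t)) J :=
  ⟨(chartAt E a).continuousOn_symm.comp (fun t ht => (h2 t ht).continuousWithinAt)
    fun t ht => (h1 ht).1, fun t ht => (h1 ht).2, fun b t ht k =>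
      ((((contDiffAt_chart_comp (sm_symm (h1 ht).1) k).differentiableAt
        (by simp)).hasFDerivAt).comp_hasDerivWithinAt t (h2 t ht)).congr_deriv
        (h.compat a b t (hJ ht) _ (h1 ht) k)⟩

omit [FiniteDimensional ℝ E] [IsManifold 𝓘(ℝ, E) ∞ M] in
theorem IC.unique (h : VF W I U) (hI : Convex ℝ I) (hU : IsOpen U) (hH : Hs U) (hJ : Icc 0 τ ⊆ I)
    {γ₁ γ₂ : ℝ → M} (h₁ : IC W U γ₁ (Icc 0 τ)) (h₂ : IC W U γ₂ (Icc 0 τ)) (h0 : γ₁ 0 = γ₂ 0) :
    EqOn γ₁ γ₂ (Icc 0 τ) := by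
  refine IsClosed.Icc_subset_of_forall_mem_nhdsWithin (s := {s | γ₁ s = γ₂ s})
    (isClosed_of_closure_subset fun s hs => ?_) h0 fun s hs => ?_
  · have a1 : s ∈ Icc 0 τ := closure_minimal inter_subset_right isClosed_Icc hs
    have := mem_closure_iff_nhdsWithin_neBot.1 hs
    have a2 : {s | γ₁ s = γ₂ s} ∩ Icc 0 τ ⊆ Icc 0 τ := inter_subset_right
    refine ⟨by_contra fun n => ((h₁.cont s a1).mono a2).tendsto.not_tendsto
      (hH (h₁.mem a1) (h₂.mem a1) n) (((h₂.cont s a1).mono a2).tendsto.congr' ?_), a1⟩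
    filter_upwards [self_mem_nhdsWithin] with r hr using hr.1.symm
  · have a1 := Ico_subset_Icc_self hs.2
    have a2 := mem_chart_source E (γ₁ s)
    obtain ⟨K, A, a3, a4⟩ := ((contDiffWithinAt_univ_of (h.smooth (γ₁ s)) (isOpen_dom _ hU) (hJ a1)
      (pt_mem_dom (h₁.mem a1))).of_le (mod_cast le_top)).exists_lipschitzOnWith
        (hI.prod convex_univ)
    have a5 : ∀ {γ : ℝ → M}, IC W U γ (Icc 0 τ) → γ s = γ₁ s → ∀ᶠ r in 𝓝[Icc 0 τ] s,
        γ r ∈ (chartAt E (γ₁ s)).source ∧ (r, chartAt E (γ₁ s) (γ r)) ∈ A := fun {γ} k e => by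
      refine (e ▸ k.cont s a1 : Tendsto γ _ _).eventually
        ((chartAt E (γ₁ s)).open_source.mem_nhds a2) |>.and ?_
      have b1 : ContinuousWithinAt (fun r => (r, chartAt E (γ₁ s) (γ r))) (Icc 0 τ) s :=
        continuousWithinAt_id.prodMk (k.eqn _ s a1 (e ▸ a2)).continuousWithinAt
      refine b1.tendsto_nhdsWithin (fun r hr => mk_mem_prod (hJ hr) (mem_univ _)) ?_
      rwa [e]
    obtain ⟨u, b1, b2⟩ := mem_nhdsGE_iff_exists_Icc_subset.1 (inter_mem
      (nhdsWithin_le_iff.2 (Icc_mem_nhdsGE_of_mem hs.2) ((a5 h₁ rfl).and (a5 h₂ hs.1.symm)))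
      (Ico_mem_nhdsGE_of_mem hs.2))
    have b3 := fun r (hr : r ∈ Ico s u) => b2 (Ico_subset_Icc_self hr)
    have b4 : Icc s u ⊆ Icc 0 τ := fun r hr => Ico_subset_Icc_self (b2 hr).2
    have b5 := ODE_solution_unique_of_mem_Icc_right (v := W (γ₁ s))
      (s := fun r => {z | (r, z) ∈ A}) (K := K)
      (fun r _ y hy z hz => by simpa [Prod.edist_eq] using a4 hy hz)
      (fun r hr => (h₁.eqn _ r (b4 hr) (b2 hr).1.1.1).continuousWithinAt.mono b4)
      (fun r hr => (h₁.eqn _ r (b4 (Ico_subset_Icc_self hr)) (b3 r hr).1.1.1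
        ).mono_of_mem_nhdsWithin (Icc_mem_nhdsGE_of_mem (b3 r hr).2)) (fun r hr => (b3 r hr).1.1.2)
      (fun r hr => (h₂.eqn _ r (b4 hr) (b2 hr).1.2.1).continuousWithinAt.mono b4)
      (fun r hr => (h₂.eqn _ r (b4 (Ico_subset_Icc_self hr)) (b3 r hr).1.2.1
        ).mono_of_mem_nhdsWithin (Icc_mem_nhdsGE_of_mem (b3 r hr).2)) (fun r hr => (b3 r hr).1.2.2)
      (congrArg _ hs.1)
    filter_upwards [nhdsWithin_mono s Ioi_subset_Ici_self (Icc_mem_nhdsGE b1)] with r hr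
    exact (chartAt E (γ₁ s)).injOn (b2 hr).1.1.1 (b2 hr).1.2.1 (b5 hr)

variable (E) in
theorem pull : PULL E := by
  classical
  intro M _ _ _ U g W T hU hH hT hg hW he
  have h1 := fun a : U => exists_lf (W := fun t y => -W a t y) hT (isOpen_dom a.1 hg.isOpen)
    (fun t ht x hx =>
      contDiffWithinAt_univ_of (hW.neg.smooth a) (isOpen_dom a.1 hg.isOpen) ht hx) (pt_mem_dom a.2)
  choose ψ V h1 h2 using h1
  let N : U → Set M := fun a => (chartAt E a.1).source ∩ chartAt E a.1 ⁻¹' V a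
  have n1 : ∀ a, IsOpen (N a) := fun a =>
    (chartAt E a.1).isOpen_inter_preimage (h2 a).exists.choose_spec.isOpen
  obtain ⟨S, hS⟩ := hU.elim_finite_subcover N n1
    fun x hx => mem_iUnion.2 ⟨⟨x, hx⟩, mem_chart_source E x, h1 ⟨x, hx⟩⟩
  obtain ⟨τ, h3, τ0, τ1⟩ := (((eventually_all_finset S).2 fun a _ => h2 a).and
    (Ioc_mem_nhdsGT hT)).exists
  have z0 : (0 : ℝ) ∈ Icc 0 τ := left_mem_Icc.2 τ0.le
  choose i i1 i2 using fun x (hx : x ∈ U) => mem_iUnion₂.1 (hS hx)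
  let Φ : U → ℝ → M → M := fun a s x => (chartAt E a.1).symm (ψ a s (chartAt E a.1 x))
  have p0 : ∀ a ∈ S, ∀ x ∈ N a, Φ a 0 x = x := fun a ha x hx => by
    simp only [Φ, (h3 a ha).zero _ hx.2, (chartAt E a.1).left_inv hx.1]
  have p1 : ∀ a ∈ S, ∀ x ∈ N a, IC (fun a t y => -W a t y) U (fun s => Φ a s x) (Icc 0 τ) :=
    fun a ha x hx => hW.neg.ic (Icc_subset_Icc_right τ1) (fun t ht => (h3 a ha).mem t ht _ hx.2)
      fun t ht => (h3 a ha).eqn t ht _ hx.2
  have p2 : ∀ a ∈ S, N a ⊆ U := fun a ha x hx => p0 a ha x hx ▸ (p1 a ha x hx).mem z0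
  let φ : ℝ → M → M := fun s x => if k : x ∈ U then Φ (i x k) s x else x
  have p3 : ∀ a ∈ S, ∀ s ∈ Icc 0 τ, EqOn (φ s) (Φ a s) (N a) := fun a ha s hs x hx => by
    have k := p2 a ha hx
    exact (dif_pos k).trans (IC.unique hW.neg (convex_Icc _ _) hg.isOpen hH
      (Icc_subset_Icc_right τ1) (p1 _ (i1 x k) x (i2 x k)) (p1 a ha x hx)
      ((p0 _ (i1 x k) x (i2 x k)).trans (p0 a ha x hx).symm) hs)
  refine ⟨τ, τ0, fun s => comap (φ s) (g s), rf_of_forall fun x hx => ⟨_, i2 x hx, p2 _ (i1 x hx),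
    ?_⟩, ?_⟩
  · have k := h3 _ (i1 x hx)
    refine ((k.rf hT τ1 (hg.co _) (he _)).comap ((ld_chart _).mono (n1 _) inter_subset_left)
      fun y hy => hy.2).congr fun s hs y hy => ?_
    have b1 := (k.ld hs).md hy.2
    have b2 := (sm_chart hy.1).md
    rw [comap_comp _ b1 b2, co, comap_comp (k := ψ _ s ∘ chartAt E (i x hx).1) _
      (sm_symm (k.mem s hs _ hy.2).1).md (b1.comp y b2)]
    exact comap_congr _ ((p3 _ (i1 x hx) s hs).eventuallyEq_of_mem ((n1 _).mem_nhds hy))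
  · have : φ 0 = id := funext fun x => by
      by_cases k : x ∈ U
      · exact (dif_pos k).trans (p0 _ (i1 x k) x (i2 x k))
      · exact dif_neg k
    simp only [this, P216R.comap_id]

end Vale.Agent.P216ST
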