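import Vale.Agent.P216ST.DT2
import Vale.Agent.P216ST.Heat
import Vale.Agent.P216ST.Pull2
import Mathlib.Geometry.Manifold.WhitneyEmbedding

/-! # Short time existence of the Ricci flow on a closed manifold -/

set_option maxSynthPendingDepth 3
set_option linter.unusedSectionVars false

open Set Filter Topology
open scoped Manifold ContDiff

noncomputable section

namespace Vale.Agent.P216ST

open Vale.Agent.P216R Vale.Agent.P219.RG

variable {E : Type} [NormedAddCommGroup E] [NormedSpace ℝ E] [FiniteDimensional ℝ E]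
  {X : Type} [TopologicalSpace X] [ChartedSpace E X] [IsManifold 𝓘(ℝ, E) ∞ X]
  {J : Type} [Fintype J] [DecidableEq J] {g₀ : Ten E X} {a b : X} {y : E}

theorem rdt_congr {G G' : E → Bil E} (h : G =ᶠ[𝓝 y] G') (G₀ : E → Bil E) :
    rdt G G₀ y = rdt G' G₀ y := by
  have h1 : wv G G₀ =ᶠ[𝓝 y] wv G' G₀ := by
    filter_upwards [h, chrisB_congr h] with z z1 z2
    simp only [wv, z1, z2]
  simp only [rdt, lie, ricG_congr h, h.fderiv_eq, h.self_of_nhds, h1.fderiv_eq, h1.self_of_nhds]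

theorem iso_trn {U : Set X} (hg : Met g₀ U) (hy : y ∈ dom E a U)
    (hb : (chartAt E a).symm y ∈ (chartAt E b).source) :
    Iso (co g₀ a) (co g₀ b) (trn E a b) y := by
  have := LI.iso_chart (h := g₀) (f := id) (x := (chartAt E a).symm y) ⟨⟨U, hg, hy.2⟩,
    ⟨U, ld_id hg.isOpen, hy.2⟩, by rw [P216R.comap_id]⟩ ((chartAt E a).map_target hy.1) hb
  rwa [(chartAt E a).right_inv hy.1] at this

theorem exists_fr [CompactSpace X] [T2Space X] (hg : Met g₀ univ) :
    ∃ (n : ℕ) (f : Fin n → X → ℝ), ∀ a,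
      Fr (co g₀ a) (fun j => rd E (f j) a) (chartAt E a).target := by
  obtain ⟨n, e, h1, -, h2⟩ := exists_embedding_euclidean_of_compact (I := 𝓘(ℝ, E)) (M := X)
  have s : ∀ a, ∀ y ∈ (chartAt E a).target, ContDiffAt ℝ ∞ (rd E e a) y := fun a y hy =>
    smooth_rd hy (h1 _)
  refine ⟨n, fun j x => e x j, fun a => ⟨dom_univ (E := E) a ▸ hg.isMetricOn a, fun j y hy =>
    ((EuclideanSpace.proj j : _ →L[ℝ] ℝ).contDiff.contDiffAt.comp y (s a y hy)).contDiffWithinAt,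
    fun y hy v hv => ?_⟩⟩
  have d : ∀ j, fderiv ℝ (rd E (fun x => e x j) a) y v = fderiv ℝ (rd E e a) y v j := fun j =>
    congrArg (fun L => L v) ((EuclideanSpace.proj j : _ →L[ℝ] ℝ).hasFDerivAt.comp y
      ((s a y hy).differentiableAt (by simp)).hasFDerivAt).fderiv
  have k : fderiv ℝ (rd E e a) y v ≠ 0 := fun h0 => by
    rw [← mfderiv_eq_fderiv, rd, mfderiv_comp y ((h1 _).mdifferentiableAt (by simp))
      (sm_symm hy).md] at h0
    exact hv ((ld_symm a).inj y hy ((h2 _ (h0.trans (map_zero _).symm)).trans (map_zero _).symm))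
  obtain ⟨j, hj⟩ : ∃ j, fderiv ℝ (rd E e a) y v j ≠ 0 := by
    by_contra! h0
    exact k (PiLp.ext h0)
  simp only [gm, sum_apply, pr_apply, d]
  exact Finset.sum_pos' (fun i _ => by linarith [mul_self_nonneg (fderiv ℝ (rd E e a) y v i)])
    ⟨j, Finset.mem_univ _, by linarith [mul_self_pos.2 hj]⟩

variable {f : J → X → ℝ} {u : J × J → X → ℝ} {W : Set X}

theorem ev_sm0 (hu : ∀ c, Sm0 E (u c) W) (hW : IsOpen W) (hy : y ∈ dom E a W) :
    ∀ᶠ z in 𝓝 y, ∀ c, ContDiffAt ℝ ∞ (rd E (u c) a) z :=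
  ((isOpen_dom a hW).eventually_mem hy).mono fun _ hz c => (hu c).at hW hz

theorem opc_trn (hg : Met g₀ univ)
    (hf : ∀ a, Fr (co g₀ a) (fun j => rd E (f j) a) (chartAt E a).target) {y' : E}
    (hy : y ∈ (chartAt E a).target) (hy' : y' ∈ (chartAt E b).target)
    (e : (chartAt E a).symm y = (chartAt E b).symm y') (hu : ∀ c, Sm0 E (u c) W) (hW : IsOpen W)
    (hx : (chartAt E a).symm y ∈ W)
    (p : ∀ v, v ≠ 0 → 0 < gw (co g₀ b) (fun j => rd E (f j) b) (fun c => rd E (u c) b) y' v v) :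
    opc (co g₀ a) (fun j => rd E (f j) a) (fun c => rd E (u c) a) y =
      opc (co g₀ b) (fun j => rd E (f j) b) (fun c => rd E (u c) b) y' := by
  have hb : (chartAt E a).symm y ∈ (chartAt E b).source := e ▸ (chartAt E b).map_target hy'
  obtain rfl : trn E a b y = y' := by rw [trn, e, (chartAt E b).right_inv hy']
  exact nat_opc (hf b) hy' (iso_trn hg ⟨hy, trivial⟩ hb) (fun j => rd_trn (f j) hy hb)
    (fun c => rd_trn (u c) hy hb) (ev_sm0 hu hW ⟨hy', mem_preimage.2 (e ▸ hx)⟩) p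

variable (g₀ f u) in
/-- the tensor with coefficients `u` -/
def gM : Ten E X := fun x => gw (co g₀ x) (fun j => rd E (f j) x) (fun c => rd E (u c) x) (pt E x)

theorem co_gM (hg : Met g₀ univ)
    (hf : ∀ a, Fr (co g₀ a) (fun j => rd E (f j) a) (chartAt E a).target)
    (hy : y ∈ (chartAt E a).target) :
    co (gM g₀ f u) a y = gw (co g₀ a) (fun j => rd E (f j) a) (fun c => rd E (u c) a) y := by
  have hb := mem_chart_source E ((chartAt E a).symm y)
  rw [(nat_gw (w' := fun c => rd E (u c) _) (hf _) (pt_mem _) (iso_trn hg ⟨hy, trivial⟩ hb)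
    (fun j => rd_trn (f j) hy hb) fun c => rd_trn (u c) hy hb).self_of_nhds]
  have e := md_comp (sm_chart hb).md (sm_symm hy).md
  rw [md_chart_self, ContinuousLinearMap.id_comp] at e
  ext v w
  rw [co, comap_apply, comap_apply, ← e]
  rfl

theorem ste_cpt [CompactSpace X] [T2Space X] (hg : Met g₀ univ) :
    ∃ T > 0, ∃ g : ℝ → Ten E X, RF g (Icc 0 T) univ ∧ g 0 = g₀ := by
  obtain ⟨n, f, hf⟩ := exists_fr hg
  obtain ⟨m, pt, Q, hQ, H⟩ := core E X
  have p0 : ∀ i, ∀ y ∈ Q i, ∀ v, v ≠ 0 → 0 < gw (co g₀ (pt i)) (fun j => rd E (f j) (pt i))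
      (fun c _ => (0 : Fin n × Fin n → ℝ) c) y v v := fun i y hy => by
    simpa [gw] using (hf _).met.pos y ((hQ i).2 hy)
  obtain ⟨η, η0, H⟩ := H (Fin n × Fin n) E _ _ _ Q ⟨fun i => isOpen_oV (hf (pt i)),
    fun i => smooth_oA (hf _), fun i => smooth_oG (hf _), fun i => (hQ i).1,
    fun i y hy => ⟨(hQ i).2 hy, p0 i y hy⟩, fun i y hy ξ hξ => trB_sq (p0 i y hy) hξ⟩ 1 zero_le_one
  obtain ⟨s, ⟨τ, hτ, H⟩, s0⟩ := (H.and self_mem_nhdsWithin).exists
  replace s0 : 0 < s ^ 2 := pow_pos s0 2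
  obtain ⟨v, v0, hv⟩ := H (fun _ _ y => y) (fun _ => continuousOn_snd)
    (fun i t _ y hy => ⟨hy, by simp [η0.le], fun _ _ => by simp⟩)
    (fun t _ i j y hy y' hy' e u W hW hx hu m1 m2 => by
      rw [opE_opc (hf _) (ev_sm0 hu hW ⟨m1.1, hx⟩) m1,
        opE_opc (hf _) (ev_sm0 hu hW ⟨m2.1, mem_preimage.2 (e ▸ hx)⟩) m2,
        opc_trn hg hf m1.1 m2.1 e hu hW hx m2.2]) τ ⟨hτ.1, le_rfl⟩ fun _ => contDiffOn_snd
  have hm : MapsTo (fun t => t / s ^ 2) (Icc 0 (s ^ 2 * τ)) (Icc 0 τ) := fun t ht =>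
    ⟨div_nonneg ht.1 s0.le, (div_le_iff₀' s0).2 ht.2⟩
  have sv : ∀ c, SmF E (fun t => v (t / s ^ 2) c) (Icc 0 (s ^ 2 * τ)) univ := fun c b => by
    rw [dom_univ]
    exact (smooth_of_local (u := fun t => v t c) (fun x =>
      let ⟨i, U, h1, h2, h3, h4, _⟩ := hv x; ⟨pt i, U, h1, h2.trans (hQ i).2, h3, h4 c⟩) b).comp
        (f := fun q : ℝ × E => (q.1 / s ^ 2, q.2)) (by fun_prop) fun q hq => ⟨hm hq.1, hq.2⟩
  have ev : ∀ t, ∀ b, ∀ y ∈ (chartAt E b).target, ∀ᶠ z in 𝓝 y, co (gM g₀ f (v t)) b z =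
      gw (co g₀ b) (fun j => rd E (f j) b) (fun c => rd E (v t c) b) z := fun t b y hy =>
    ((chartAt E b).open_target.eventually_mem hy).mono fun z hz => co_gM hg hf hz
  have fam : Fam (fun t => gM g₀ f (v (t / s ^ 2))) (Icc 0 (s ^ 2 * τ)) univ := by
    refine ⟨isOpen_univ, fun t _ x _ => (hf x).gw_symm (pt_mem x) _, fun t ht x _ w hw => ?_,
      fun b => (contDiffOn_of_ps (f := fun t => gw (co g₀ b) (fun j => rd E (f j) b)
        fun c => rd E (v (t / s ^ 2) c) b) fun t ht y hy => ps_gw (hf b) hy.1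
          fun c => (sv c).ps isOpen_univ ht hy).congr fun q hq => co_gM hg hf hq.2.1⟩
    obtain ⟨i, U, -, h2, ⟨y, hy, rfl⟩, -, h5⟩ := hv x
    have h6 := (h5 _ (hm ht) y hy).1
    obtain ⟨w, rfl⟩ := (ld_symm (pt i)).surj h6.1 w
    have h7 : 0 < gw (co g₀ (pt i)) (fun j => rd E (f j) (pt i))
      (fun c => rd E (v (t / s ^ 2) c) (pt i)) y w w := h6.2 w fun h0 => hw (by rw [h0, map_zero])
    rwa [← co_gM hg hf h6.1] at h7
  obtain ⟨T, T0, h, h1, h2⟩ := pull E X univ _ (fun b t => wv (co (gM g₀ f (v (t / s ^ 2))) b)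
    (co g₀ b)) _ isCompact_univ (hs_of_t2 _) (mul_pos s0 hτ.1) fam
    ⟨fun b => contDiffOn_of_ps (f := fun t => wv (co (gM g₀ f (v (t / s ^ 2))) b) (co g₀ b))
      fun t ht y hy => ps_wv (fam.ps ht hy) ((hg.fam _).ps ht hy) ht (fam.co_pos ht hy)
        ((hg.isMetricOn b).pos y hy),
      fun a b t ht y hy hb => iso_wv (iso_trn (fam.met ht) hy hb) (iso_trn hg hy hb)⟩
    fun b t ht y hy => by
      obtain ⟨i, U, -, h2, ⟨y', hy', e⟩, -, h5⟩ := hv ((chartAt E b).symm y)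
      obtain ⟨h6, h7⟩ := h5 _ (hm ht) y' hy'
      have s1 := fun c => (sv c).sm0 ht
      have p := fam.co_pos ht hy
      rw [co_gM hg hf hy.1] at p
      rw [opE_opc (hf _) (ev_sm0 s1 isOpen_univ ⟨h6.1, trivial⟩) h6,
        ← opc_trn hg hf hy.1 h6.1 e.symm s1 isOpen_univ trivial h6.2] at h7
      change HasDerivWithinAt _ (rdt _ _ _) _ _
      rw [rdt_congr (ev _ b y hy.1), ← sum_opc (hf b) hy.1 (ev_sm0 s1 isOpen_univ hy) p]
      simp only [co_gM hg hf hy.1]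
      refine (HasDerivWithinAt.fun_sum fun c _ => HasDerivWithinAt.smul_const ?_ _).const_add _
      have d := (h7 c).comp t ((hasDerivAt_id' t).div_const (s ^ 2)).hasDerivWithinAt hm
      simp only [rd, Function.comp_def, e] at d ⊢
      exact d.congr_deriv (by rw [mul_one_div, mul_div_cancel_left₀ _ s0.ne'])
  refine ⟨T, T0, h, h1, h2.trans (funext fun x => ?_)⟩
  simp [gM, gw, rd, v0, co_pt]

variable (E)

/-- **Short time existence of the Ricci flow.** -/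
theorem ste : STE E := by
  classical
  intro M _ _ _ U g₀ hc hH hg
  have hU := hg.isOpen
  rcases U.eq_empty_or_nonempty with rfl | hne
  · exact ⟨1, one_pos, fun _ => g₀, ⟨hg.fam _, fun _ _ _ h => h.elim⟩, rfl⟩
  obtain ⟨X, _, _, _, _, _, i, j, hi, hj, hm, e⟩ := exists_model (E := E) hU hc hH hne
  obtain ⟨T, T0, h, h1, h2⟩ := ste_cpt (hg.comap hi hm)
  refine ⟨T, T0, fun t x => if x ∈ U then comap j (h t) x else g₀ x,
    (h1.comap hj (mapsTo_univ _ _)).congr fun t _ x hx => if_pos hx, funext fun x => ?_⟩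
  dsimp only
  split_ifs with hx
  · rw [h2, comap_inv _ (hj.md hx) (hi.md trivial) ((hU.eventually_mem hx).mono e)]
  · rfl

end Vale.Agent.P216ST
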