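import Vale.Agent.P216ST.ExS
import Vale.Agent.P253W.FP.At1

/-! # Admissible right hand sides from smooth quasilinear operators -/

set_option maxSynthPendingDepth 3
set_option linter.unusedSectionVars false

open Set Metric Filter Topology
open scoped ContDiff
open Vale.Agent.P272.K.R (Hol Bil D2)
open Vale.Agent.P272.K.LIN (Jet jet)

noncomputable section

namespace Vale.Agent.P216ST

open Vale.Agent.P253W.FP Vale.Agent.P253W.FP.At

variable {E : Type} [NormedAddCommGroup E] [NormedSpace ℝ E] [FiniteDimensional ℝ E]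
  {Λ : Type} [Fintype Λ] [DecidableEq Λ] {P : Type} [NormedAddCommGroup P] [NormedSpace ℝ P]

/-- the block `(a, b)` of a derivative -/
def blk (L : P × (Λ → Jet E) →L[ℝ] Λ → ℝ) (a b : Λ) : Jet E →L[ℝ] ℝ :=
  (ContinuousLinearMap.proj a : (Λ → ℝ) →L[ℝ] ℝ) ∘L L ∘L ContinuousLinearMap.inr ℝ P _ ∘L
    ContinuousLinearMap.single ℝ (fun _ : Λ => Jet E) b

theorem blk_apply (L : P × (Λ → Jet E) →L[ℝ] Λ → ℝ) (a b : Λ) (z : Jet E) :
    blk L a b z = L (0, Pi.single b z) a := rfl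

theorem norm_blk (L : P × (Λ → Jet E) →L[ℝ] Λ → ℝ) (a b : Λ) : ‖blk L a b‖ ≤ ‖L‖ :=
  ContinuousLinearMap.opNorm_le_bound _ (norm_nonneg _) fun z => by
    rw [blk_apply]
    refine (norm_le_pi_norm _ a).trans ((L.le_opNorm _).trans (le_of_eq ?_))
    simp [Prod.norm_def, Pi.norm_single]

theorem tot_blk (L : P × (Λ → Jet E) →L[ℝ] Λ → ℝ) (a : Λ) (z : Λ → Jet E) :
    tot (blk L a) z = L (0, z) a := by
  rw [tot_apply]
  simp only [blk_apply]
  have : ∑ b, ((0 : P), (Pi.single b (z b) : Λ → Jet E)) = (0, z) := by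
    ext1
    · simp [Prod.fst_sum]
    · simp [Prod.snd_sum, Finset.univ_sum_single]
  rw [← Finset.sum_apply, ← map_sum, this]

theorem admS_of {V : Set (P × (Λ → Jet E))} (hV : IsOpen V) {Φ : P × (Λ → Jet E) → Λ → ℝ}
    (hΦ : ContDiffOn ℝ ∞ Φ V) {C : Set P} (hC : IsCompact C) {ρ : ℝ} (ρ0 : 0 ≤ ρ)
    (hρ : C ×ˢ closedBall 0 ρ ⊆ V) {A : P × (Λ → Jet E) → Bil E →L[ℝ] ℝ}
    (lin : ∀ k z (b : Λ) (h : Bil E) (r : ℝ) a,
      Φ (k, z + r • (Pi.single b (j2 h) : Λ → Jet E)) a =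
      Φ (k, z) a + r * (kr a b * A (k, z) h)) (α : ℝ) {K₁ : ℝ} (K0 : 0 ≤ K₁) :
    ∀ᶠ KF in atTop, ∀ δ ≤ ρ, ∀ (T ε : ℝ) (B : Bil E →L[ℝ] ℝ) (q : ℝ → E → P),
      ContinuousOn (fun x : ℝ × E => q x.1 x.2) (Icc 0 T ×ˢ ball 0 4) →
      (∀ t ∈ Icc 0 T, Hol α K₁ (q t) (ball 0 4)) → (∀ t ∈ Icc 0 T, ∀ y ∈ ball (0 : E) 4, q t y ∈ C) →
      (∀ t ∈ Icc 0 T, ∀ y ∈ ball (0 : E) 4, ∀ z ∈ ball (0 : Λ → Jet E) δ, ‖A (q t y, z) - B‖ ≤ ε) →
      ∃ A', AdmS α KF δ T ε B (fun a t y z => Φ (q t y, z) a) A' := by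
  have := FiniteDimensional.proper_real (Λ → Jet E)
  have hc : IsCompact (C ×ˢ closedBall (0 : Λ → Jet E) ρ) := hC.prod (isCompact_closedBall _ _)
  have one : (1 : WithTop ℕ∞) ≤ ∞ := by exact_mod_cast le_top
  have sm : ∀ x ∈ C ×ˢ closedBall (0 : Λ → Jet E) ρ, ContDiffAt ℝ ∞ Φ x := fun x hx =>
    hΦ.contDiffAt (hV.mem_nhds (hρ hx))
  obtain ⟨L, ⟨b0, b1⟩, L0⟩ := (((ev_BL hc fun x hx => (sm x hx).of_le one).and
    (ev_BL hc fun x hx => ((sm x hx).fderiv_right (m := ∞) le_rfl).of_le one)).and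
    (eventually_ge_atTop 0)).exists
  filter_upwards [eventually_ge_atTop (L * (K₁ + 1))] with KF hK δ hδ T ε B q qc qh qm qn
  have m : ∀ t ∈ Icc 0 T, ∀ y ∈ ball (0 : E) 4, ∀ z ∈ ball (0 : Λ → Jet E) δ,
      (q t y, z) ∈ C ×ˢ closedBall (0 : Λ → Jet E) ρ := fun t ht y hy z hz =>
    ⟨qm t ht y hy, closedBall_subset_closedBall hδ (ball_subset_closedBall hz)⟩
  have m0 : ∀ t ∈ Icc 0 T, ∀ y ∈ ball (0 : E) 4,
      (q t y, 0) ∈ C ×ˢ closedBall (0 : Λ → Jet E) ρ := fun t ht y hy =>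
    ⟨qm t ht y hy, mem_closedBall_self ρ0⟩
  have LK : L ≤ KF := by nlinarith
  have d : ∀ t ∈ Icc 0 T, ∀ y ∈ ball (0 : E) 4, ∀ z ∈ ball (0 : Λ → Jet E) δ, ∀ a,
      HasFDerivAt (fun z => Φ (q t y, z) a) (tot (blk (fderiv ℝ Φ (q t y, z)) a)) z :=
    fun t ht y hy z hz a => by
      have h1 := ((sm _ (m t ht y hy z hz)).differentiableAt (by simp)).hasFDerivAt.comp z
        (hasFDerivAt_prodMk_right (𝕜 := ℝ) (q t y) z)
      refine (((ContinuousLinearMap.proj a : (Λ → ℝ) →L[ℝ] ℝ).hasFDerivAt.comp z h1)).congr_fderiv ?_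
      refine ContinuousLinearMap.ext fun w => ?_
      rw [tot_blk]
      rfl
  refine ⟨fun a b t y z => blk (fderiv ℝ Φ (q t y, z)) a b, fun a t ht y hy z hz =>
    d t ht y hy z hz a, fun a => ?_, fun a b t ht y hy z hz => ?_,
    fun a b t ht y hy z hz y' hy' z' hz' => ?_, fun a t ht y hy => ?_,
    fun a t ht y hy y' hy' => ?_, fun a b t ht y hy z hz => ?_⟩
  · refine (continuous_apply a).comp_continuousOn (hΦ.continuousOn.comp
      ((qc.comp (f := fun x : ℝ × E × (Λ → Jet E) => (x.1, x.2.1)) (by fun_prop)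
        fun x hx => ⟨hx.1, hx.2.1⟩).prodMk (by fun_prop)) fun x hx => hρ (m _ hx.1 _ hx.2.1 _ hx.2.2))
  · exact (norm_blk _ _ _).trans ((b1 _ (m t ht y hy z hz)).1.trans LK)
  · have h1 := (b1 _ (m t ht y hy z hz)).2 _ (m t ht y' hy' z' hz')
    have h2 := qh t ht y hy y' hy'
    have h4 : 0 ≤ ‖y - y'‖ ^ α := by positivity
    have h5 : ‖((q t y, z) : P × (Λ → Jet E)) - (q t y', z')‖ ≤
        (K₁ + 1) * (‖y - y'‖ ^ α + ‖z - z'‖) := by
      rw [Prod.mk_sub_mk, Prod.norm_mk]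
      refine max_le ?_ ?_ <;> nlinarith [norm_nonneg (z - z'), mul_nonneg K0 h4,
        mul_nonneg K0 (norm_nonneg (z - z'))]
    have e : blk (fderiv ℝ Φ (q t y, z)) a b - blk (fderiv ℝ Φ (q t y', z')) a b =
        blk (fderiv ℝ Φ (q t y, z) - fderiv ℝ Φ (q t y', z')) a b :=
      ContinuousLinearMap.ext fun w => by simp [blk_apply]
    rw [e]
    refine (norm_blk _ _ _).trans (h1.trans ((mul_le_mul_of_nonneg_left h5 L0).trans ?_))
    rw [← mul_assoc]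
    exact mul_le_mul_of_nonneg_right hK (by positivity)
  · exact (norm_le_pi_norm _ a).trans ((b0 _ (m0 t ht y hy)).1.trans LK)
  · have h1 := (b0 _ (m0 t ht y hy)).2 _ (m0 t ht y' hy')
    rw [Prod.mk_sub_mk, sub_self, Prod.norm_mk, norm_zero, max_eq_left (norm_nonneg _)] at h1
    have h4 : 0 ≤ ‖y - y'‖ ^ α := by positivity
    refine (norm_le_pi_norm (Φ (q t y, 0) - Φ (q t y', 0)) a).trans (h1.trans
      ((mul_le_mul_of_nonneg_left (qh t ht y hy y' hy') L0).trans ?_))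
    rw [← mul_assoc]
    exact mul_le_mul_of_nonneg_right (by nlinarith) h4
  · have e : (blk (fderiv ℝ Φ (q t y, z)) a b).comp j2 = kr a b • A (q t y, z) := by
      ext1 h
      have h1 : HasDerivAt (fun r : ℝ => z + r • (Pi.single b (j2 h) : Λ → Jet E))
          (Pi.single b (j2 h)) 0 := by
        simpa using ((hasDerivAt_id (0 : ℝ)).smul_const (Pi.single b (j2 h) : Λ → Jet E)).const_add z
      have h2 := (d t ht y hy z hz a).comp_hasDerivAt_of_eq 0 h1 (by simp)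
      rw [tot_blk] at h2
      have h3 : HasDerivAt (fun r : ℝ => Φ (q t y, z) a + r * (kr a b * A (q t y, z) h))
          (kr a b * A (q t y, z) h) 0 := by
        simpa using ((hasDerivAt_id (0 : ℝ)).mul_const (kr a b * A (q t y, z) h)).const_add
          (Φ (q t y, z) a)
      exact h2.unique (h3.congr_of_eventuallyEq (Eventually.of_forall fun r => lin _ _ _ _ _ _))
    rw [e]
    have h := qn t ht y hy z hz
    unfold kr
    split_ifs
    · simpa using h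
    · simpa using (norm_nonneg _).trans h

/-- the quasilinear operator in a chart -/
def opE (A : P × (Λ → ℝ) → Bil E →L[ℝ] ℝ) (G : (P × (Λ → ℝ)) × (Λ → E →L[ℝ] ℝ) → Λ → ℝ) (k : P)
    (w : Λ → E → ℝ) (y : E) (c : Λ) : ℝ :=
  A (k, fun c => w c y) (D2 (w c) y) + G ((k, fun c => w c y), fun c => fderiv ℝ (w c) y) c

/-- the rescaled lower order part -/
def gs (s : ℝ) (G : (P × (Λ → ℝ)) × (Λ → E →L[ℝ] ℝ) → Λ → ℝ)
    (x : (P × (Λ → ℝ)) × (Λ → E →L[ℝ] ℝ)) : Λ → ℝ := s ^ 2 • G (x.1, s⁻¹ • x.2)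

/-- the operator on jets -/
def phi (A : P × (Λ → ℝ) → Bil E →L[ℝ] ℝ) (G : (P × (Λ → ℝ)) × (Λ → E →L[ℝ] ℝ) → Λ → ℝ)
    (x : P × (Λ → Jet E)) (c : Λ) : ℝ :=
  A (x.1, fun c => (x.2 c).1) (x.2 c).2.2 + G ((x.1, fun c => (x.2 c).1), fun c => (x.2 c).2.1) c

variable {A : P × (Λ → ℝ) → Bil E →L[ℝ] ℝ} {G : (P × (Λ → ℝ)) × (Λ → E →L[ℝ] ℝ) → Λ → ℝ}
  {V : Set (P × (Λ → ℝ))}

theorem phi_jet (k : P) (w : Λ → E → ℝ) (y : E) :
    phi A G (k, fun c => jet (w c) y) = opE A G k w y := rfl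

theorem opE_congr (k : P) {w w' : Λ → E → ℝ} {y y' : E} (h : ∀ c, jet (w c) y = jet (w' c) y') :
    opE A G k w y = opE A G k w' y' := by
  rw [← phi_jet, ← phi_jet, funext h]

theorem opE_scale {s : ℝ} (hs : s ≠ 0) (k : P) (w : Λ → E → ℝ) (p y : E) (c : Λ) :
    opE A (gs s G) k (fun c z => w c (p + s • z)) y c = s ^ 2 * opE A G k w (p + s • y) c := by
  have h1 : ∀ c, fderiv ℝ (fun z => w c (p + s • z)) = fun z => s • fderiv ℝ (w c) (p + s • z) :=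
    fun c => by simpa using fderiv_scale' (w c) 1 s p
  have h2 : (s⁻¹ • fun c => s • fderiv ℝ (w c) (p + s • y)) = fun c => fderiv ℝ (w c) (p + s • y) :=
    funext fun c => inv_smul_smul₀ hs _
  simp only [opE, gs, D2, h1, fderiv_scale', h2, map_smul, Pi.smul_apply, smul_eq_mul]
  ring

theorem gs_smooth (s : ℝ) (hG : ContDiffOn ℝ ∞ G (V ×ˢ univ)) :
    ContDiffOn ℝ ∞ (gs s G) (V ×ˢ univ) :=
  (hG.comp (f := fun x : (P × (Λ → ℝ)) × (Λ → E →L[ℝ] ℝ) => (x.1, s⁻¹ • x.2)) (by fun_prop)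
    fun _ hx => ⟨hx.1, trivial⟩).const_smul _

theorem phi_smooth (hA : ContDiffOn ℝ ∞ A V) (hG : ContDiffOn ℝ ∞ G (V ×ˢ univ)) :
    ContDiffOn ℝ ∞ (phi A G) {x | (x.1, fun c => (x.2 c).1) ∈ V} := by
  have h0 : ContDiff ℝ ∞ fun x : P × (Λ → Jet E) => (x.1, fun c => (x.2 c).1) := by fun_prop
  have h1 : ContDiff ℝ ∞ fun x : P × (Λ → Jet E) => fun c => (x.2 c).2.1 := by fun_prop
  refine contDiffOn_pi.2 fun c => ((hA.comp h0.contDiffOn fun _ hx => hx).clm_apply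
    (by fun_prop)).add ?_
  exact contDiffOn_pi.1 (hG.comp (h0.prodMk h1).contDiffOn fun _ hx => ⟨hx, trivial⟩) c

theorem phi_lin (k : P) (z : Λ → Jet E) (b : Λ) (h : Bil E) (r : ℝ) (a : Λ) :
    phi A G (k, z + r • (Pi.single b (j2 h) : Λ → Jet E)) a =
      phi A G (k, z) a + r * (kr a b * A (k, fun c => (z c).1) h) := by
  have h0 : ∀ c, (z + r • (Pi.single b (j2 h) : Λ → Jet E)) c =
      ((z c).1, (z c).2.1, (z c).2.2 + (r * kr c b) • h) := fun c => by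
    by_cases e : c = b
    · subst e; ext <;> simp [kr, j2_apply]
    · simp [kr, e]
  simp only [phi, h0, map_add, map_smul, smul_eq_mul]
  ring

/-- a polynomial with a given jet -/
theorem exists_poly {f : E → ℝ} {y : E} (hf : ContDiffAt ℝ 2 f y) :
    ∃ g : E → ℝ, ContDiff ℝ ∞ g ∧ jet g y = jet f y := by
  have hs : ∀ v w, D2 f y v w = D2 f y w v := (hf.isSymmSndFDerivAt (by simp)).eq
  have h1 : ∀ z, HasFDerivAt (fun z => f y + fderiv ℝ f y (z - y) + 1 / 2 * D2 f y (z - y) (z - y))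
      (fderiv ℝ f y + D2 f y (z - y)) z := fun z => by
    have a := (hasFDerivAt_id (𝕜 := ℝ) z).sub_const y
    refine ((((fderiv ℝ f y).hasFDerivAt.comp z a).const_add (f y)).add
      ((((D2 f y).hasFDerivAt.comp z a).clm_apply a).const_mul (1 / 2))).congr_fderiv ?_
    ext v
    simp only [hs v, add_apply, smul_apply, ContinuousLinearMap.comp_apply,
      ContinuousLinearMap.id_apply, ContinuousLinearMap.flip_apply, Function.comp_apply, id,
      smul_eq_mul]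
    ring
  have h2 : fderiv ℝ (fun z => f y + fderiv ℝ f y (z - y) + 1 / 2 * D2 f y (z - y) (z - y)) =
      fun z => fderiv ℝ f y + D2 f y (z - y) := funext fun z => (h1 z).fderiv
  refine ⟨fun z => f y + fderiv ℝ f y (z - y) + 1 / 2 * D2 f y (z - y) (z - y), by fun_prop, ?_⟩
  have h3 := (((D2 f y).hasFDerivAt.comp y ((hasFDerivAt_id (𝕜 := ℝ) y).sub_const y)).const_add
    (fderiv ℝ f y)).fderiv
  unfold jet
  rw [h2]
  refine Prod.ext (by simp) (Prod.ext (by simp) ?_)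
  simpa using h3

end Vale.Agent.P216ST
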