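import Vale.Agent.P216ST.Lat
import Vale.Agent.P216ST.Stmt2
import Vale.Agent.P253W.FP.Defs

/-! # Uniform atlases at small scales on a compact manifold -/

set_option maxSynthPendingDepth 3
set_option linter.unusedSectionVars false

open Set Metric Filter Topology
open scoped Manifold ContDiff
open Vale.Agent.P272.K.R (Hol)

noncomputable section

namespace Vale.Agent.P216ST

open Vale.Agent.P253W.FP Vale.Agent.P253W.FP.At

variable {E : Type} [NormedAddCommGroup E] [NormedSpace ℝ E] [FiniteDimensional ℝ E]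
  {X : Type} [TopologicalSpace X] [ChartedSpace E X] [IsManifold 𝓘(ℝ, E) ∞ X]

theorem trn_smooth {a b : X} {y : E} (hy : y ∈ (chartAt E a).target)
    (hb : (chartAt E a).symm y ∈ (chartAt E b).source) : ContDiffAt ℝ ∞ (trn E a b) y :=
  P216R.contDiffAt_chart_comp (P216R.sm_symm hy) hb

theorem smooth_rd {F : Type} [NormedAddCommGroup F] [NormedSpace ℝ F] {f : X → F} {a : X} {y : E}
    (hy : y ∈ (chartAt E a).target)
    (hf : ContMDiffAt 𝓘(ℝ, E) 𝓘(ℝ, F) ∞ f ((chartAt E a).symm y)) :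
    ContDiffAt ℝ ∞ (fun z => f ((chartAt E a).symm z)) y :=
  (hf.comp y (P216R.sm_symm hy)).contDiffAt

/-- the affine change of coordinates -/
def aff (p : E) {s : ℝ} (hs : s ≠ 0) : E ≃ₜ E where
  toFun z := s⁻¹ • (z - p)
  invFun y := p + s • y
  left_inv z := by simp [smul_inv_smul₀ hs]
  right_inv y := by simp [inv_smul_smul₀ hs]
  continuous_toFun := by fun_prop
  continuous_invFun := by fun_prop

variable (E) in
/-- the overlap -/
def Ov (a b : X) (Q Q' : Set E) : Set E :=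
  Q' ∩ (chartAt E b).symm ⁻¹' ((chartAt E a).symm '' Q)

/-- the finite data -/
structure FD {m : ℕ} (pt : Fin m → X) (Q : Fin m → Set E) (ρ : Fin m → X → ℝ) (δ L : ℝ) :
    Prop where
  δ0 : 0 < δ
  L1 : 1 ≤ L
  hc : ∀ a, IsCompact (Q a) ∧ Q a ⊆ (chartAt E (pt a)).target
  ρb : ∀ a x, |ρ a x| ≤ 1
  ρs : ∀ a x, ρ a x ≠ 0 → x ∈ (chartAt E (pt a)).source ∧ ball (chartAt E (pt a) x) δ ⊆ Q a
  sum : ∀ x, ∑ a, ρ a x = 1
  ρl : ∀ a, BL L (fun z => ρ a ((chartAt E (pt a)).symm z)) (Q a)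
  sm : ∀ a b, ∀ z ∈ Ov E (pt a) (pt b) (Q a) (Q b), ContDiffAt ℝ 2 (trn E (pt b) (pt a)) z
  l0 : ∀ a b, BL L (trn E (pt b) (pt a)) (Ov E (pt a) (pt b) (Q a) (Q b))
  l1 : ∀ a b, BL L (fderiv ℝ (trn E (pt b) (pt a))) (Ov E (pt a) (pt b) (Q a) (Q b))
  l2 : ∀ a b, BL L (fderiv ℝ (fderiv ℝ (trn E (pt b) (pt a)))) (Ov E (pt a) (pt b) (Q a) (Q b))

variable (E X) in
theorem ex_fd [CompactSpace X] [T2Space X] : ∃ (m : ℕ) (pt : Fin m → X) (Q : Fin m → Set E)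
    (ρ : Fin m → X → ℝ) (δ L : ℝ), FD pt Q ρ δ L := by
  have := FiniteDimensional.proper_real E
  obtain ⟨m, pt, ρ, h1, h2, h3, h4⟩ := exists_pu E X
  have k1 : ∀ a, IsCompact (chartAt E (pt a) '' tsupport (ρ a)) := fun a =>
    (isClosed_tsupport _).isCompact.image_of_continuousOn ((chartAt E _).continuousOn.mono (h2 a))
  have k2 : ∀ᶠ δ in 𝓝[>] (0 : ℝ), ∀ a, cthickening δ (chartAt E (pt a) '' tsupport (ρ a)) ⊆
      (chartAt E (pt a)).target := eventually_all.2 fun a => by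
    obtain ⟨δ, δ0, h⟩ := (k1 a).exists_cthickening_subset_open (chartAt E (pt a)).open_target
      (image_subset_iff.2 fun x hx => (chartAt E _).map_source (h2 a hx))
    filter_upwards [Ioc_mem_nhdsGT δ0] with δ' h' using (cthickening_mono h'.2 _).trans h
  obtain ⟨δ, b1, b2⟩ := (k2.and self_mem_nhdsWithin).exists
  let Q : Fin m → Set E := fun a => cthickening δ (chartAt E (pt a) '' tsupport (ρ a))
  have hc : ∀ a, IsCompact (Q a) ∧ Q a ⊆ (chartAt E (pt a)).target := fun a =>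
    ⟨(k1 a).cthickening, b1 a⟩
  have hTr : ∀ a b, ∀ z ∈ Ov E (pt a) (pt b) (Q a) (Q b),
      ContDiffAt ℝ ∞ (trn E (pt b) (pt a)) z := by
    rintro a b z ⟨hz, w, hw, hw'⟩
    exact trn_smooth ((hc b).2 hz) (hw' ▸ (chartAt E _).map_target ((hc a).2 hw))
  have hO : ∀ a b, IsCompact (Ov E (pt a) (pt b) (Q a) (Q b)) := fun a b =>
    (hc b).1.of_isClosed_subset (((chartAt E _).continuousOn_symm.mono (hc b).2
      ).preimage_isClosed_of_isClosed (hc b).1.isClosed ((hc a).1.image_of_continuousOn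
        ((chartAt E _).continuousOn_symm.mono (hc a).2)).isClosed) inter_subset_left
  have one : (1 : WithTop ℕ∞) ≤ ∞ := by exact_mod_cast le_top
  have e1 : ∀ᶠ L in atTop, ∀ a, BL L (fun z => ρ a ((chartAt E (pt a)).symm z)) (Q a) :=
    eventually_all.2 fun a => ev_BL (hc a).1 fun z hz =>
      (smooth_rd ((hc a).2 hz) (h1 a _)).of_le one
  have e3 := eventually_all.2 fun a => eventually_all.2 fun a' =>
    ev_BL (hO a a') fun z hz => (hTr a a' z hz).of_le one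
  have e4 := eventually_all.2 fun a => eventually_all.2 fun a' =>
    ev_BL (hO a a') fun z hz => ((hTr a a' z hz).fderiv_right (m := ∞) le_rfl).of_le one
  have e5 := eventually_all.2 fun a => eventually_all.2 fun a' =>
    ev_BL (hO a a') fun z hz =>
      (((hTr a a' z hz).fderiv_right (m := ∞) le_rfl).fderiv_right (m := ∞) le_rfl).of_le one
  obtain ⟨L, ⟨⟨⟨a1, a3⟩, a4⟩, a5⟩, a6⟩ :=
    ((((e1.and e3).and e4).and e5).and (eventually_ge_atTop 1)).exists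
  refine ⟨m, pt, Q, ρ, δ, L, b2, a6, hc, fun a x => ?_, fun a x hx => ?_, h4, a1,
    fun a a' z hz => (hTr a a' z hz).of_le (WithTop.coe_le_coe.2 le_top), a3, a4, a5⟩
  · rw [abs_of_nonneg (h3 a x), ← h4 x]
    exact Finset.single_le_sum (fun b _ => h3 b x) (Finset.mem_univ a)
  · exact ⟨h2 a (subset_tsupport _ hx), ball_subset_closedBall.trans
      (closedBall_subset_cthickening (mem_image_of_mem _ (subset_tsupport _ hx)) δ)⟩

theorem mem_bl {p y : E} {s : ℝ} (hs : 0 < s) (hy : ‖y‖ < 4) : p + s • y ∈ ball p (4 * s) := by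
  rw [mem_ball, dist_eq_norm, add_sub_cancel_left, norm_smul, Real.norm_of_nonneg hs.le, mul_comm]
  exact mul_lt_mul_of_pos_right hy hs

variable {m : ℕ} {pt : Fin m → X} {Q : Fin m → Set E} {ρ : Fin m → X → ℝ} {δ L s : ℝ}

/-- the partition of unity at scale `s` -/
def FF (Z : Lat E) (pt : Fin m → X) (ρ : Fin m → X → ℝ) (s : ℝ) (i : Fin m × Z.Z) (x : X) : ℝ :=
  ρ i.1 x * Z.T (s⁻¹ • (chartAt E (pt i.1) x - s • Z.emb i.2))

theorem FD.good (D : FD pt Q ρ δ L) (Z : Lat E) (hs : 0 < s) (hδ : 6 * s ≤ δ) {i : Fin m × Z.Z}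
    (hi : ∃ x, FF Z pt ρ s i x ≠ 0) : ball (s • Z.emb i.2) (4 * s) ⊆ Q i.1 := by
  obtain ⟨x, hx⟩ := hi
  have h5 := Z.ne _ (right_ne_zero_of_mul hx)
  rw [norm_smul, norm_inv, Real.norm_of_nonneg hs.le, inv_mul_lt_iff₀ hs] at h5
  refine fun z hz => (D.ρs _ _ (left_ne_zero_of_mul hx)).2 ?_
  have := norm_sub_le_norm_sub_add_norm_sub (chartAt E (pt i.1) x) (s • Z.emb i.2) z
  rw [mem_ball', dist_eq_norm] at hz ⊢
  linarith

theorem FD.ovl (D : FD pt Q ρ δ L) (Z : Lat E) (hs : 0 < s) (hδ : 6 * s ≤ δ) {i j : Fin m × Z.Z}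
    (hi : ∃ x, FF Z pt ρ s i x ≠ 0) (hj : ∃ x, FF Z pt ρ s j x ≠ 0) {y y' : E} (hy : ‖y‖ < 4)
    (hy' : ‖y'‖ ≤ 3) (h : (chartAt E (pt i.1)).symm (s • Z.emb i.2 + s • y') =
      (chartAt E (pt j.1)).symm (s • Z.emb j.2 + s • y)) :
    s • Z.emb j.2 + s • y ∈ Ov E (pt i.1) (pt j.1) (Q i.1) (Q j.1) ∧
      ‖trn E (pt j.1) (pt i.1) (s • Z.emb j.2 + s • y) - s • Z.emb i.2‖ ≤ 3 * s := by
  have m1 := D.good Z hs hδ hi (mem_bl hs (hy'.trans_lt (by norm_num)))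
  refine ⟨⟨D.good Z hs hδ hj (mem_bl hs hy), _, m1, h⟩, ?_⟩
  rw [trn, ← h, (chartAt E _).right_inv ((D.hc _).2 m1), add_sub_cancel_left, norm_smul,
    Real.norm_of_nonneg hs.le, mul_comm]
  exact mul_le_mul_of_nonneg_right hy' hs.le

theorem FD.ex_N (D : FD pt Q ρ δ L) (Z : Lat E) (hs : 0 < s) (hδ : 6 * s ≤ δ) {N : ℕ}
    (hN : ∀ w, ∃ B : Finset Z.Z, B.card ≤ N ∧ ∀ k, ‖w - Z.emb k‖ ≤ 8 * L + 3 → k ∈ B)
    (j : Fin m × Z.Z) (hj : ∃ x, FF Z pt ρ s j x ≠ 0) : ∃ B : Finset (Fin m × Z.Z),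
      B.card ≤ m * N ∧ ∀ i, (∃ x, FF Z pt ρ s i x ≠ 0) → ∀ y y' : E, ‖y‖ < 4 → ‖y'‖ ≤ 3 →
        (chartAt E (pt i.1)).symm (s • Z.emb i.2 + s • y') =
          (chartAt E (pt j.1)).symm (s • Z.emb j.2 + s • y) → i ∈ B := by
  classical
  have hw : ∀ a, ∃ w, ∀ z ∈ Ov E (pt a) (pt j.1) (Q a) (Q j.1) ∩ ball (s • Z.emb j.2) (4 * s),
      ‖w - trn E (pt j.1) (pt a) z‖ ≤ L * (8 * s) := fun a => by
    rcases (Ov E (pt a) (pt j.1) (Q a) (Q j.1) ∩ ball (s • Z.emb j.2) (4 * s)).eq_empty_or_nonempty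
      with h | ⟨z₀, h⟩
    · exact ⟨0, by simp [h]⟩
    · refine ⟨trn E (pt j.1) (pt a) z₀, fun z hz => ((D.l0 _ _ _ h.1).2 _ hz.1).trans
        (mul_le_mul_of_nonneg_left ?_ (by linarith [D.L1]))⟩
      rw [← dist_eq_norm]
      linarith [dist_triangle_right z₀ z (s • Z.emb j.2), mem_ball.1 h.2, mem_ball.1 hz.2]
  choose w hw using hw
  choose B B1 B2 using hN
  refine ⟨Finset.univ.biUnion fun a => (B (s⁻¹ • w a)).image fun k => (a, k), ?_,
    fun i hi y y' hy hy' h => ?_⟩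
  · refine (Finset.card_biUnion_le_card_mul _ _ _ fun a _ =>
      Finset.card_image_le.trans (B1 _)).trans (by simp)
  · obtain ⟨a1, a4⟩ := D.ovl Z hs hδ hi hj hy hy' h
    refine Finset.mem_biUnion.2 ⟨i.1, Finset.mem_univ _, Finset.mem_image.2 ⟨i.2, B2 _ _ ?_, rfl⟩⟩
    rw [← inv_smul_smul₀ hs.ne' (Z.emb i.2), ← smul_sub, norm_smul, norm_inv,
      Real.norm_of_nonneg hs.le, inv_mul_le_iff₀ hs]
    have h1 := norm_sub_le_norm_sub_add_norm_sub (w i.1)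
      (trn E (pt j.1) (pt i.1) (s • Z.emb j.2 + s • y)) (s • Z.emb i.2)
    have h2 := hw i.1 _ ⟨a1, mem_bl hs hy⟩
    nlinarith

theorem FD.finsum_FF (D : FD pt Q ρ δ L) (Z : Lat E) (hs : 0 < s) {x : X}
    (hf : (Function.support fun i => FF Z pt ρ s i x).Finite) : ∑ᶠ i, FF Z pt ρ s i x = 1 := by
  rw [finsum_curry _ hf, ← D.sum x, ← finsum_eq_sum_of_fintype]
  refine finsum_congr fun a => ?_
  simp only [FF, smul_sub, inv_smul_smul₀ hs.ne', ← mul_finsum, Z.sum, mul_one]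

variable (E X) in
/-- **Uniform atlases at all small scales.** -/
theorem exists_ua [CompactSpace X] [T2Space X] : ∃ (m : ℕ) (pt : Fin m → X) (Q : Fin m → Set E)
    (K : ℝ) (N₀ : ℕ), (∀ a, IsCompact (Q a) ∧ Q a ⊆ (chartAt E (pt a)).target) ∧
    ∀ᶠ s in 𝓝[>] (0 : ℝ), ∃ (𝒜 : UA E X K N₀) (a : 𝒜.ι → Fin m) (p : 𝒜.ι → E),
      (∀ i, ball (p i) (4 * s) ⊆ Q (a i)) ∧
      (∀ i y, (𝒜.e i).symm y = (chartAt E (pt (a i))).symm (p i + s • y)) ∧
      ∀ x, ∃ i, ∃ y ∈ ball (0 : E) 4, (𝒜.e i).symm y = x := by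
  classical
  obtain ⟨m, pt, Q, ρ, δ, L, D⟩ := ex_fd E X
  obtain ⟨Z⟩ := exists_lat E
  obtain ⟨N, hN⟩ := Z.box (8 * L + 3)
  have hL : 0 < L := one_pos.trans_le D.L1
  refine ⟨m, pt, Q, L + Z.c, m * N, D.hc, ?_⟩
  filter_upwards [Ioc_mem_nhdsGT (lt_min (div_pos D.δ0 (by norm_num : (0 : ℝ) < 6)) one_pos)]
    with s ⟨hs, hs'⟩
  have hδ : 6 * s ≤ δ := by linarith [hs'.trans (min_le_left _ _)]
  have s1 : s ≤ 1 := hs'.trans (min_le_right _ _)
  let e : Fin m × Z.Z → OpenPartialHomeomorph X E := fun i =>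
    (chartAt E (pt i.1)).transHomeomorph (aff (s • Z.emb i.2) hs.ne')
  have e4 : ∀ i x, e i x = s⁻¹ • (chartAt E (pt i.1) x - s • Z.emb i.2) := fun _ _ => rfl
  have e5 : ∀ i y, (e i).symm y = (chartAt E (pt i.1)).symm (s • Z.emb i.2 + s • y) :=
    fun _ _ => rfl
  let ι : Type := {i : Fin m × Z.Z // ∃ x, FF Z pt ρ s i x ≠ 0}
  choose B B1 B2 using fun j : ι => D.ex_N Z hs hδ hN j.1 j.2
  let χ : Fin m × Z.Z → E → ℝ := fun i y => ρ i.1 ((e i).symm y) * Z.T y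
  have hχ : ∀ i x, P253W.FP.ext (e i) (χ i) x = FF Z pt ρ s i x := fun i x => by
    by_cases hx : x ∈ (e i).source
    · rw [P253W.FP.ext, indicator_of_mem hx]
      simp only [χ, (e i).left_inv hx]
      rfl
    · rw [P253W.FP.ext, indicator_of_notMem hx, FF, show ρ i.1 x = 0 from
        by_contra fun h0 => hx (D.ρs _ _ h0).1, zero_mul]
  have hF : ∀ i x, FF Z pt ρ s i x ≠ 0 → ∃ y, ‖y‖ < 2 ∧ (e i).symm y = x := fun i x hx =>
    ⟨e i x, Z.ne _ (right_ne_zero_of_mul hx), (e i).left_inv (D.ρs _ _ (left_ne_zero_of_mul hx)).1⟩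
  have hT : ∀ i j, (fun z => e i ((e j).symm z)) = fun z =>
      s⁻¹ • (trn E (pt j.1) (pt i.1) (s • Z.emb j.2 + s • z) - s • Z.emb i.2) := fun i j => rfl
  have hT1 : ∀ i j, fderiv ℝ (fun z => e i ((e j).symm z)) = fun z =>
      (s⁻¹ * s) • fderiv ℝ (trn E (pt j.1) (pt i.1)) (s • Z.emb j.2 + s • z) := fun i j => by
    rw [hT, fderiv_scale]
  have hT2 : ∀ i j, fderiv ℝ (fderiv ℝ fun z => e i ((e j).symm z)) = fun z => (s⁻¹ * s * s) •
      fderiv ℝ (fderiv ℝ (trn E (pt j.1) (pt i.1))) (s • Z.emb j.2 + s • z) := fun i j => by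
    rw [hT1, fderiv_scale']
  have hO : ∀ i j : ι, ∀ y ∈ ball (0 : E) 4, (e j).symm y ∈ (e i).symm '' closedBall 0 3 →
      s • Z.emb j.1.2 + s • y ∈ Ov E (pt i.1.1) (pt j.1.1) (Q i.1.1) (Q j.1.1) := by
    rintro i j y hy ⟨y', hy', h0⟩
    exact (D.ovl Z hs hδ i.2 j.2 (mem_ball_zero_iff.1 hy) (mem_closedBall_zero_iff.1 hy') h0).1
  have hmem : ∀ i j : ι, ∀ y ∈ ball (0 : E) 4, (e j).symm y ∈ (e i).symm '' closedBall 0 3 →
      i.1 ∈ B j := by
    rintro i j y hy ⟨y', hy', h0⟩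
    exact B2 j i.1 i.2 y y' (mem_ball_zero_iff.1 hy) (mem_closedBall_zero_iff.1 hy') h0
  have u1 : s⁻¹ * s = 1 := inv_mul_cancel₀ hs.ne'
  have c0 := Z.c0
  have k1 : s⁻¹ * s * L ≤ L + Z.c := by rw [u1]; linarith
  have k2 : s⁻¹ * s * s * L ≤ L + Z.c := by rw [u1]; nlinarith
  have k3 : s⁻¹ * s * s * s * L ≤ L + Z.c := by rw [u1]; nlinarith [mul_le_one₀ s1 hs.le s1]
  have p1 : 0 ≤ s⁻¹ * s := by positivity
  have p2 : 0 ≤ s⁻¹ * s * s := by positivity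
  have hx0 : ∀ x, ∃ i, FF Z pt ρ s i x ≠ 0 := fun x => by
    by_contra hc
    push Not at hc
    simpa [hc] using D.finsum_FF Z hs (x := x) (by simp [hc])
  refine ⟨⟨ι, fun i => e i.1, fun i => χ i.1, fun j => (B j).subtype _, fun i y hy => ?_,
    fun i y hy => ?_, fun i y => ?_, fun i y hy y' hy' => ?_, fun j => ?_,
    fun i j y hy h0 => Finset.mem_subtype.2 (hmem i j y hy h0), fun j y hy => ?_,
    fun i j y hy h0 => ?_, fun i j y hy y' hy' => ?_, fun i j y hy y' hy' => ?_,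
    fun i j y hy y' hy' => ?_⟩, fun i => i.1.1, fun i => s • Z.emb i.1.2,
    fun i => D.good Z hs hδ i.2, fun i => e5 i.1, fun x => ?_⟩
  · exact (D.hc _).2 (D.good Z hs hδ i.2 (mem_bl hs (mem_ball_zero_iff.1 hy)))
  · exact mul_eq_zero_of_right _ (by_contra fun h0 => hy.not_gt (Z.ne _ h0))
  · simp only [χ, abs_mul]
    exact mul_le_one₀ (D.ρb _ _) (abs_nonneg _) (Z.bd _)
  · have h1 := (D.ρl _ _ (D.good Z hs hδ i.2 (mem_bl hs (mem_ball_zero_iff.1 hy)))).2 _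
      (D.good Z hs hδ i.2 (mem_bl hs (mem_ball_zero_iff.1 hy')))
    rw [add_sub_add_left_eq_sub, ← smul_sub, norm_smul, Real.norm_of_nonneg hs.le,
      Real.norm_eq_abs] at h1
    have h2 := abs_mul3_sub (a := ρ i.1.1 ((e i.1).symm y)) (b := 1) (c := Z.T y)
      (a' := ρ i.1.1 ((e i.1).symm y')) (b' := 1) (c' := Z.T y') (by simp) (Z.bd _) (D.ρb _ _)
      (by simp)
    rw [mul_one, mul_one, sub_self, abs_zero, add_zero] at h2
    rw [Real.rpow_one, Real.norm_eq_abs]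
    refine h2.trans ?_
    rw [e5, e5]
    nlinarith [Z.lip y y', mul_le_mul_of_nonneg_left s1 (mul_nonneg hL.le (norm_nonneg (y - y')))]
  · rw [Finset.card_subtype]
    exact (Finset.card_filter_le _ _).trans (B1 j)
  · have h1 : (Function.support fun i => FF Z pt ρ s i ((e j).symm y)) ⊆
        ((B j).filter fun i => ∃ x, FF Z pt ρ s i x ≠ 0 : Finset _) := fun i hi => by
      obtain ⟨y', a1, a2⟩ := hF i _ hi
      exact Finset.mem_coe.2 (Finset.mem_filter.2 ⟨hmem ⟨i, _, hi⟩ j y hy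
        ⟨y', mem_closedBall_zero_iff.2 (by linarith), a2⟩, _, hi⟩)
    simp only [hχ]
    rw [Finset.sum_subtype_eq_sum_filter fun i => FF Z pt ρ s i ((e j).symm y),
      ← finsum_eq_sum_of_support_subset _ h1]
    exact D.finsum_FF Z hs ((Finset.finite_toSet _).subset h1)
  · have a1 := hO i j y hy h0
    refine ⟨?_, ?_, ?_⟩
    · rw [hT]
      exact ((ContDiffAt.comp (f := fun z : E => s • Z.emb j.1.2 + s • z) y (D.sm _ _ _ a1)
        (by fun_prop)).sub contDiffAt_const).const_smul _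
    · rw [hT1]
      exact scale_bd (D.l1 _ _) p1 k1 a1
    · rw [hT2]
      exact scale_bd (D.l2 _ _) p2 k2 a1
  · rw [Real.rpow_one, hT]
    exact scale_lip (D.l0 _ _) (inv_pos.2 hs).le hs.le k1 _ (hO i j y hy.1 hy.2)
      (hO i j y' hy'.1 hy'.2)
  · rw [Real.rpow_one, hT1]
    exact scale_lip' (D.l1 _ _) p1 hs.le k2 (hO i j y hy.1 hy.2) (hO i j y' hy'.1 hy'.2)
  · rw [Real.rpow_one, hT2]
    exact scale_lip' (D.l2 _ _) p2 hs.le k3 (hO i j y hy.1 hy.2) (hO i j y' hy'.1 hy'.2)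
  · obtain ⟨i, hi⟩ := hx0 x
    obtain ⟨y, a1, a2⟩ := hF i x hi
    exact ⟨⟨i, x, hi⟩, y, mem_ball_zero_iff.2 (by linarith), a2⟩

end Vale.Agent.P216ST
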