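import Vale.Agent.P216ST.ExS
import Vale.Agent.P253W.FP.Pic
import Vale.Agent.P253W.FP.Tr
import Vale.Agent.P253W.FP.Duh
import Vale.Agent.P253W.FP.DUHa
import Vale.Agent.P253W.FP.DuhB
import Vale.Agent.P253W.FP.Dq
import Vale.Agent.P253W.FP.Int0
import Vale.Agent.P253W.FP.PCE
import Vale.Agent.P253W.FP.Lreg
import Vale.Agent.P253W.FP.Swap

/-! # Parabolic systems with scalar principal part: existence and regularity -/

set_option maxSynthPendingDepth 3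
set_option linter.unusedSectionVars false

open Set Metric Filter Topology
open scoped ContDiff
open Vale.Agent.P272.K.R (Hol Bil D2)
open Vale.Agent.P272.K.LIN (Jet jet JM)

noncomputable section

namespace Vale.Agent.P216ST

open Vale.Agent.P253W.FP

variable {E : Type} [NormedAddCommGroup E] [NormedSpace ℝ E] [FiniteDimensional ℝ E]

variable (E) in
theorem duhE : DUH E := duh_of (fun _ => duha) fun _ => duhb _

variable (E) in
theorem lregE : LREG E := lreg_of (twb E) (dq_of (int0_of (pce_of (duhE E)))) (swap E)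

variable (E) in
theorem exists_su {α : ℝ} (K : ℝ) {l : ℝ} (L : ℝ) (hα : 0 < α) (hα1 : α < 1) (hl : 0 < l) :
    ∃ (θ : E → ℝ) (M CT cθ : ℝ), 0 ≤ M ∧ 1 ≤ CT ∧ 1 ≤ cθ ∧ ∀ τ, 0 < τ → τ ≤ 1 → ∀ (N₀ : ℕ)
      (X : Type) [TopologicalSpace X] [T2Space X] (𝒜 : UA E X K N₀) (B : 𝒜.ι → Bil E →L[ℝ] ℝ),
      (∀ i, Ell l L (B i)) → ∃ H, 𝒜.Su θ B H α τ (τ ^ (α / 2) * M) M CT cθ := by
  obtain ⟨C, hC, hD⟩ := duhE E α hα hα1 l L hl
  obtain ⟨CT, hCT, hT⟩ := tr E α K hα hα1.le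
  obtain ⟨θ, cθ, hc, θs, θ1, θ0, θb, θh, Mb, Mh⟩ := exists_cut (E := E) hα hα1.le
  set cχ : ℝ := 1 + |K| * 8 with hcχ
  have hχ : 1 ≤ cχ := by rw [hcχ]; linarith [abs_nonneg K]
  set M : ℝ := (C + 1) * cχ with hM
  have hM0 : 0 ≤ M := by positivity
  refine ⟨θ, M, CT, cθ, hM0, hCT, hc, fun τ hτ0 hτ1 N₀ X _ _ 𝒜 B hB => ?_⟩
  choose H hH1 hH2 using fun i => hD (B i) (hB i)
  set σ : ℝ := τ ^ (α / 2) with hσ
  have σ0 : 0 ≤ σ := by positivity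
  have σ1 : σ ≤ 1 := Real.rpow_le_one hτ0.le hτ1 (by linarith)
  have σ2 : √τ ≤ σ := by
    rw [Real.sqrt_eq_rpow]
    exact Real.rpow_le_rpow_of_exponent_ge hτ0 hτ1 (by linarith)
  have σ3 : τ ≤ σ := by
    calc τ = τ ^ (1 : ℝ) := (Real.rpow_one τ).symm
      _ ≤ σ := Real.rpow_le_rpow_of_exponent_ge hτ0 hτ1 (by linarith)
  refine ⟨H, hα, by positivity, mul_le_of_le_one_left hM0 σ1, hCT, hc, θs, θ1, θ0, θb, θh, Mb, Mh,
    fun i c g k N' d hN' hd hg hk t ht => ?_, fun i g N' hN' hg => ?_,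
    fun i j => (hT N₀ X 𝒜 i j).1, fun i j => (hT N₀ X 𝒜 i j).2.1,
    fun i j => (hT N₀ X 𝒜 i j).2.2⟩
  · funext y
    have h1 := hH1 i τ c _ _ _ _ _ _ (𝒜.fi_pb hα hα1.le hN' hg i) (𝒜.fi_pb hα hα1.le hd hk i)
      t ht y
    have h2 : 𝒜.fi (fun s x => g s x + c * k s x) i =
        fun s y => 𝒜.fi g i s y + c * 𝒜.fi k i s y := by
      funext s z; simp only [UA.fi]; ring
    rw [UA.vi, h2]
    exact h1
  · obtain ⟨a0, a1, a2, a3, a4⟩ := hH2 i τ _ _ _ hτ0.le (by positivity)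
      (𝒜.fi_pb hα hα1.le hN' hg i)
    have b : ∀ a b x : ℝ, 0 ≤ x → x ≤ σ → 0 ≤ a → a ≤ C + 1 → 0 ≤ b → b ≤ cχ →
        a * x * (b * N') ≤ σ * M * N' := fun a b x x0 x1 _ ha b0 hb => by
      calc a * x * (b * N') = x * (a * b) * N' := by ring
        _ ≤ σ * ((C + 1) * cχ) * N' := by gcongr
    have c0 : 0 ≤ cχ := by linarith
    refine ⟨a0, a1, PB.prod (a2.mono ?_ (b C cχ τ hτ0.le σ3 hC (by linarith) c0 le_rfl))
      (PB.prod (a3.mono ?_ (b C cχ _ (Real.sqrt_nonneg _) σ2 hC (by linarith) c0 le_rfl))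
        ((PB.zero _ _ _).mono (by positivity) (by positivity))),
      a4.mono (b C cχ σ σ0 le_rfl hC (by linarith) c0 le_rfl) ?_⟩
    · simpa using b 1 1 τ hτ0.le σ3 zero_le_one (by linarith) zero_le_one hχ
    · simpa using b C 1 _ (Real.sqrt_nonneg τ) σ2 hC (by linarith) zero_le_one hχ
    · rw [hM, ← mul_assoc]; gcongr; linarith

variable {Λ : Type} [Fintype Λ] [DecidableEq Λ]

variable (E Λ) in
/-- **Existence for a short time.** -/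
theorem exS {α : ℝ} (K : ℝ) {l : ℝ} (L : ℝ) (N₀ : ℕ) (hα : 0 < α) (hα1 : α < 1) (hl : 0 < l) :
    ∃ ε : ℝ, 0 < ε ∧ ∀ KF δ T : ℝ, 0 ≤ KF → 0 < δ → 0 < T → ∃ τ C : ℝ, 0 < τ ∧ τ ≤ T ∧
      ∀ (X : Type) [TopologicalSpace X] [T2Space X] (𝒜 : UA E X K N₀)
        (B : 𝒜.ι → Bil E →L[ℝ] ℝ) (F : 𝒜.ι → Λ → ℝ → E → (Λ → Jet E) → ℝ)
        (A : 𝒜.ι → Λ → Λ → ℝ → E → (Λ → Jet E) → Jet E →L[ℝ] ℝ), (∀ i, Ell l L (B i)) →
        (∀ i, AdmS α KF δ T ε (B i) (F i) (A i)) → InvS 𝒜 δ T F →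
        ∃ u : ℝ → Λ → X → ℝ, (∀ a x, u 0 a x = 0) ∧ ∀ i a,
          Cl (Icc 0 τ) (ball 0 4) (fun t y => u t a ((𝒜.e i).symm y))
            (fun t y => F i a t y (jl 𝒜 i (u t) y)) ∧
          PB α (Icc 0 τ) (ball 0 4) (fun t => jl 𝒜 i (u t)) (δ / 2) C := by
  obtain ⟨θ, M, CT, cθ, hM0, hCT, hc, hS⟩ := exists_su E K L hα hα1 hl
  set n : ℝ := (Fintype.card Λ : ℝ) with hn
  have n0 : 0 ≤ n := Nat.cast_nonneg _
  set ε : ℝ := 1 / (4 * (n * (N₀ * CT * M)) + 1) with hε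
  have hε0 : 0 < ε := by positivity
  have hε1 : n * (N₀ * CT * M) * ε ≤ 1 / 4 := by
    rw [hε, mul_one_div, div_le_div_iff₀ (by positivity) (by norm_num)]; linarith
  refine ⟨ε, hε0, fun KF δ T hK0 hδ hT0 => ?_⟩
  set N : ℝ := 2 * KF with hNd
  have hN : 0 ≤ N := by positivity
  set KA : ℝ := KF * (1 + N₀ * (3 * CT * cθ * M * N)) with hKA
  obtain ⟨τ, ⟨⟨⟨e1, e2⟩, e3⟩, e4⟩, hτ0⟩ := (((((ev_small hα (n * (N₀ * (M * (KF * cθ + ε))))
    (by norm_num : (0 : ℝ) < 1 / 2)).and (ev_small hα (n * (N₀ * (CT * (M *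
      (2 * KF * cθ + cθ * KA + KA + ε * cθ))))) (by norm_num : (0 : ℝ) < 1 / 4))).and
    (ev_small hα (N₀ * (CT * cθ * M * N)) (half_pos hδ))).and
    (Icc_mem_nhdsGT (lt_min hT0 one_pos))).and self_mem_nhdsWithin).exists
  replace hτ0 : 0 < τ := hτ0
  have hτT : τ ≤ T := e4.2.trans (min_le_left _ _)
  refine ⟨τ, N₀ * (3 * CT * cθ * M * N), hτ0, hτT, fun X _ _ 𝒜 B F A hB hF hI => ?_⟩
  obtain ⟨H, hSu⟩ := hS τ hτ0 (e4.2.trans (min_le_right _ _)) N₀ X 𝒜 B hB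
  set σ : ℝ := τ ^ (α / 2) with hσ
  have d1 : N₀ * (CT * cθ * (σ * M) * N) ≤ δ / 2 := by
    refine le_of_eq_of_le ?_ e3; ring
  have d2 : N₀ * (CT * cθ * (σ * M) * N) < δ := by linarith
  have s1 : n * (N₀ * (σ * M * (KF * cθ + ε))) ≤ 1 / 2 := by
    refine le_of_eq_of_le ?_ e1; ring
  have s2 : n * (N₀ * (CT * (ε * M + σ * M * (2 * KF * cθ + cθ * KA + KA + ε * cθ)))) ≤ 1 / 2 := by
    calc _ = n * (N₀ * CT * M) * ε +
          σ * (n * (N₀ * (CT * (M * (2 * KF * cθ + cθ * KA + KA + ε * cθ))))) := by ring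
      _ ≤ 1 / 4 + 1 / 4 := add_le_add hε1 e2
      _ = 1 / 2 := by norm_num
  have con := fun g g' d hd hg hg' hk => contrS hSu hF hI hτT hN d2 hK0 hε0.le hKA s1 s2 (g := g)
    (g' := g') (d := d) hd hg hg' hk
  obtain ⟨g, hg, hfix⟩ := pic α N (Icc 0 τ) (ball 0 4) (X × Λ) (𝒜.ι × Λ)
    (fun i y => ((𝒜.e i.1).symm y, i.2)) (ΨS 𝒜 θ B H F) hN (fun g hg i => by
      have h0 : GS 𝒜 α τ (fun _ (_ : X × Λ) => (0 : ℝ)) N := fun _ i => (PB.zero _ _ _).mono hN hN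
      have h1 := con g (fun _ _ => 0) N hN (fun b i => hg (i, b)) h0
        (fun b i => by simpa [cp] using hg (i, b)) i.2 i.1
      have h2 := ΨS_zero hSu hF hI hτT hN d2 i.2 i.1
      exact ((h2.add h1).congr fun t _ y _ => by simp only [cp]; ring).mono (by rw [hNd]; linarith)
        (by rw [hNd]; linarith))
    fun g g' d hd hg hg' hk i => con g g' d hd (fun b i => hg (i, b)) (fun b i => hg' (i, b))
      (fun b i => hk (i, b)) i.2 i.1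
  replace hg : GS 𝒜 α τ g N := fun b i => hg (i, b)
  refine ⟨QS 𝒜 θ H g, fun a => hSu.Q_zero hN (hg a), fun i a =>
    ⟨⟨fun t ht => hSu.Q_c2 hN (hg a) i ht, (hSu.Q_jet hN (hg a) i).cont,
      fun t ht y hy => (hSu.Q_dt hN (hg a) i ht hy).congr_deriv ?_⟩,
    (QS_jet hSu hN hg i).mono d1 le_rfl⟩⟩
  rw [cp, ← hfix (i, a) t ht y hy, ΨS_loc hSu hI hτT hN d2 hg i a ht hy]
  ring

omit [FiniteDimensional ℝ E] in
theorem base_pi {I : Set ℝ} {U : Set E} {P : Cls E} (b : Base I U P) {G : Type}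
    [NormedAddCommGroup G] [NormedSpace ℝ G] {f : Λ → ℝ → E → G} (h : ∀ c, P G (f c)) :
    P (Λ → G) fun t y c => f c t y :=
  b.congr _ _ _ (b.sum Finset.univ fun c _ => b.clm (.single ℝ (fun _ : Λ => G) c) (h c))
    fun t _ y _ => by
      funext c
      simp [Finset.sum_apply, Pi.single_apply]

/-- **Regularity up to the initial time** for `w_t = A(p, w) D² w + G(p, w, D w)`. -/
theorem regS {P : Type} [NormedAddCommGroup P] [NormedSpace ℝ P] {α T : ℝ} {U : Set E}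
    {V : Set (P × (Λ → ℝ))} {p : ℝ → E → P} {A : P × (Λ → ℝ) → Bil E →L[ℝ] ℝ}
    {G : (P × (Λ → ℝ)) × (Λ → E →L[ℝ] ℝ) → Λ → ℝ} {w : Λ → ℝ → E → ℝ} (h0 : 0 < α) (h1 : α < 1)
    (hT : 0 < T) (hU : IsOpen U) (hV : IsOpen V)
    (hp : ContDiffOn ℝ ∞ (fun q : ℝ × E => p q.1 q.2) (Icc 0 T ×ˢ U)) (hA : ContDiffOn ℝ ∞ A V)
    (hG : ContDiffOn ℝ ∞ G (V ×ˢ univ))
    (mem : ∀ t ∈ Icc 0 T, ∀ y ∈ U, (p t y, fun c => w c t y) ∈ V)
    (ell : ∀ t ∈ Icc 0 T, ∀ y ∈ U, ∀ ξ : E →L[ℝ] ℝ, ξ ≠ 0 →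
      0 < A (p t y, fun c => w c t y) (ξ.smulRight ξ))
    (hw : ∀ c, Tw (Icc 0 T) U (TH α (Icc 0 T) U) 2 ℝ (w c)) (z : ∀ c, ∀ y ∈ U, w c 0 y = 0)
    (e : ∀ c, ∀ t ∈ Icc 0 T, ∀ y ∈ U, HasDerivWithinAt (fun s => w c s y)
      (A (p t y, fun c => w c t y) (D2 (w c t) y) +
        G ((p t y, fun c => w c t y), fun c => fderiv ℝ (w c t) y) c) (Icc 0 T) t) (c : Λ) :
    ContDiffOn ℝ ∞ (fun q : ℝ × E => w c q.1 q.2) (Icc 0 T ×ˢ U) := by
  have key : ∀ {Q : Cls E}, Base (Icc 0 T) U Q → ∀ k, (∀ c, Tw (Icc 0 T) U Q (k + 1) ℝ (w c)) →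
      Tw (Icc 0 T) U Q k _ (fun t y => A (p t y, fun c => w c t y)) ∧ ∀ c,
      Tw (Icc 0 T) U Q k _ fun t y =>
        G ((p t y, fun c => w c t y), fun c => fderiv ℝ (w c t) y) c := fun b k h => by
    have b' := b.tw hU k
    have hJ := b'.prodMk (b'.smooth _ p hp) (base_pi b' fun c => (h c).of_succ)
    exact ⟨b'.comp _ _ V A _ hV hA hJ mem, fun c => b'.clm (.proj c : (Λ → ℝ) →L[ℝ] ℝ)
      (b'.comp _ _ _ G _ (hV.prod isOpen_univ) hG (b'.prodMk hJ (base_pi b' fun c => (h c).2.2))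
        fun t ht y hy => ⟨mem t ht y hy, trivial⟩)⟩
  have k1 : ∀ k c, Tw (Icc 0 T) U (TH α (Icc 0 T) U) (k + 2) ℝ (w c) := fun k => by
    induction k with
    | zero => exact hw
    | succ k ih =>
      obtain ⟨a1, a2⟩ := key (base_th h0 h1.le hU) (k + 1) ih
      exact fun c => lregE E α T U (k + 1) _ _ _ h0 h1 hT.le hU a1 (a2 c) ell (hw c) (z c) (e c)
  have k2 : ∀ m k c, Tw (Icc 0 T) U (JC m (Icc 0 T) U) k ℝ (w c) := fun m => by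
    induction m with
    | zero => exact fun k c => ((k1 k c).of_le (by omega)).imp fun _ _ _ _ => TH.jc
    | succ m ih =>
      intro k c
      have b := base_jc m (Icc 0 T) U
      obtain ⟨a1, a2⟩ := key b k fun c => ih _ c
      exact tw_succ (convex_Icc _ _) (uniqueDiffOn_Icc hT) hU (e c) (ih _ c)
        ((b.tw hU k).add _ _ _ ((b.tw hU k).apply a1 (ih (k + 2) c).2.2.2.2) (a2 c))
  exact contDiffOn_infty.2 fun m => k2 m 0 c

end Vale.Agent.P216ST
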