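import Vale.Agent.P216ST.Adm
import Vale.Agent.P216ST.Atl
import Vale.Agent.P216ST.ExS2

/-! # Quasilinear systems on a compact manifold: uniform short time existence -/

set_option maxSynthPendingDepth 3
set_option linter.unusedSectionVars false

open Set Metric Filter Topology
open scoped Manifold ContDiff
open Vale.Agent.P272.K.R (Hol Bil D2)
open Vale.Agent.P272.K.LIN (Jet jet jet_comp jet_congr)

noncomputable section

namespace Vale.Agent.P216ST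

open Vale.Agent.P253W.FP Vale.Agent.P253W.FP.At
open Vale.Agent.P216R (rd dom)

variable {E : Type} [NormedAddCommGroup E] [NormedSpace ℝ E] [FiniteDimensional ℝ E]
  {Λ : Type} [Fintype Λ] [DecidableEq Λ] {P : Type} [NormedAddCommGroup P] [NormedSpace ℝ P]
  {X : Type} [TopologicalSpace X] [ChartedSpace E X] [IsManifold 𝓘(ℝ, E) ∞ X]

theorem ell_unif {C : Set P} (hC : IsCompact C) {B : P → Bil E →L[ℝ] ℝ} (hc : ContinuousOn B C)
    (h : ∀ k ∈ C, ∀ ξ : E →L[ℝ] ℝ, ξ ≠ 0 → 0 < B k (ξ.smulRight ξ)) :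
    ∀ᶠ x : ℝ × ℝ in 𝓝[>] 0 ×ˢ atTop, ∀ k ∈ C, Ell x.1 x.2 (B k) := by
  have := FiniteDimensional.proper_real (E →L[ℝ] ℝ)
  obtain ⟨l, l0, hl⟩ := (hC.prod (isCompact_sphere (0 : E →L[ℝ] ℝ) 1)).exists_forall_le'
    (f := fun q => B q.1 (q.2.smulRight q.2)) (a := 0)
    ((hc.comp continuousOn_fst fun _ h => h.1).clm_apply
      (((ContinuousLinearMap.smulRightL ℝ E (E →L[ℝ] ℝ)).continuous.comp continuous_snd).clm_apply
        continuous_snd).continuousOn)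
    fun q hq => h _ hq.1 _ (ne_zero_of_mem_unit_sphere ⟨_, hq.2⟩)
  obtain ⟨L, hL⟩ := hC.exists_bound_of_continuousOn hc
  filter_upwards [prod_mem_prod (Ioc_mem_nhdsGT l0) (eventually_ge_atTop L)] with x hx k hk
  refine ⟨(hL k hk).trans hx.2, fun ξ => ?_⟩
  rcases eq_or_ne ξ 0 with rfl | h0
  · simp
  have n := norm_pos_iff.2 h0
  have h1 := hl (k, ‖ξ‖⁻¹ • ξ) ⟨hk, by simp [norm_smul, n.ne']⟩
  have e : ξ.smulRight ξ = ‖ξ‖ ^ 2 • (‖ξ‖⁻¹ • ξ).smulRight (‖ξ‖⁻¹ • ξ) := by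
    ext x y
    simp only [ContinuousLinearMap.smulRight_apply, smul_apply, smul_eq_mul]
    field_simp
  rw [e, map_smul, smul_eq_mul, mul_comm]
  exact mul_le_mul_of_nonneg_left (hx.1.2.trans h1) (by positivity)

theorem Sm0.at {u : X → ℝ} {W : Set X} (h : Sm0 E u W) (hW : IsOpen W) {a : X} {y : E}
    (hy : y ∈ dom E a W) : ContDiffAt ℝ ∞ (rd E u a) y :=
  (h a).contDiffAt ((P216R.isOpen_dom a hW).mem_nhds hy)

theorem sm0_chart {g : E → ℝ} (hg : ContDiff ℝ ∞ g) (a : X) :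
    Sm0 E (fun x => g (chartAt E a x)) (chartAt E a).source := fun _ _ hy =>
  (hg.contDiffAt.comp _ (trn_smooth hy.1 hy.2)).contDiffWithinAt

theorem rd_trn {α : Type} (u : X → α) {a b : X} {y : E} (hy : y ∈ (chartAt E a).target)
    (hb : (chartAt E a).symm y ∈ (chartAt E b).source) :
    rd E u a =ᶠ[𝓝 y] fun z => rd E u b (trn E a b z) := by
  filter_upwards [((chartAt E a).continuousAt_symm hy).eventually_mem
    ((chartAt E b).open_source.mem_nhds hb)] with z hz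
  simp only [rd, trn, Function.comp_apply, (chartAt E b).left_inv hz]

/-- a function of class `C²` at a point has the jets of a smooth function -/
theorem exists_smooth_jet {u : X → ℝ} {a b : X} {y y' : E} (hy : y ∈ (chartAt E a).target)
    (hy' : y' ∈ (chartAt E b).target) (h : (chartAt E a).symm y = (chartAt E b).symm y')
    (hu : ContDiffAt ℝ 2 (rd E u a) y) : ∃ v : X → ℝ, Sm0 E v (chartAt E a).source ∧
      jet (rd E v a) y = jet (rd E u a) y ∧ jet (rd E v b) y' = jet (rd E u b) y' := by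
  obtain ⟨g, hg, hj⟩ := exists_poly hu
  have hs : (chartAt E b).symm y' ∈ (chartAt E a).source := h ▸ (chartAt E a).map_target hy
  have e : trn E b a y' = y := by rw [trn, ← h, (chartAt E a).right_inv hy]
  have h1 : rd E (fun x => g (chartAt E a x)) a =ᶠ[𝓝 y] g := by
    filter_upwards [(chartAt E a).open_target.mem_nhds hy] with z hz
    simp only [rd, Function.comp_apply, (chartAt E a).right_inv hz]
  have h2 := (trn_smooth hy' hs).of_le (m := 2) (WithTop.coe_le_coe.2 le_top)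
  refine ⟨fun x => g (chartAt E a x), sm0_chart hg a, (jet_congr h1).trans hj, ?_⟩
  rw [jet_congr (rd_trn u hy' hs), jet_comp (e ▸ hu) h2, e, ← hj, ← e,
    ← jet_comp (hg.contDiffAt.of_le (WithTop.coe_le_coe.2 le_top)) h2]
  rfl

variable {m : ℕ}

/-- smooth quasilinear operators with scalar principal part, one for each chart -/
structure QD (V : Fin m → Set (P × (Λ → ℝ))) (A : Fin m → P × (Λ → ℝ) → Bil E →L[ℝ] ℝ)
    (G : Fin m → (P × (Λ → ℝ)) × (Λ → E →L[ℝ] ℝ) → Λ → ℝ) (C : Fin m → Set P) : Prop where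
  oV : ∀ a, IsOpen (V a)
  sA : ∀ a, ContDiffOn ℝ ∞ (A a) (V a)
  sG : ∀ a, ContDiffOn ℝ ∞ (G a) (V a ×ˢ univ)
  cC : ∀ a, IsCompact (C a)
  mC : ∀ a, ∀ k ∈ C a, (k, 0) ∈ V a
  ell : ∀ a, ∀ k ∈ C a, ∀ ξ : E →L[ℝ] ℝ, ξ ≠ 0 → 0 < A a (k, 0) (ξ.smulRight ξ)

/-- the operators in the charts describe one operator -/
def Inv (pt : Fin m → X) (Q : Fin m → Set E) (V : Fin m → Set (P × (Λ → ℝ)))
    (A : Fin m → P × (Λ → ℝ) → Bil E →L[ℝ] ℝ)
    (G : Fin m → (P × (Λ → ℝ)) × (Λ → E →L[ℝ] ℝ) → Λ → ℝ) (p : Fin m → E → P) : Prop :=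
  ∀ a b, ∀ y ∈ Q a, ∀ y' ∈ Q b, (chartAt E (pt a)).symm y = (chartAt E (pt b)).symm y' →
    ∀ (u : Λ → X → ℝ) (W : Set X), IsOpen W → (chartAt E (pt a)).symm y ∈ W →
    (∀ c, Sm0 E (u c) W) → (p a y, fun c => rd E (u c) (pt a) y) ∈ V a →
    (p b y', fun c => rd E (u c) (pt b) y') ∈ V b →
    opE (A a) (G a) (p a y) (fun c => rd E (u c) (pt a)) y =
      opE (A b) (G b) (p b y') (fun c => rd E (u c) (pt b)) y'

theorem c2_scale {w : E → ℝ} {p y : E} {s : ℝ} (hs : s ≠ 0)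
    (h : ContDiffAt ℝ 2 (fun z => w (p + s • z)) y) : ContDiffAt ℝ 2 w (p + s • y) := by
  have h1 : ContDiffAt ℝ 2 (fun z => w (p + s • z)) (s⁻¹ • (p + s • y - p)) := by
    simpa [inv_smul_smul₀ hs] using h
  simpa [smul_inv_smul₀ hs, Function.comp_def] using
    ContDiffAt.comp (f := fun z : E => s⁻¹ • (z - p)) (p + s • y) h1 (by fun_prop)

theorem norm_j0 (z : Λ → Jet E) : ‖fun c => (z c).1‖ ≤ ‖z‖ :=
  (pi_norm_le_iff_of_nonneg (norm_nonneg _)).2 fun c => (norm_fst_le _).trans (norm_le_pi_norm z c)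

variable (E X) in
/-- **Uniform short time existence**, in rescaled time. -/
theorem core [CompactSpace X] [T2Space X] : ∃ (m : ℕ) (pt : Fin m → X) (Q : Fin m → Set E),
    (∀ a, IsCompact (Q a) ∧ Q a ⊆ (chartAt E (pt a)).target) ∧
    ∀ (Λ : Type) [Fintype Λ] [DecidableEq Λ] (P : Type) [NormedAddCommGroup P] [NormedSpace ℝ P]
      (V : Fin m → Set (P × (Λ → ℝ))) (A : Fin m → P × (Λ → ℝ) → Bil E →L[ℝ] ℝ)
      (G : Fin m → (P × (Λ → ℝ)) × (Λ → E →L[ℝ] ℝ) → Λ → ℝ) (C : Fin m → Set P), QD V A G C →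
      ∀ K₁ : ℝ, 0 ≤ K₁ → ∃ η > 0, ∀ᶠ s in 𝓝[>] (0 : ℝ), ∃ τ ∈ Ioc (0 : ℝ) 1,
      ∀ p : Fin m → ℝ → E → P,
        (∀ a, ContinuousOn (fun q : ℝ × E => p a q.1 q.2) (Icc 0 1 ×ˢ Q a)) →
        (∀ a, ∀ t ∈ Icc (0 : ℝ) 1, ∀ y ∈ Q a, p a t y ∈ C a ∧ ‖p a t y - p a 0 y‖ ≤ η ∧
          ∀ y' ∈ Q a, ‖p a t y - p a t y'‖ ≤ K₁ * ‖y - y'‖) →
        (∀ t ∈ Icc (0 : ℝ) 1, Inv pt Q V A G fun a => p a t) → ∀ τ' ∈ Ioc 0 τ,
        (∀ a, ContDiffOn ℝ ∞ (fun q : ℝ × E => p a q.1 q.2)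
          (Icc 0 τ' ×ˢ (chartAt E (pt a)).target)) →
        ∃ v : ℝ → Λ → X → ℝ, (∀ c x, v 0 c x = 0) ∧ ∀ x, ∃ a U, IsOpen U ∧ U ⊆ Q a ∧
          x ∈ (chartAt E (pt a)).symm '' U ∧
          (∀ c, ContDiffOn ℝ ∞ (fun q : ℝ × E => rd E (v q.1 c) (pt a) q.2) (Icc 0 τ' ×ˢ U)) ∧
          ∀ t ∈ Icc 0 τ', ∀ y ∈ U, (p a t y, fun c => rd E (v t c) (pt a) y) ∈ V a ∧ ∀ c,
            HasDerivWithinAt (fun r => rd E (v r c) (pt a) y) (s ^ 2 *
              opE (A a) (G a) (p a t y) (fun c => rd E (v t c) (pt a)) y c) (Icc 0 τ') t := by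
  obtain ⟨m, pt, Q, K, N₀, hQ, hA⟩ := exists_ua E X
  refine ⟨m, pt, Q, hQ, fun Λ _ _ P _ _ V A G C D K₁ K0 => ?_⟩
  have one : (1 : WithTop ℕ∞) ≤ ∞ := by exact_mod_cast le_top
  obtain ⟨⟨l, L⟩, hl, l0⟩ := ((eventually_all.2 fun a => ell_unif (D.cC a)
    ((D.sA a).continuousOn.comp (f := fun k => (k, 0)) (by fun_prop) (D.mC a)) (D.ell a)).and
    (prod_mem_prod self_mem_nhdsWithin univ_mem)).exists
  replace l0 : 0 < l := l0.1
  have e1 : ∀ᶠ ρ in 𝓝[>] (0 : ℝ), ∀ a, C a ×ˢ closedBall 0 ρ ⊆ V a := eventually_all.2 fun a => by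
    obtain ⟨u, v, -, hv, h1, h2, h3⟩ := generalized_tube_lemma (D.cC a) (isCompact_singleton (x := 0))
      (D.oV a) fun q hq => by obtain ⟨k, z⟩ := q; obtain rfl : z = 0 := hq.2; exact D.mC a k hq.1
    obtain ⟨r, r0, hr⟩ := nhds_basis_closedBall.mem_iff.1 (hv.mem_nhds (h2 rfl))
    filter_upwards [Ioc_mem_nhdsGT r0] with ρ hρ
    exact (prod_mono h1 ((closedBall_subset_closedBall hρ.2).trans hr)).trans h3
  obtain ⟨ρ, hρ, ρ0⟩ := (e1.and self_mem_nhdsWithin).exists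
  replace ρ0 : 0 < ρ := ρ0
  obtain ⟨LA, bA, LA0⟩ := ((eventually_all.2 fun a => ev_BL ((D.cC a).prod
    (isCompact_closedBall 0 ρ)) fun x hx => ((D.sA a).contDiffAt ((D.oV a).mem_nhds
      (hρ a hx))).of_le one).and (eventually_ge_atTop 0)).exists
  obtain ⟨ε₀, ε0, hE⟩ := exS E Λ (α := 1 / 2) K L N₀ (by norm_num) (by norm_num) l0
  set ε : ℝ := min ε₀ (l / 2) / (LA + 1) with hε
  have εp : 0 < ε := by positivity
  have εl : LA * ε ≤ min ε₀ (l / 2) := by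
    rw [hε, ← mul_div_assoc, div_le_iff₀ (by positivity)]
    nlinarith [lt_min ε0 (half_pos l0)]
  refine ⟨ε / 2, half_pos εp, ?_⟩
  have e2 : ∀ᶠ s in 𝓝[>] (0 : ℝ), K₁ * (s * 4) < ε / 2 :=
    ((show Continuous fun s : ℝ => K₁ * (s * 4) by fun_prop).tendsto' 0 0 (by simp)
      ).eventually_lt_const (half_pos εp) |>.filter_mono nhdsWithin_le_nhds
  filter_upwards [hA, e2, Ioc_mem_nhdsGT one_pos] with s ⟨𝒜, a, c, b1, b2, b3⟩ s2 ⟨s0, s1⟩
  obtain ⟨KF, hKF, KF0⟩ := ((eventually_all.2 fun a => admS_of (A := fun x => A a (x.1, fun c =>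
    (x.2 c).1)) ((D.oV a).preimage (f := fun x : P × (Λ → Jet E) => (x.1, fun c => (x.2 c).1))
      (by fun_prop)) (phi_smooth (D.sA a) (gs_smooth s (D.sG a))) (D.cC a) ρ0.le
    (fun x hx => hρ a ⟨hx.1, mem_closedBall_zero_iff.2 ((norm_j0 _).trans
      (mem_closedBall_zero_iff.1 hx.2))⟩) phi_lin (1 / 2) (K₁ := K₁ * 8) (by positivity)).and
    (eventually_ge_atTop 0)).exists
  obtain ⟨τ, C₀, τ0, τ1, hS⟩ := hE KF (min ρ ε) 1 KF0 (lt_min ρ0 εp) one_pos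
  refine ⟨τ, ⟨τ0, τ1⟩, fun p pc pb pI τ' hτ' ps => ?_⟩
  have mQ : ∀ i, ∀ y ∈ ball (0 : E) 4, c i + s • y ∈ Q (a i) := fun i y hy =>
    b1 i (mem_bl s0 (mem_ball_zero_iff.1 hy))
  have z4 : (0 : E) ∈ ball (0 : E) 4 := mem_ball_self (by norm_num)
  have z1 : (0 : ℝ) ∈ Icc (0 : ℝ) 1 := ⟨le_rfl, zero_le_one⟩
  have lip : ∀ i, ∀ t ∈ Icc (0 : ℝ) 1, ∀ y ∈ ball (0 : E) 4, ∀ y' ∈ ball (0 : E) 4,
      ‖p (a i) t (c i + s • y) - p (a i) t (c i + s • y')‖ ≤ K₁ * (s * ‖y - y'‖) :=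
    fun i t ht y hy y' hy' => by
      have := (pb _ t ht _ (mQ i y hy)).2.2 _ (mQ i y' hy')
      rwa [add_sub_add_left_eq_sub, ← smul_sub, norm_smul, Real.norm_of_nonneg s0.le] at this
  have mV : ∀ i, ∀ t ∈ Icc (0 : ℝ) 1, ∀ y ∈ ball (0 : E) 4, ∀ z : Λ → Jet E, ‖z‖ < min ρ ε →
      (p (a i) t (c i + s • y), fun c => (z c).1) ∈ C (a i) ×ˢ closedBall 0 ρ :=
    fun i t ht y hy z hz => ⟨(pb _ t ht _ (mQ i y hy)).1, mem_closedBall_zero_iff.2
      ((norm_j0 z).trans (hz.le.trans (min_le_left _ _)))⟩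
  have near : ∀ i, ∀ t ∈ Icc (0 : ℝ) 1, ∀ y ∈ ball (0 : E) 4, ∀ z : Λ → Jet E, ‖z‖ < min ρ ε →
      ‖A (a i) (p (a i) t (c i + s • y), fun c => (z c).1) - A (a i) (p (a i) 0 (c i + s • 0), 0)‖ ≤
        min ε₀ (l / 2) := fun i t ht y hy z hz => by
    refine ((bA _ _ (mV i t ht y hy z hz)).2 _ ⟨(pb _ 0 z1 _ (mQ i 0 z4)).1,
      mem_closedBall_self ρ0.le⟩).trans ((mul_le_mul_of_nonneg_left ?_ LA0).trans εl)
    rw [Prod.mk_sub_mk, sub_zero, Prod.norm_mk]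
    refine max_le ?_ ((norm_j0 z).trans (hz.le.trans (min_le_right _ _)))
    have h1 := norm_sub_le_norm_sub_add_norm_sub (p (a i) t (c i + s • y)) (p (a i) 0 (c i + s • y))
      (p (a i) 0 (c i + s • 0))
    have h2 := lip i 0 z1 y hy 0 z4
    rw [sub_zero] at h2
    have h3 := mul_le_mul_of_nonneg_left (mul_le_mul_of_nonneg_left
      (mem_ball_zero_iff.1 hy).le s0.le) K0
    linarith [(pb _ t ht _ (mQ i y hy)).2.1]
  choose A' hA' using fun i => hKF (a i) _ (min_le_left _ _) 1 ε₀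
    (A (a i) (p (a i) 0 (c i + s • 0), 0)) (fun t y => p (a i) t (c i + s • y))
    ((pc _).comp (f := fun q : ℝ × E => (q.1, c i + s • q.2)) (by fun_prop)
      fun q hq => ⟨hq.1, mQ i _ hq.2⟩)
    (fun t ht => hol_of_lip (by norm_num) (by norm_num) K0 (by norm_num)
      (fun y hy y' hy' => (norm_sub_le_of_ball hy hy').trans (by norm_num)) fun y hy y' hy' =>
        (lip i t ht y hy y' hy').trans (mul_le_mul_of_nonneg_left
          (mul_le_of_le_one_left (norm_nonneg _) s1) K0))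
    (fun t ht y hy => (pb _ t ht _ (mQ i y hy)).1)
    fun t ht y hy z hz => (near i t ht y hy z (mem_ball_zero_iff.1 hz)).trans (min_le_left _ _)
  have hj : ∀ i (u : Λ → X → ℝ), (fun c' z => u c' ((𝒜.e i).symm z)) =
      fun c' z => rd E (u c') (pt (a i)) (c i + s • z) := fun i u => by
    funext c' z; rw [b2]; rfl
  have hF : ∀ i (u : Λ → X → ℝ) k y c', phi (A (a i)) (gs s (G (a i))) (k, jl 𝒜 i u y) c' = s ^ 2 *
      opE (A (a i)) (G (a i)) k (fun c' => rd E (u c') (pt (a i))) (c i + s • y) c' :=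
    fun i u k y c' => by rw [← opE_scale s0.ne', ← hj]; rfl
  obtain ⟨v, v0, hv⟩ := hS X 𝒜 _ _ A' (fun i => hl _ _ (pb _ 0 z1 _ (mQ i 0 z4)).1) hA' (by
    intro i j t ht y hy y' hy' hx u h1 _ n1 n2 c'
    rw [b2, b2] at hx
    choose w w1 w2 w3 using fun c' => exists_smooth_jet ((hQ _).2 (mQ i y hy))
      ((hQ _).2 (mQ j y' hy')) hx (c2_scale s0.ne' (congrFun (hj i u) c' ▸ h1 c'))
    have m1 := hρ _ (mV i t ht y hy _ n1)
    have m2 := hρ _ (mV j t ht y' hy' _ n2)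
    have q1 : (fun c' => (jl 𝒜 i u y c').1) = fun c' => rd E (w c') (pt (a i)) (c i + s • y) :=
      funext fun c' => (congrFun (congrFun (hj i u) c') y).trans (congrArg Prod.fst (w2 c')).symm
    have q2 : (fun c' => (jl 𝒜 j u y' c').1) = fun c' => rd E (w c') (pt (a j)) (c j + s • y') :=
      funext fun c' => (congrFun (congrFun (hj j u) c') y').trans (congrArg Prod.fst (w3 c')).symm
    dsimp only
    rw [hF, hF, ← opE_congr _ w2, ← opE_congr _ w3, pI t ht _ _ _ (mQ i y hy) _ (mQ j y' hy') hx w _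
      (chartAt E _).open_source ((chartAt E _).map_target ((hQ _).2 (mQ i y hy))) w1 (q1 ▸ m1)
      (q2 ▸ m2)])
  refine ⟨v, v0, fun x => ?_⟩
  obtain ⟨i, y₀, hy₀, rfl⟩ := b3 x
  have sub : Icc 0 τ' ⊆ Icc 0 τ := Icc_subset_Icc_right hτ'.2
  have sub1 : Icc 0 τ' ⊆ Icc (0 : ℝ) 1 := Icc_subset_Icc_right (hτ'.2.trans τ1)
  have nz : ∀ t ∈ Icc 0 τ', ∀ y ∈ ball (0 : E) 4, ∀ _ : Λ, ‖jl 𝒜 i (v t) y‖ < min ρ ε :=
    fun t ht y hy c' => ((hv i c').2.sup t (sub ht) y hy).trans_lt (half_lt_self (lt_min ρ0 εp))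
  have nz' : ∀ t ∈ Icc 0 τ', ∀ y ∈ ball (0 : E) 4, ‖jl 𝒜 i (v t) y‖ < min ρ ε := fun t ht y hy =>
    (pi_norm_lt_iff (lt_min ρ0 εp)).2 fun c' => (norm_le_pi_norm _ c').trans_lt (nz t ht y hy c')
  have sm := regS (α := 1 / 2) (U := ball 0 4) (p := fun t y => p (a i) t (c i + s • y))
    (w := fun c' t y => v t c' ((𝒜.e i).symm y)) (by norm_num) (by norm_num) hτ'.1 isOpen_ball
    (D.oV (a i)) ((ps _).comp (f := fun q : ℝ × E => (q.1, c i + s • q.2)) (by fun_prop)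
      fun q hq => ⟨hq.1, (hQ _).2 (mQ i _ hq.2)⟩) (D.sA _) (gs_smooth s (D.sG _))
    (fun t ht y hy => hρ _ (mV i t (sub1 ht) y hy _ (nz' t ht y hy)))
    (fun t ht y hy ξ hξ => by
      have h1 : l * ‖ξ‖ ^ 2 ≤ A (a i) (p (a i) 0 (c i + s • 0), 0) (ξ.smulRight ξ) :=
        (hl _ _ (pb _ 0 z1 _ (mQ i 0 z4)).1).2 ξ
      have h2 := ContinuousLinearMap.le_of_opNorm_le_of_le _
        ((near i t (sub1 ht) y hy _ (nz' t ht y hy)).trans (min_le_right _ _))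
        (le_refl ‖ξ.smulRight ξ‖)
      rw [ContinuousLinearMap.norm_smulRight_apply, sub_apply, Real.norm_eq_abs, abs_le] at h2
      have h3 := mul_pos l0 (pow_pos (norm_pos_iff.2 hξ) 2)
      refine lt_of_lt_of_le ?_ (le_sub_iff_add_le.1 h2.1)
      linarith)
    (fun c' => ((hv i c').1.mono sub subset_rfl).tw (by norm_num) isOpen_ball fun y hy => by
      obtain ⟨r, r0, hr⟩ := Metric.isOpen_iff.1 isOpen_ball y hy
      exact ⟨r, r0, C₀, fun t ht z hz z' hz' => le_trans ((norm_snd_le (_, _)).trans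
        ((norm_snd_le (jl 𝒜 i (v t) z c' - jl 𝒜 i (v t) z' c')).trans (norm_le_pi_norm
          (jl 𝒜 i (v t) z - jl 𝒜 i (v t) z') c'))) ((hv i c').2.hol t (sub ht) z (hr hz) z' (hr hz'))⟩)
    (fun c' y _ => v0 c' _) fun c' t ht y hy => ((hv i c').1.dt t (sub ht) y hy).mono sub
  have inv : ∀ z ∈ ball (c i) (4 * s), s⁻¹ • (z - c i) ∈ ball (0 : E) 4 := fun z hz => by
    rw [mem_ball_zero_iff, norm_smul, norm_inv, Real.norm_of_nonneg s0.le, inv_mul_lt_iff₀ s0,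
      mul_comm]
    exact mem_ball_iff_norm.1 hz
  have inv2 : ∀ z, c i + s • s⁻¹ • (z - c i) = z := fun z => by simp [smul_inv_smul₀ s0.ne']
  refine ⟨a i, ball (c i) (4 * s), isOpen_ball, b1 i,
    ⟨_, mem_bl s0 (mem_ball_zero_iff.1 hy₀), (b2 i y₀).symm⟩, fun c' => ?_, fun t ht z hz => ?_⟩
  · refine ((sm c').comp (f := fun q : ℝ × E => (q.1, s⁻¹ • (q.2 - c i))) (by fun_prop)
      fun q hq => ⟨hq.1, inv _ hq.2⟩).congr fun q _ => ?_
    simp only [Function.comp_apply, b2, inv2, rd]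
  · have h1 := hρ _ (mV i t (sub1 ht) _ (inv z hz) _ (nz' t ht _ (inv z hz)))
    simp only [jl, jet, b2, inv2] at h1
    refine ⟨h1, fun c' => ?_⟩
    have h2 := ((hv i c').1.dt t (sub ht) _ (inv z hz)).mono sub
    rw [hF] at h2
    simp only [b2, inv2] at h2
    exact h2

end Vale.Agent.P216ST
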