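import Vale.Agent.P216ST.Stmt2
import Vale.Agent.P216R.Flow
import Vale.Agent.P216BF.Curv

/-! # The Ricci-DeTurck operator in a chart -/

set_option maxSynthPendingDepth 3
set_option linter.unusedSectionVars false

open Set Filter Topology
open scoped ContDiff

noncomputable section

namespace Vale.Agent.P216ST

open Vale.Agent.P216R Vale.Agent.P219.RG Vale.Agent.P216BF

variable {E : Type} [NormedAddCommGroup E] [NormedSpace ℝ E] [FiniteDimensional ℝ E]

/-- a linear form applied to a vector valued bilinear map -/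
def cL (B : E →L[ℝ] E →L[ℝ] E) (ξ : E →L[ℝ] ℝ) : Bil E := (ContinuousLinearMap.compL ℝ E E ℝ ξ).comp B

theorem cL_apply (B : E →L[ℝ] E →L[ℝ] E) (ξ : E →L[ℝ] ℝ) (v w : E) : cL B ξ v w = ξ (B v w) := rfl

variable (E) in
/-- the coordinate forms -/
def crd (k : Fin (Module.finrank ℝ E)) : E →L[ℝ] ℝ :=
  LinearMap.toContinuousLinearMap ((Module.finBasis ℝ E).coord k)

/-- the trace of a vector valued bilinear map -/
def TV (x : Bil E × (E →L[ℝ] E →L[ℝ] E)) : E :=
  ∑ k, trB x.1 (cL x.2 (crd E k)) • Module.finBasis ℝ E k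

theorem trB_sum {ι : Type} (S : Finset ι) (A : Bil E) (c : ι → ℝ) (B : ι → Bil E) :
    trB A (∑ i ∈ S, c i • B i) = ∑ i ∈ S, c i * trB A (B i) := by
  simp [trB, ContinuousLinearMap.comp_finsetSum, map_sum]

theorem app_TV (A : Bil E) (B : E →L[ℝ] E →L[ℝ] E) (ξ : E →L[ℝ] ℝ) :
    ξ (TV (A, B)) = trB A (cL B ξ) := by
  have e : cL B ξ = ∑ k, ξ (Module.finBasis ℝ E k) • cL B (crd E k) := by
    ext v w
    have := congrArg ξ ((Module.finBasis ℝ E).sum_repr (B v w))
    rw [map_sum] at this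
    rw [cL_apply, ← this, sum_apply, sum_apply]
    refine Finset.sum_congr rfl fun k _ => ?_
    simp [cL_apply, crd, mul_comm]
  rw [e, trB_sum]
  simp [TV, map_sum, mul_comm]

theorem TV_lin (A : Bil E) (B C : E →L[ℝ] E →L[ℝ] E) (r : ℝ) :
    TV (A, B + r • C) = TV (A, B) + r • TV (A, C) :=
  SeparatingDual.eq_iff_forall_dual_eq (R := ℝ).2 fun ξ => by
    have : cL (B + r • C) ξ = cL B ξ + r • cL C ξ := by ext v w; simp [cL_apply]
    simp only [map_add, map_smul, app_TV, this, trB_add, trB_smul, smul_eq_mul]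

theorem contDiffAt_TV {x : Bil E × (E →L[ℝ] E →L[ℝ] E)} (h : ∀ v, v ≠ 0 → 0 < x.1 v v) :
    ContDiffAt ℝ ∞ TV x := by
  have : CompleteSpace E := FiniteDimensional.complete ℝ E
  refine ContDiffAt.sum fun k _ => ContDiffAt.smul ?_ contDiffAt_const
  exact (trL E).contDiff.contDiffAt.comp x
    (((isInv h).contDiffAt_map_inverse.comp x contDiffAt_fst).clm_comp
      (contDiffAt_const.clm_comp contDiffAt_snd))

/-- the Christoffel symbols as a function of the first jet -/
def cb (x : Bil E × (E →L[ℝ] Bil E)) : E →L[ℝ] E →L[ℝ] E :=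
  (ContinuousLinearMap.compL ℝ E (E →L[ℝ] ℝ) E x.1.inverse) ∘L ((1 / 2 : ℝ) • (x.2 + x.2.flip
    - (ContinuousLinearMap.flipₗᵢ ℝ E E ℝ).toContinuousLinearEquiv.toContinuousLinearMap ∘L
      x.2.flip))

theorem chrisB_eq (G : E → Bil E) : chrisB G = fun u => cb (G u, fderiv ℝ G u) := rfl

theorem cb_spec {A : Bil E} (h : ∀ v, v ≠ 0 → 0 < A v v) (D : E →L[ℝ] Bil E) (a b c : E) :
    A (cb (A, D) a b) c = (D a b c + D b a c - D c a b) / 2 := by
  simp only [cb, ContinuousLinearMap.comp_apply, ContinuousLinearMap.compL_apply, app_inverse h]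
  simp
  ring

theorem cb_lin (A : Bil E) (B C : E →L[ℝ] Bil E) (r : ℝ) :
    cb (A, B + r • C) = cb (A, B) + r • cb (A, C) := by
  ext a b
  simp only [cb, ContinuousLinearMap.comp_apply, ContinuousLinearMap.compL_apply, add_apply,
    smul_apply, ← map_smul, ← map_add]
  congr 1
  ext c
  simp
  ring

theorem contDiffAt_cb {x : Bil E × (E →L[ℝ] Bil E)} (h : ∀ v, v ≠ 0 → 0 < x.1 v v) :
    ContDiffAt ℝ ∞ cb x := by
  have : CompleteSpace E := FiniteDimensional.complete ℝ E
  have hf : ContDiffAt ℝ ∞ (fun x : Bil E × (E →L[ℝ] Bil E) => x.2.flip) x :=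
    ((ContinuousLinearMap.flipₗᵢ ℝ E E (E →L[ℝ] ℝ)).toContinuousLinearEquiv.contDiff.contDiffAt).comp
      x contDiffAt_snd
  refine ContDiffAt.clm_comp ?_ ?_
  · exact (ContinuousLinearMap.compL ℝ E (E →L[ℝ] ℝ) E).contDiff.contDiffAt.comp x
      ((isInv h).contDiffAt_map_inverse.comp x contDiffAt_fst)
  · exact ((contDiffAt_snd.add hf).sub (contDiffAt_const.clm_comp hf)).const_smul (1 / 2 : ℝ)

/-- comparison of derivatives for a function which is linear in its second argument -/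
theorem fderiv_diff {Y H F : Type} [NormedAddCommGroup Y] [NormedSpace ℝ Y] [NormedAddCommGroup H]
    [NormedSpace ℝ H] [NormedAddCommGroup F] [NormedSpace ℝ F] {Φ : Y × H → F} {p p' : E → Y}
    {q q' : E → H} {y : E} (hΦ : DifferentiableAt ℝ Φ (p y, q y)) (hp : DifferentiableAt ℝ p y)
    (hp' : DifferentiableAt ℝ p' y) (hq : DifferentiableAt ℝ q y) (hq' : DifferentiableAt ℝ q' y)
    (e0 : p' y = p y) (e1 : q' y = q y) (e2 : fderiv ℝ p' y = fderiv ℝ p y)
    (lin : ∀ a h k (r : ℝ), Φ (a, h + r • k) = Φ (a, h) + r • Φ (a, k)) (x : E) :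
    fderiv ℝ (fun z => Φ (p z, q z)) y x = fderiv ℝ (fun z => Φ (p' z, q' z)) y x +
      Φ (p y, fderiv ℝ q y x - fderiv ℝ q' y x) := by
  set k := fderiv ℝ q y x - fderiv ℝ q' y x with hk
  have h1 := (hΦ.hasFDerivAt.comp y (hp.hasFDerivAt.prodMk hq.hasFDerivAt)).fderiv
  have h2 := (HasFDerivAt.comp y (g := Φ) (f := fun z => (p' z, q' z))
    (by simpa only [e0, e1] using hΦ.hasFDerivAt) (hp'.hasFDerivAt.prodMk hq'.hasFDerivAt)).fderiv
  have h3 : HasDerivAt (fun r : ℝ => (p y, q y + r • k)) (0, k) 0 := (hasDerivAt_const _ _).prodMk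
    (by simpa using ((hasDerivAt_id (0 : ℝ)).smul_const k).const_add (q y))
  have h4 := hΦ.hasFDerivAt.comp_hasDerivAt_of_eq 0 h3 (by simp)
  have h5 : HasDerivAt (fun r : ℝ => Φ (p y, q y) + r • Φ (p y, k)) (Φ (p y, k)) 0 := by
    simpa using ((hasDerivAt_id (0 : ℝ)).smul_const (Φ (p y, k))).const_add (Φ (p y, q y))
  have h6 := h4.unique (h5.congr_of_eventuallyEq (Eventually.of_forall fun r => lin _ _ _ _))
  erw [h1, h2]
  rw [← h6, ContinuousLinearMap.comp_apply, ContinuousLinearMap.comp_apply, ← map_add, e2]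
  simp [hk]

/-- the DeTurck vector field -/
def wv (G G₀ : E → Bil E) (y : E) : E := TV (G y, chrisB G y - chrisB G₀ y)

/-- the Ricci-DeTurck operator -/
def rdt (G G₀ : E → Bil E) (y : E) : Bil E := (-2 : ℝ) • ricG G y + lie G (wv G G₀) y

variable {G G' G₀ H H₀ : E → Bil E} {O O' O₀ : Set E} {y : E} {τ : E → E}

theorem contDiffAt_wv (h : IsMetricOn G O) (h₀ : IsMetricOn G₀ O₀) (hy : y ∈ O) (hy₀ : y ∈ O₀) :
    ContDiffAt ℝ ∞ (wv G G₀) y :=
  (contDiffAt_TV (h.pos y hy)).comp y ((h.contDiffAt hy).prodMk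
    ((h.contDiffAt_chrisB hy).sub (h₀.contDiffAt_chrisB hy₀)))

theorem two_le' : minSmoothness ℝ 2 ≤ ∞ := by
  rw [minSmoothness_of_isRCLikeNormedField]
  exact WithTop.coe_le_coe.2 le_top

theorem d2_symm (h : IsMetricOn G O) (hy : y ∈ O) (x a b c : E) :
    fderiv ℝ (fderiv ℝ G) y x a b c = fderiv ℝ (fderiv ℝ G) y x a c b := by
  have d := ((h.contDiffAt_fderiv hy).differentiableAt (by simp)).hasFDerivAt
  have k := fun b c => (((d.clm_apply (hasFDerivAt_const a y)).clm_apply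
    (hasFDerivAt_const b y)).clm_apply (hasFDerivAt_const c y))
  have := (k b c).unique ((k c b).congr_of_eventuallyEq
    (eventually_of_mem (h.mem_nhds hy) fun z hz => h.fderiv_symm hz a b c))
  simpa using congrArg (fun L => L x) this

/-- evaluation of the last two slots of a 4-tensor -/
def ev4 (k : E →L[ℝ] E →L[ℝ] Bil E) (v w : E) : Bil E :=
  (ContinuousLinearMap.compL ℝ E (Bil E) ℝ
    ((ContinuousLinearMap.apply ℝ ℝ w).comp (ContinuousLinearMap.apply ℝ _ v))).comp k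

theorem ev4_apply (k : E →L[ℝ] E →L[ℝ] Bil E) (v w a b : E) : ev4 k v w a b = k a b v w := rfl

/-- **The principal part of the Ricci-DeTurck operator.** -/
theorem rdt_diff (h : IsMetricOn G O) (h' : IsMetricOn G' O') (h₀ : IsMetricOn G₀ O₀) (hy : y ∈ O)
    (hy' : y ∈ O') (hy₀ : y ∈ O₀) (e0 : G' y = G y) (e1 : fderiv ℝ G' y = fderiv ℝ G y) (v w : E) :
    rdt G G₀ y v w = rdt G' G₀ y v w + trB (G y)
      (ev4 (fderiv ℝ (fderiv ℝ G) y - fderiv ℝ (fderiv ℝ G') y) v w) := by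
  have p := h.pos y hy
  have pd : PD (G y) := ⟨h.symm y hy, p⟩
  obtain ⟨e, he⟩ := pd.exists_onb
  have i : (∞ : WithTop ℕ∞) ≠ 0 := by simp
  have eΓ : chrisB G' y = chrisB G y := by simp only [chrisB_eq, e0, e1]
  set k := fderiv ℝ (fderiv ℝ G) y - fderiv ℝ (fderiv ℝ G') y with hk
  have dΓ : ∀ x, fderiv ℝ (chrisB G) y x = fderiv ℝ (chrisB G') y x + cb (G y, k x) := fun x =>
    fderiv_diff ((contDiffAt_cb p).differentiableAt i) (h.differentiableAt hy)
      (h'.differentiableAt hy') ((h.contDiffAt_fderiv hy).differentiableAt i)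
      ((h'.contDiffAt_fderiv hy').differentiableAt i) e0 e1 e1 cb_lin x
  have d1 := h.differentiableAt_chrisB hy
  have d2 := h'.differentiableAt_chrisB hy'
  have d0 := h₀.differentiableAt_chrisB hy₀
  have dW : ∀ x, fderiv ℝ (wv G G₀) y x = fderiv ℝ (wv G' G₀) y x + TV (G y, cb (G y, k x)) :=
    fun x => by
      have := fderiv_diff (q := fun z => chrisB G z - chrisB G₀ z)
        (q' := fun z => chrisB G' z - chrisB G₀ z) ((contDiffAt_TV p).differentiableAt i)
        (h.differentiableAt hy) (h'.differentiableAt hy') (d1.sub d0) (d2.sub d0) e0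
        (by simp only [eΓ]) e1 TV_lin x
      rw [fderiv_fun_sub d1 d0, fderiv_fun_sub d2 d0, sub_apply, sub_apply, sub_sub_sub_cancel_right,
        dΓ, add_sub_cancel_left] at this
      exact this
  have eW : wv G' G₀ y = wv G G₀ y := by simp only [wv, e0, eΓ]
  have s1 : ∀ x a b c, k x a b c = k a x b c := fun x a b c => by
    simp only [hk, sub_apply, ((h.contDiffAt hy).isSymmSndFDerivAt two_le').eq x a,
      ((h'.contDiffAt hy').isSymmSndFDerivAt two_le').eq x a]
  have s2 : ∀ x a b c, k x a b c = k x a c b := fun x a b c => by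
    simp only [hk, sub_apply, d2_symm h hy x a b c, d2_symm h' hy' x a b c]
  have r1 : ricG G y v w = ricG G' y v w +
      ∑ i, (G y (cb (G y, k (e i)) v w) (e i) - G y (cb (G y, k v) (e i) w) (e i)) := by
    rw [ricG_apply, ricG_apply, he.trL, he.trL, ← Finset.sum_add_distrib]
    refine Finset.sum_congr rfl fun i _ => ?_
    simp [curvB, dΓ, eΓ]
    ring
  have r2 : ∀ a b, G y (TV (G y, cb (G y, k a))) b = ∑ i, G y (cb (G y, k a) (e i) (e i)) b :=
    fun a b => by
      have := app_TV (G y) (cb (G y, k a)) ((G y).flip b)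
      rwa [he.trB pd] at this
  simp only [rdt, add_apply, smul_apply, lie_apply, r1, dW, e0, e1, eW, map_add,
    h.symm y hy v (TV _), r2, he.trB pd, cb_spec p, smul_eq_mul]
  have r3 : ∀ i, -2 * ((k (e i) v w (e i) + k (e i) w v (e i) - k (e i) (e i) v w) / 2 -
      (k v (e i) w (e i) + k v w (e i) (e i) - k v (e i) (e i) w) / 2) +
      (k v (e i) (e i) w + k v (e i) (e i) w - k v w (e i) (e i)) / 2 +
      (k w (e i) (e i) v + k w (e i) (e i) v - k w v (e i) (e i)) / 2 = k (e i) (e i) v w :=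
    fun i => by
      rw [s1 (e i) v, s1 (e i) w, s2 v (e i) w, s2 w (e i) v, s1 w v]
      ring
  have r4 := Finset.sum_congr (rfl : Finset.univ = Finset.univ) fun i _ => r3 i
  rw [Finset.sum_add_distrib, Finset.sum_add_distrib, ← Finset.mul_sum] at r4
  simp only [ev4_apply]
  linarith

theorem rdt_symm (h : IsMetricOn G O) (hy : y ∈ O) (G₀ : E → Bil E) (v w : E) :
    rdt G G₀ y v w = rdt G G₀ y w v := by
  have := ric_symm (met_model.2 h) hy v w
  simp only [Ric_model] at this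
  simp only [rdt, add_apply, smul_apply, lie_apply, this, h.fderiv_symm hy _ v w, h.symm y hy v,
    h.symm y hy w]
  ring

/-! ### naturality -/

theorem iso_wv (h : Iso G H τ y) (h₀ : Iso G₀ H₀ τ y) :
    fderiv ℝ τ y (wv G G₀ y) = wv H H₀ (τ y) :=
  SeparatingDual.eq_iff_forall_dual_eq (R := ℝ).2 fun ξ => by
    rw [wv, wv, app_TV, ← trB_comap h.pos h.inj, ← h.eq, ← ContinuousLinearMap.comp_apply, app_TV]
    congr 1
    ext a b
    simp [cL_apply, chrisB_apply, h.chris, h₀.chris]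

theorem iso_lie (h : Iso G H τ y) {W W' : E → E} (hW : DifferentiableAt ℝ W y)
    (hW' : DifferentiableAt ℝ W' (τ y)) (e : ∀ᶠ z in 𝓝 y, fderiv ℝ τ z (W z) = W' (τ z)) :
    lie G W y = (lie H W' (τ y)).bilinearComp (fderiv ℝ τ y) (fderiv ℝ τ y) := by
  obtain ⟨U, V, h1, h2, h3, h4⟩ := h.met
  have d1 := (((h.cd.fderiv_right (m := ∞) le_rfl).differentiableAt (by simp)).hasFDerivAt.clm_apply
    hW.hasFDerivAt).unique ((hW'.hasFDerivAt.comp y
      (h.cd.differentiableAt (by simp)).hasFDerivAt).congr_of_eventuallyEq e)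
  have d2 : ∀ v, fderiv ℝ τ y (chris G y (W y) v + fderiv ℝ W y v) =
      chris H (τ y) (W' (τ y)) (fderiv ℝ τ y v) + fderiv ℝ W' (τ y) (fderiv ℝ τ y v) := fun v => by
    have := congrArg (fun L => L v) d1
    simp only [add_apply, ContinuousLinearMap.comp_apply, ContinuousLinearMap.flip_apply] at this
    rw [map_add, h.chris, e.self_of_nhds, ← this, (h.cd.isSymmSndFDerivAt two_le').eq (W y) v]
    abel
  ext v w
  have e1 := h.iso'.self_of_nhds (chris G y (W y) v + fderiv ℝ W y v) w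
  have e2 := h.iso'.self_of_nhds v (chris G y (W y) w + fderiv ℝ W y w)
  rw [d2] at e1 e2
  simp only [map_add, add_apply] at e1 e2
  simp only [ContinuousLinearMap.bilinearComp_apply, lie_apply, h1.chris_compat h3,
    h2.chris_compat h4]
  linarith

theorem iso_rdt (h : Iso G H τ y) (h₀ : Iso G₀ H₀ τ y) :
    rdt G G₀ y = (rdt H H₀ (τ y)).bilinearComp (fderiv ℝ τ y) (fderiv ℝ τ y) := by
  obtain ⟨U, V, h1, h2, h3, h4⟩ := h.met
  obtain ⟨U', V', k1, k2, k3, k4⟩ := h₀.met
  rw [rdt, rdt, h.ricG, iso_lie h ((contDiffAt_wv h1 k1 h3 k3).differentiableAt (by simp))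
    ((contDiffAt_wv h2 k2 h4 k4).differentiableAt (by simp))
    ((h.eventually.and h₀.eventually).mono fun z hz => iso_wv hz.1 hz.2)]
  ext v w
  simp

/-! ### smoothness with parameters -/

variable {F : Type} [NormedAddCommGroup F] [NormedSpace ℝ F] {A A₀ : F → E → Bil E} {s : Set F}
  {p : F}

theorem ps_wv (h : PS A s p y) (h₀ : PS A₀ s p y) (hp : p ∈ s) (k : ∀ v, v ≠ 0 → 0 < A p y v v)
    (k₀ : ∀ v, v ≠ 0 → 0 < A₀ p y v v) : PS (fun q => wv (A q) (A₀ q)) s p y :=
  (contDiffAt_TV (x := (A p y, chrisB (A p) y - chrisB (A₀ p) y)) k).comp_contDiffWithinAt (p, y)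
    (ContDiffWithinAt.prodMk h ((h.chrisB hp k).sub (h₀.chrisB hp k₀)))

theorem ps_rdt (h : PS A s p y) (h₀ : PS A₀ s p y) (hp : p ∈ s) (k : ∀ v, v ≠ 0 → 0 < A p y v v)
    (k₀ : ∀ v, v ≠ 0 → 0 < A₀ p y v v) : PS (fun q => rdt (A q) (A₀ q)) s p y := by
  have h1 := ps_wv h h₀ hp k k₀
  exact ((h.ricG hp k).const_smul (-2 : ℝ)).add ((((h.fderiv hp).clm_apply h1).add
    (ContDiffWithinAt.clm_comp h (h1.fderiv hp))).add
      (cdw_flip ((cdw_flip h).clm_comp (h1.fderiv hp))))

theorem isOpen_pos : IsOpen {A : Bil E | ∀ v, v ≠ 0 → 0 < A v v} := by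
  have := FiniteDimensional.proper_real E
  refine isOpen_iff_mem_nhds.2 fun A hA => ?_
  have h := (isCompact_sphere (0 : E) 1).eventually_forall_of_forall_eventually (x₀ := A)
    (P := fun B v => 0 < B v v) fun v hv =>
      ((show Continuous fun q : Bil E × E => q.1 q.2 q.2 by fun_prop).tendsto (A, v)
        ).eventually_const_lt (hA v (Metric.ne_of_mem_sphere hv one_ne_zero))
  filter_upwards [h] with B hB v hv
  have n := norm_pos_iff.2 hv
  have h1 := hB (‖v‖⁻¹ • v) (by simp [norm_smul, n.ne'])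
  simp only [map_smul, smul_apply, smul_eq_mul] at h1
  exact (mul_pos_iff_of_pos_left (inv_pos.2 n)).1 ((mul_pos_iff_of_pos_left (inv_pos.2 n)).1 h1)

end Vale.Agent.P216ST
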