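import Vale.Agent.P216ST.DT
import Vale.Agent.P216ST.Adm

/-! # The Ricci-DeTurck equation as a system for scalar functions, in a chart -/

set_option maxSynthPendingDepth 3
set_option linter.unusedSectionVars false

open Set Filter Topology
open scoped ContDiff

noncomputable section

namespace Vale.Agent.P216ST

open Vale.Agent.P216R Vale.Agent.P219.RG
open Vale.Agent.P210.R2.H53 (gradG hessG lapG)

variable {E : Type} [NormedAddCommGroup E] [NormedSpace ℝ E] [FiniteDimensional ℝ E]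
  {J : Type} [Fintype J] [DecidableEq J]

/-- symmetric products of differentials -/
def pr (φ : J → E → ℝ) (c : J × J) (y : E) : Bil E :=
  (1 / 2 : ℝ) • ((fderiv ℝ (φ c.1) y).smulRight (fderiv ℝ (φ c.2) y) +
    (fderiv ℝ (φ c.2) y).smulRight (fderiv ℝ (φ c.1) y))

theorem pr_apply (φ : J → E → ℝ) (c : J × J) (y v w : E) : pr φ c y v w =
    (fderiv ℝ (φ c.1) y v * fderiv ℝ (φ c.2) y w + fderiv ℝ (φ c.2) y v * fderiv ℝ (φ c.1) y w) / 2 := by
  simp [pr]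
  ring

theorem pr_symm (φ : J → E → ℝ) (c : J × J) (y v w : E) : pr φ c y v w = pr φ c y w v := by
  rw [pr_apply, pr_apply]
  ring

/-- the metric induced by the functions `φ` -/
def gm (φ : J → E → ℝ) (y : E) : Bil E := ∑ j, pr φ (j, j) y

/-- the metric with coefficients `w` -/
def gw (G₀ : E → Bil E) (φ : J → E → ℝ) (w : J × J → E → ℝ) (y : E) : Bil E :=
  G₀ y + ∑ c, w c y • pr φ c y

/-- the operator on the coefficients -/
def opc (G₀ : E → Bil E) (φ : J → E → ℝ) (w : J × J → E → ℝ) (y : E) (c : J × J) : ℝ :=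
  lapG (gw G₀ φ w) (w c) y + (rdt (gw G₀ φ w) G₀ y - ∑ c', lapG (gw G₀ φ w) (w c') y • pr φ c' y)
    (gradG (gm φ) (φ c.1) y) (gradG (gm φ) (φ c.2) y)

/-- a metric and an immersion -/
structure Fr (G₀ : E → Bil E) (φ : J → E → ℝ) (O : Set E) : Prop where
  met : IsMetricOn G₀ O
  sm : ∀ j, ContDiffOn ℝ ∞ (φ j) O
  pos : ∀ y ∈ O, ∀ v, v ≠ 0 → 0 < gm φ y v v

variable {G G₀ H H₀ : E → Bil E} {φ ψ : J → E → ℝ} {w w' : J × J → E → ℝ} {O O' : Set E} {y : E}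
  {τ : E → E}

theorem Fr.at (h : Fr G₀ φ O) (hy : y ∈ O) (j : J) : ContDiffAt ℝ ∞ (φ j) y :=
  (h.sm j).contDiffAt (h.met.mem_nhds hy)

theorem Fr.pr (h : Fr G₀ φ O) (hy : y ∈ O) (c : J × J) : ContDiffAt ℝ ∞ (pr φ c) y := by
  have k := fun j => (h.at hy j).fderiv_right (m := ∞) le_rfl
  exact (((k _).smulRight (k _)).add ((k _).smulRight (k _))).const_smul (1 / 2 : ℝ)

theorem Fr.gm (h : Fr G₀ φ O) : IsMetricOn (gm φ) O :=
  ⟨h.met.isOpen, fun _ hy => (ContDiffAt.sum fun _ _ => h.pr hy _).contDiffWithinAt,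
    fun y _ v w => by simp only [P216ST.gm, sum_apply, pr_symm φ _ y v], h.pos⟩

theorem Fr.gw_at (h : Fr G₀ φ O) (hy : y ∈ O) (hw : ∀ c, ContDiffAt ℝ ∞ (w c) y) :
    ContDiffAt ℝ ∞ (gw G₀ φ w) y :=
  (h.met.contDiffAt hy).add (ContDiffAt.sum fun c _ => (hw c).smul (h.pr hy c))

theorem Fr.gw_symm (h : Fr G₀ φ O) (hy : y ∈ O) (w : J × J → E → ℝ) (a b : E) :
    gw G₀ φ w y a b = gw G₀ φ w y b a := by
  simp only [gw, add_apply, sum_apply, smul_apply, pr_symm φ _ y a, h.met.symm y hy a]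

theorem Fr.gw (h : Fr G₀ φ O) (hy : y ∈ O) (hw : ∀ᶠ z in 𝓝 y, ∀ c, ContDiffAt ℝ ∞ (w c) z)
    (p : ∀ v, v ≠ 0 → 0 < gw G₀ φ w y v v) : ∃ U, IsMetricOn (gw G₀ φ w) U ∧ y ∈ U := by
  obtain ⟨U, u1, u2, u3⟩ := eventually_nhds_iff.1 ((hw.and (h.met.isOpen.eventually_mem hy)).and
    ((h.gw_at hy hw.self_of_nhds).continuousAt.eventually_mem (isOpen_pos.mem_nhds p)))
  exact ⟨U, ⟨u2, fun z hz => (h.gw_at (u1 z hz).1.2 (u1 z hz).1.1).contDiffWithinAt,
    fun z hz => h.gw_symm (u1 z hz).1.2 w, fun z hz => (u1 z hz).2⟩, u3⟩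

theorem sum_grad (p : ∀ v, v ≠ 0 → 0 < gm φ y v v) (v : E) :
    ∑ j, fderiv ℝ (φ j) y v • gradG (gm φ) (φ j) y = v :=
  ext_of_pos p fun z => by
    simp only [gradG, map_sum, map_smul, app_inverse p]
    simp only [gm, sum_apply, smul_apply, pr_apply, smul_eq_mul]
    exact Finset.sum_congr rfl fun j _ => by ring

theorem sum_pr (p : ∀ v, v ≠ 0 → 0 < gm φ y v v) {B : Bil E} (hB : ∀ v w, B v w = B w v) :
    ∑ c : J × J, B (gradG (gm φ) (φ c.1) y) (gradG (gm φ) (φ c.2) y) • pr φ c y = B := by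
  have k : ∀ v w, B v w = ∑ c : J × J, B (gradG (gm φ) (φ c.1) y) (gradG (gm φ) (φ c.2) y) *
      (fderiv ℝ (φ c.1) y v * fderiv ℝ (φ c.2) y w) := fun v w => by
    conv_lhs => rw [← sum_grad p v, ← sum_grad p w]
    simp only [map_sum, sum_apply, map_smul, smul_apply, smul_eq_mul, Finset.mul_sum]
    rw [Fintype.sum_prod_type_right]
    exact Finset.sum_congr rfl fun _ _ => Finset.sum_congr rfl fun _ _ => by ring
  ext v w
  have : B v w = (B v w + B w v) / 2 := by rw [hB w v]; ring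
  rw [this, k v w, k w v, ← Finset.sum_add_distrib, Finset.sum_div]
  simp only [sum_apply, smul_apply, pr_apply, smul_eq_mul]
  exact Finset.sum_congr rfl fun _ _ => by ring

theorem sum_opc (h : Fr G₀ φ O) (hy : y ∈ O) (hw : ∀ᶠ z in 𝓝 y, ∀ c, ContDiffAt ℝ ∞ (w c) z)
    (p : ∀ v, v ≠ 0 → 0 < gw G₀ φ w y v v) :
    ∑ c, opc G₀ φ w y c • pr φ c y = rdt (gw G₀ φ w) G₀ y := by
  obtain ⟨U, u1, u2⟩ := h.gw hy hw p
  simp only [opc, add_smul, Finset.sum_add_distrib]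
  rw [sum_pr (h.pos y hy) fun a b => by
    simp only [sub_apply, sum_apply, smul_apply, pr_symm φ _ y a, rdt_symm u1 u2 G₀ a]]
  abel

/-! ### naturality -/

theorem iso_of_iso (h₀ : Iso G₀ H₀ τ y) (hH : IsMetricOn H O) (hy : τ y ∈ O)
    (e : G =ᶠ[𝓝 y] comap τ H) : Iso G H τ y := by
  obtain ⟨W, w1, w2, w3⟩ := eventually_nhds_iff.1 h₀.eventually
  obtain ⟨U, u1, u2⟩ := LI.met' (h := G) ⟨⟨O, met_model.2 hH, hy⟩, ⟨W, ld_model w2
    (fun z hz => (w1 z hz).cd.contDiffWithinAt) fun z hz => (w1 z hz).inj, w3⟩, e⟩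
  exact ⟨⟨U, O, met_model.1 u1, hH, u2, hy⟩, h₀.smooth, e⟩

theorem nat_pr (h : Fr H₀ ψ O) (hy : τ y ∈ O) (h₀ : Iso G₀ H₀ τ y)
    (e : ∀ j, φ j =ᶠ[𝓝 y] ψ j ∘ τ) : ∀ᶠ z in 𝓝 y, ∀ c, pr φ c z = comap τ (pr ψ c) z := by
  filter_upwards [eventually_all.2 fun j => (e j).fderiv (𝕜 := ℝ), h₀.smooth,
    h₀.cd.continuousAt.eventually_mem (h.met.mem_nhds hy)] with z z1 z2 z3 c
  ext a b
  simp only [comap_model, pr_apply, z1, fderiv_comp z ((h.at z3 _).differentiableAt (by simp))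
    (z2.differentiableAt (by simp)), ContinuousLinearMap.comp_apply]

theorem nat_gw (h : Fr H₀ ψ O) (hy : τ y ∈ O) (h₀ : Iso G₀ H₀ τ y)
    (e : ∀ j, φ j =ᶠ[𝓝 y] ψ j ∘ τ) (e' : ∀ c, w c =ᶠ[𝓝 y] w' c ∘ τ) :
    gw G₀ φ w =ᶠ[𝓝 y] comap τ (gw H₀ ψ w') := by
  filter_upwards [nat_pr h hy h₀ e, h₀.iso, eventually_all.2 e'] with z z1 z2 z3
  ext a b
  simp only [gw, z1, z2, z3, comap_model, add_apply, sum_apply, smul_apply, Function.comp_apply]

theorem nat_opc (h : Fr H₀ ψ O) (hy : τ y ∈ O) (h₀ : Iso G₀ H₀ τ y)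
    (e : ∀ j, φ j =ᶠ[𝓝 y] ψ j ∘ τ) (e' : ∀ c, w c =ᶠ[𝓝 y] w' c ∘ τ)
    (hw : ∀ᶠ z in 𝓝 (τ y), ∀ c, ContDiffAt ℝ ∞ (w' c) z)
    (p : ∀ v, v ≠ 0 → 0 < gw H₀ ψ w' (τ y) v v) : opc G₀ φ w y = opc H₀ ψ w' (τ y) := by
  obtain ⟨U, u1, u2⟩ := h.gw hy hw p
  have i1 := iso_of_iso h₀ u1 u2 (nat_gw h hy h₀ e e')
  have k := nat_pr h hy h₀ e
  have i2 : Iso (gm φ) (gm ψ) τ y := iso_of_iso h₀ h.gm hy (k.mono fun z hz => by
    ext a b
    simp only [gm, hz, comap_model, sum_apply])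
  have l := fun c => i1.lapG ((hw.self_of_nhds c).of_le two_le_infty) (e' c)
  have g := fun j => i2.gradG ((h.at hy j).differentiableAt (by simp)) (e j)
  funext c
  simp only [opc, l, iso_rdt i1 h₀, k.self_of_nhds, sub_apply, sum_apply, smul_apply, comap_model,
    ContinuousLinearMap.bilinearComp_apply, g]

/-! ### smoothness with parameters -/

theorem ps_gw {F : Type} [NormedAddCommGroup F] [NormedSpace ℝ F] {u : F → J × J → E → ℝ}
    {s : Set F} {q : F} (h : Fr G₀ φ O) (hy : y ∈ O) (hu : ∀ c, PS (fun q => u q c) s q y) :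
    PS (fun q => gw G₀ φ (u q)) s q y :=
  (ps_const (h.met.contDiffAt hy) s q).add
    (ContDiffWithinAt.sum fun c _ => (hu c).smul (ps_const (h.pr hy c) s q))

theorem ps_opc {F : Type} [NormedAddCommGroup F] [NormedSpace ℝ F] {u : F → J × J → E → ℝ}
    {s : Set F} {q : F} (h : Fr G₀ φ O) (hy : y ∈ O) (hq : q ∈ s)
    (hu : ∀ c, PS (fun q => u q c) s q y) (p : ∀ v, v ≠ 0 → 0 < gw G₀ φ (u q) y v v) (c : J × J) :
    PS (fun q z => opc G₀ φ (u q) z c) s q y := by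
  have h1 := ps_gw h hy hu
  have l := fun c => h1.lapG hq p (hu c)
  have g := fun j => (ps_const (h.gm.contDiffAt hy) s q).gradG hq (h.pos y hy)
    (ps_const (h.at hy j) s q)
  exact (l c).add ((((ps_rdt h1 (ps_const (h.met.contDiffAt hy) s q) hq p (h.met.pos y hy)).sub
    (ContDiffWithinAt.sum fun c _ => (l c).smul (ps_const (h.pr hy c) s q))).clm_apply
      (g _)).clm_apply (g _))

/-! ### the principal part -/

theorem jet_van {F : Type} [NormedAddCommGroup F] [NormedSpace ℝ F] {u : E → ℝ} {B : E → F}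
    (hu : ContDiffAt ℝ ∞ u y) (hB : ContDiffAt ℝ ∞ B y) (u0 : u y = 0) (u1 : fderiv ℝ u y = 0) :
    fderiv ℝ (fun z => u z • B z) y = 0 ∧
      ∀ a b, fderiv ℝ (fderiv ℝ fun z => u z • B z) y a b = fderiv ℝ (fderiv ℝ u) y a b • B y := by
  have e : fderiv ℝ (fun z => u z • B z) =ᶠ[𝓝 y] fun z => u z • fderiv ℝ B z +
      ContinuousLinearMap.smulRightL ℝ E F (fderiv ℝ u z) (B z) := by
    filter_upwards [(hu.of_le two_le_infty).eventually (by simp),
      (hB.of_le two_le_infty).eventually (by simp)] with z z1 z2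
    exact fderiv_fun_smul (z1.differentiableAt (by simp)) (z2.differentiableAt (by simp))
  have i : (∞ : WithTop ℕ∞) ≠ 0 := by simp
  have d1 := ((hu.fderiv_right (m := ∞) le_rfl).differentiableAt i).hasFDerivAt
  have d2 := ((hB.fderiv_right (m := ∞) le_rfl).differentiableAt i).hasFDerivAt
  have d := ((hu.differentiableAt i).hasFDerivAt.fun_smul d2).fun_add
    (((ContinuousLinearMap.smulRightL ℝ E F).hasFDerivAt.comp y d1).clm_apply
      (hB.differentiableAt i).hasFDerivAt)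
  refine ⟨by simp [e.self_of_nhds, u0, u1], fun a b => ?_⟩
  rw [e.fderiv_eq]
  erw [d.fderiv]
  simp [u0, u1]

theorem opc_diff (h : Fr G₀ φ O) (hy : y ∈ O) (hw : ∀ᶠ z in 𝓝 y, ∀ c, ContDiffAt ℝ ∞ (w c) z)
    (hw' : ∀ᶠ z in 𝓝 y, ∀ c, ContDiffAt ℝ ∞ (w' c) z) (p : ∀ v, v ≠ 0 → 0 < gw G₀ φ w y v v)
    (e0 : ∀ c, w' c y = w c y) (e1 : ∀ c, fderiv ℝ (w' c) y = fderiv ℝ (w c) y)
    (e2 : ∀ c, fderiv ℝ (fderiv ℝ (w' c)) y = 0) (c : J × J) :
    opc G₀ φ w y c = trB (gw G₀ φ w y) (fderiv ℝ (fderiv ℝ (w c)) y) + opc G₀ φ w' y c := by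
  have i : (∞ : WithTop ℕ∞) ≠ 0 := by simp
  have f0 : gw G₀ φ w' y = gw G₀ φ w y := by simp only [gw, e0]
  obtain ⟨U, u1, u2⟩ := h.gw hy hw p
  obtain ⟨U', v1, v2⟩ := h.gw hy hw' (f0 ▸ p)
  have s1 := fun c => (hw.self_of_nhds c).sub (hw'.self_of_nhds c)
  have a1 : ∀ c, fderiv ℝ (fun z => w c z - w' c z) =ᶠ[𝓝 y]
      fun z => fderiv ℝ (w c) z - fderiv ℝ (w' c) z := fun c => by
    filter_upwards [hw, hw'] with z z1 z2
    exact fderiv_fun_sub ((z1 c).differentiableAt i) ((z2 c).differentiableAt i)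
  have a2 : ∀ c, fderiv ℝ (fderiv ℝ fun z => w c z - w' c z) y = fderiv ℝ (fderiv ℝ (w c)) y :=
    fun c => by
      rw [(a1 c).fderiv_eq, fderiv_fun_sub
        (((hw.self_of_nhds c).fderiv_right (m := ∞) le_rfl).differentiableAt i)
        (((hw'.self_of_nhds c).fderiv_right (m := ∞) le_rfl).differentiableAt i), e2, sub_zero]
  have k := fun c => jet_van (s1 c) (h.pr hy c) (by simp [e0]) (by simp [(a1 c).self_of_nhds, e1])
  have b0 : gw G₀ φ w = fun z => gw G₀ φ w' z + ∑ c, (w c z - w' c z) • pr φ c z := by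
    funext z
    simp only [gw, sub_smul, Finset.sum_sub_distrib]
    abel
  have b1 : fderiv ℝ (gw G₀ φ w) =ᶠ[𝓝 y] fun z => fderiv ℝ (gw G₀ φ w') z +
      ∑ c, fderiv ℝ (fun z => (w c z - w' c z) • pr φ c z) z := by
    filter_upwards [hw, hw', h.met.mem_nhds hy, v1.mem_nhds v2] with z z1 z2 z3 z4
    have : ∀ c, DifferentiableAt ℝ (fun z => (w c z - w' c z) • pr φ c z) z := fun c =>
      (((z1 c).sub (z2 c)).smul (h.pr z3 c)).differentiableAt i
    rw [b0, fderiv_fun_add (v1.differentiableAt z4) (DifferentiableAt.fun_sum fun c _ => this c),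
      fderiv_fun_sum fun c _ => this c]
  have f1 : fderiv ℝ (gw G₀ φ w') y = fderiv ℝ (gw G₀ φ w) y := by
    simp only [b1.self_of_nhds, (k _).1, Finset.sum_const_zero, add_zero]
  have f2 : ∀ a b, ev4 (fderiv ℝ (fderiv ℝ (gw G₀ φ w)) y - fderiv ℝ (fderiv ℝ (gw G₀ φ w')) y) a b =
      ∑ c, pr φ c y a b • fderiv ℝ (fderiv ℝ (w c)) y := fun a b => by
    have : ∀ c, DifferentiableAt ℝ (fun z => fderiv ℝ (fun z => (w c z - w' c z) • pr φ c z) z) y :=
      fun c => (((s1 c).smul (h.pr hy c)).fderiv_right (m := ∞) le_rfl).differentiableAt i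
    rw [b1.fderiv_eq, fderiv_fun_add ((v1.contDiffAt_fderiv v2).differentiableAt i)
      (DifferentiableAt.fun_sum fun c _ => this c), fderiv_fun_sum fun c _ => this c]
    ext x z
    simp only [ev4_apply, sub_apply, add_apply, add_sub_cancel_left, sum_apply, (k _).2, a2,
      smul_apply, smul_eq_mul, mul_comm]
  have l : ∀ c, lapG (gw G₀ φ w) (w c) y =
      trB (gw G₀ φ w y) (fderiv ℝ (fderiv ℝ (w c)) y) + lapG (gw G₀ φ w') (w' c) y := fun c => by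
    rw [lapG_eq, lapG_eq, f0, ← trB_add]
    simp only [hessG, chris210, chrisB_eq, f0, f1, e1, e2]
    abel_nf
  simp only [opc, l, sub_apply, rdt_diff u1 v1 h.met u2 v2 hy f0 f1, f2, trB_sum, sum_apply,
    smul_apply, smul_eq_mul, add_mul, Finset.sum_add_distrib, mul_comm (pr φ _ y _ _)]
  ring

/-- affine test functions -/
def afn (x : (E × (J × J → ℝ)) × (J × J → E →L[ℝ] ℝ)) (c : J × J) (z : E) : ℝ :=
  x.1.2 c + x.2 c (z - x.1.1)

/-- the admissible values -/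
def oV (G₀ : E → Bil E) (φ : J → E → ℝ) (O : Set E) : Set (E × (J × J → ℝ)) :=
  {x | x.1 ∈ O ∧ ∀ v, v ≠ 0 → 0 < gw G₀ φ (fun c _ => x.2 c) x.1 v v}

/-- the principal part -/
def oA (G₀ : E → Bil E) (φ : J → E → ℝ) (x : E × (J × J → ℝ)) : Bil E →L[ℝ] ℝ :=
  (trL E).comp (ContinuousLinearMap.compL ℝ E (E →L[ℝ] ℝ) E
    (gw G₀ φ (fun c _ => x.2 c) x.1).inverse)

/-- the lower order part -/
def oG (G₀ : E → Bil E) (φ : J → E → ℝ) (x : (E × (J × J → ℝ)) × (J × J → E →L[ℝ] ℝ)) :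
    J × J → ℝ := opc G₀ φ (afn x) x.1.1

theorem cd_gw (h : Fr G₀ φ O) {x : E × (J × J → ℝ)} (hx : x.1 ∈ O) :
    ContDiffAt ℝ ∞ (fun x : E × (J × J → ℝ) => gw G₀ φ (fun c _ => x.2 c) x.1) x :=
  ((h.met.contDiffAt hx).comp x contDiffAt_fst).add (ContDiffAt.sum fun c _ =>
    ContDiffAt.smul (f := fun x : E × (J × J → ℝ) => x.2 c) (by fun_prop)
      ((h.pr hx c).comp x contDiffAt_fst))

theorem isOpen_oV (h : Fr G₀ φ O) : IsOpen (oV G₀ φ O) :=
  isOpen_iff_mem_nhds.2 fun x hx => ((continuous_fst.tendsto x).eventually (h.met.mem_nhds hx.1)).and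
    ((cd_gw h hx.1).continuousAt.eventually_mem (isOpen_pos.mem_nhds hx.2))

theorem smooth_oA (h : Fr G₀ φ O) : ContDiffOn ℝ ∞ (oA G₀ φ) (oV G₀ φ O) := fun x hx => by
  have : CompleteSpace E := FiniteDimensional.complete ℝ E
  have h1 := ContDiffAt.comp x (g := ContinuousLinearMap.inverse)
    (isInv hx.2).contDiffAt_map_inverse (cd_gw h hx.1)
  have h2 := (ContinuousLinearMap.compL ℝ E (E →L[ℝ] ℝ) E).contDiff.contDiffAt.comp x h1
  exact ((contDiffAt_const (c := trL E)).clm_comp h2).contDiffWithinAt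

theorem smooth_oG (h : Fr G₀ φ O) : ContDiffOn ℝ ∞ (oG G₀ φ) (oV G₀ φ O ×ˢ univ) :=
  contDiffOn_pi.2 fun c x hx => by
    have h1 := ps_opc (u := afn) (s := univ) (q := x) h hx.1.1 trivial
      (fun c => ContDiff.contDiffWithinAt (by unfold afn; fun_prop))
      (by simpa only [gw, afn, sub_self, map_zero, add_zero] using hx.1.2) c
    rw [PS, univ_prod_univ, contDiffWithinAt_univ] at h1
    exact (h1.comp x (f := fun x => (x, x.1.1)) (by fun_prop)).contDiffWithinAt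

theorem opE_opc (h : Fr G₀ φ O) (hw : ∀ᶠ z in 𝓝 y, ∀ c, ContDiffAt ℝ ∞ (w c) z)
    (hy : (y, fun c => w c y) ∈ oV G₀ φ O) : opE (oA G₀ φ) (oG G₀ φ) y w y = opc G₀ φ w y := by
  funext c
  have d : ∀ c, fderiv ℝ (afn ((y, fun c => w c y), fun c => fderiv ℝ (w c) y) c) =
      fun _ => fderiv ℝ (w c) y := fun c => funext fun z =>
    (((fderiv ℝ (w c) y).hasFDerivAt.comp z ((hasFDerivAt_id (𝕜 := ℝ) z).sub_const y)
      ).const_add (w c y)).fderiv.trans (ContinuousLinearMap.comp_id _)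
  rw [opc_diff (w' := afn ((y, fun c => w c y), fun c => fderiv ℝ (w c) y)) h hy.1 hw
    (Eventually.of_forall fun z c => by unfold afn; fun_prop) hy.2 (fun c => by simp [afn])
    (fun c => by rw [d]) fun c => by simp [d]]
  rfl

end Vale.Agent.P216ST
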