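import Vale.Agent.P253W.FP.Ex

/-! # Parabolic systems with scalar principal part: the contraction estimate -/

set_option maxSynthPendingDepth 3
set_option linter.unusedSectionVars false

open Set Metric Filter Topology
open Vale.Agent.P272.K.R (Hol Bil D2)
open Vale.Agent.P272.K.LIN (Jet jet JM jet_mul jet_congr)

noncomputable section

namespace Vale.Agent.P216ST

open Vale.Agent.P253W.FP Vale.Agent.P253W.FP.UA

variable {E : Type} [NormedAddCommGroup E] [NormedSpace ℝ E] {Λ : Type} [Fintype Λ]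
  [DecidableEq Λ]

/-- the total derivative -/
def tot (A : Λ → Jet E →L[ℝ] ℝ) : (Λ → Jet E) →L[ℝ] ℝ :=
  ∑ b, (A b).comp (ContinuousLinearMap.proj b)

theorem tot_apply (A : Λ → Jet E →L[ℝ] ℝ) (z : Λ → Jet E) : tot A z = ∑ b, A b (z b) := by
  simp [tot]

/-- the Kronecker symbol -/
def kr (a b : Λ) : ℝ := if a = b then 1 else 0

/-- admissible right hand sides of systems -/
structure AdmS (α KF δ T ε : ℝ) (B : Bil E →L[ℝ] ℝ) (F : Λ → ℝ → E → (Λ → Jet E) → ℝ)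
    (A : Λ → Λ → ℝ → E → (Λ → Jet E) → Jet E →L[ℝ] ℝ) : Prop where
  der : ∀ a, ∀ t ∈ Icc 0 T, ∀ y ∈ ball (0 : E) 4, ∀ z ∈ ball (0 : Λ → Jet E) δ,
    HasFDerivAt (F a t y) (tot fun b => A a b t y z) z
  cont : ∀ a, ContinuousOn (fun q : ℝ × E × (Λ → Jet E) => F a q.1 q.2.1 q.2.2)
    (Icc 0 T ×ˢ ball 0 4 ×ˢ ball 0 δ)
  bdA : ∀ a b, ∀ t ∈ Icc 0 T, ∀ y ∈ ball (0 : E) 4, ∀ z ∈ ball (0 : Λ → Jet E) δ,
    ‖A a b t y z‖ ≤ KF
  holA : ∀ a b, ∀ t ∈ Icc 0 T, ∀ y ∈ ball (0 : E) 4, ∀ z ∈ ball (0 : Λ → Jet E) δ,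
    ∀ y' ∈ ball (0 : E) 4, ∀ z' ∈ ball (0 : Λ → Jet E) δ,
      ‖A a b t y z - A a b t y' z'‖ ≤ KF * (‖y - y'‖ ^ α + ‖z - z'‖)
  bdF : ∀ a, ∀ t ∈ Icc 0 T, ∀ y ∈ ball (0 : E) 4, |F a t y 0| ≤ KF
  holF : ∀ a, ∀ t ∈ Icc 0 T, Hol α KF (fun y => F a t y 0) (ball 0 4)
  near : ∀ a b, ∀ t ∈ Icc 0 T, ∀ y ∈ ball (0 : E) 4, ∀ z ∈ ball (0 : Λ → Jet E) δ,
    ‖(A a b t y z).comp j2 - kr a b • B‖ ≤ ε

variable {X : Type} [TopologicalSpace X] {K : ℝ} {N₀ : ℕ} (𝒜 : UA E X K N₀)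

/-- the jets of a family of functions in a chart -/
def jl (i : 𝒜.ι) (u : Λ → X → ℝ) (y : E) : Λ → Jet E :=
  fun b => jet (fun z => u b ((𝒜.e i).symm z)) y

/-- the right hand sides in the charts describe one operator -/
def InvS (δ T : ℝ) (F : 𝒜.ι → Λ → ℝ → E → (Λ → Jet E) → ℝ) : Prop :=
  ∀ i j, ∀ t ∈ Icc 0 T, ∀ y ∈ ball (0 : E) 4, ∀ y' ∈ ball (0 : E) 4,
    (𝒜.e i).symm y = (𝒜.e j).symm y' → ∀ u : Λ → X → ℝ,
    (∀ b, ContDiffAt ℝ 2 (fun z => u b ((𝒜.e i).symm z)) y) →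
    (∀ b, ContDiffAt ℝ 2 (fun z => u b ((𝒜.e j).symm z)) y') →
    ‖jl 𝒜 i u y‖ < δ → ‖jl 𝒜 j u y'‖ < δ → ∀ a, F i a t y (jl 𝒜 i u y) = F j a t y' (jl 𝒜 j u y')

variable [FiniteDimensional ℝ E] [T2Space X] (θ : E → ℝ) (B : 𝒜.ι → Bil E →L[ℝ] ℝ)
  (H : 𝒜.ι → (ℝ → E → ℝ) → ℝ → E → ℝ) (F : 𝒜.ι → Λ → ℝ → E → (Λ → Jet E) → ℝ)

open Classical in
/-- the operator on `X` -/
def opS (u : Λ → X → ℝ) (a : Λ) (t : ℝ) (x : X) : ℝ :=
  if h : ∃ p : 𝒜.ι × E, p.2 ∈ ball (0 : E) 4 ∧ (𝒜.e p.1).symm p.2 = x then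
    F h.choose.1 a t h.choose.2 (jl 𝒜 h.choose.1 u h.choose.2) else 0

/-- a component -/
def cp (g : ℝ → X × Λ → ℝ) (b : Λ) (t : ℝ) (x : X) : ℝ := g t (x, b)

/-- the parametrix -/
def QS (g : ℝ → X × Λ → ℝ) (t : ℝ) (b : Λ) : X → ℝ := 𝒜.Q θ H (cp g b) t

/-- the map whose fixed points give solutions -/
def ΨS (g : ℝ → X × Λ → ℝ) (t : ℝ) (x : X × Λ) : ℝ :=
  opS 𝒜 F (QS 𝒜 θ H g t) x.2 t x.1 - 𝒜.S θ B H (cp g x.2) t x.1

/-- bounds for all components -/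
def GS (α τ : ℝ) (g : ℝ → X × Λ → ℝ) (N : ℝ) : Prop := ∀ b, 𝒜.GH α τ (cp g b) N

variable {𝒜 θ B H F} {A : 𝒜.ι → Λ → Λ → ℝ → E → (Λ → Jet E) → Jet E →L[ℝ] ℝ}
  {α τ m M CT cθ KF δ T ε : ℝ}

theorem opS_loc (hI : InvS 𝒜 δ T F) {u : Λ → X → ℝ} {t : ℝ} (ht : t ∈ Icc 0 T)
    (h2 : ∀ j b, ContDiffOn ℝ 2 (fun z => u b ((𝒜.e j).symm z)) (ball 0 4))
    (hδ : ∀ j, ∀ y ∈ ball (0 : E) 4, ‖jl 𝒜 j u y‖ < δ) (j : 𝒜.ι) (a : Λ) {y : E}
    (hy : y ∈ ball (0 : E) 4) : opS 𝒜 F u a t ((𝒜.e j).symm y) = F j a t y (jl 𝒜 j u y) := by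
  have h : ∃ p : 𝒜.ι × E, p.2 ∈ ball (0 : E) 4 ∧ (𝒜.e p.1).symm p.2 = (𝒜.e j).symm y :=
    ⟨(j, y), hy, rfl⟩
  rw [opS, dif_pos h]
  obtain ⟨h3, h4⟩ := h.choose_spec
  exact hI _ j t ht _ h3 y hy h4 u (fun b => (h2 _ b).contDiffAt (isOpen_ball.mem_nhds h3))
    (fun b => (h2 j b).contDiffAt (isOpen_ball.mem_nhds hy)) (hδ _ _ h3) (hδ j y hy) a

theorem AdmS.line {B : Bil E →L[ℝ] ℝ} {F : Λ → ℝ → E → (Λ → Jet E) → ℝ}
    {A : Λ → Λ → ℝ → E → (Λ → Jet E) → Jet E →L[ℝ] ℝ} (hF : AdmS α KF δ T ε B F A) (a : Λ) {t : ℝ}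
    (ht : t ∈ Icc 0 T) {y : E} (hy : y ∈ ball (0 : E) 4) (z Z : Λ → Jet E) (s : ℝ)
    (hz : ‖z + s • Z‖ < δ) :
    HasDerivAt (fun s : ℝ => F a t y (z + s • Z)) (∑ b, A a b t y (z + s • Z) (Z b)) s := by
  have h1 : HasDerivAt (fun s : ℝ => z + s • Z) Z s := by
    simpa using ((hasDerivAt_id s).smul_const Z).const_add z
  rw [← tot_apply]
  exact (hF.der a t ht y hy _ (mem_ball_zero_iff.2 hz)).comp_hasDerivAt s h1

theorem jl_single (i : 𝒜.ι) {u : Λ → X → ℝ} {p : X → ℝ} {y : E}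
    (hu : ∀ b, ContDiffAt ℝ 2 (fun z => u b ((𝒜.e i).symm z)) y)
    (hp : ContDiffAt ℝ 2 (fun z => p ((𝒜.e i).symm z)) y) (b : Λ) (s : ℝ) :
    jl 𝒜 i (fun c x => u c x + s * kr b c * p x) y =
      jl 𝒜 i u y + s • (Pi.single b (jet (fun z => p ((𝒜.e i).symm z)) y) : Λ → Jet E) := by
  funext c
  have e1 := jet_add (hu c) (contDiffAt_const (c := s * kr b c).mul hp)
  rw [jet_const_mul _ hp] at e1
  refine e1.trans ?_
  by_cases h : b = c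
  · subst h; simp [jl, kr]
  · simp [jl, kr, h, Ne.symm h]

/-- the linearised operator does not depend on the chart -/
theorem invS_lin (hF : ∀ i, AdmS α KF δ T ε (B i) (F i) (A i)) (hI : InvS 𝒜 δ T F) {t : ℝ}
    (ht : t ∈ Icc 0 T) {i j : 𝒜.ι} {y y' : E} (hy : y ∈ ball (0 : E) 4)
    (hy' : y' ∈ ball (0 : E) 4) (hx : (𝒜.e i).symm y = (𝒜.e j).symm y') {u : Λ → X → ℝ}
    {p : X → ℝ} (hu : ∀ b, ContDiffAt ℝ 2 (fun z => u b ((𝒜.e i).symm z)) y)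
    (hu' : ∀ b, ContDiffAt ℝ 2 (fun z => u b ((𝒜.e j).symm z)) y')
    (hp : ContDiffAt ℝ 2 (fun z => p ((𝒜.e i).symm z)) y)
    (hp' : ContDiffAt ℝ 2 (fun z => p ((𝒜.e j).symm z)) y')
    (hδ : ‖jl 𝒜 i u y‖ < δ) (hδ' : ‖jl 𝒜 j u y'‖ < δ) (a b : Λ) :
    A i a b t y (jl 𝒜 i u y) (jet (fun z => p ((𝒜.e i).symm z)) y) =
      A j a b t y' (jl 𝒜 j u y') (jet (fun z => p ((𝒜.e j).symm z)) y') := by
  have h1 := (hF i).line a ht hy (jl 𝒜 i u y)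
    (Pi.single b (jet (fun z => p ((𝒜.e i).symm z)) y)) 0 (by simpa using hδ)
  have h2 := (hF j).line a ht hy' (jl 𝒜 j u y')
    (Pi.single b (jet (fun z => p ((𝒜.e j).symm z)) y')) 0 (by simpa using hδ')
  have ev : ∀ z Z : Λ → Jet E, ‖z‖ < δ → ∀ᶠ s : ℝ in 𝓝 0, ‖z + s • Z‖ < δ := fun z Z hz => by
    have hc : Continuous fun s : ℝ => ‖z + s • Z‖ := by fun_prop
    exact (hc.tendsto 0).eventually_lt_const (by simpa using hz)
  have sg : ∀ (L : Λ → Jet E →L[ℝ] ℝ) (z : Jet E), ∑ c, L c ((Pi.single b z : Λ → Jet E) c) =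
      L b z := fun L z => by
    rw [Finset.sum_eq_single b (fun c _ hc => by simp [hc]) (by simp), Pi.single_eq_same]
  simp only [zero_smul, add_zero, sg] at h1 h2
  refine h1.unique (h2.congr_of_eventuallyEq ?_)
  filter_upwards [ev _ (Pi.single b (jet (fun z => p ((𝒜.e i).symm z)) y)) hδ,
    ev _ (Pi.single b (jet (fun z => p ((𝒜.e j).symm z)) y')) hδ'] with s hs hs'
  have e1 := jl_single i hu hp b s
  have e2 := jl_single j hu' hp' b s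
  have := hI i j t ht y hy y' hy' hx (fun c x => u c x + s * kr b c * p x)
    (fun c => (hu c).add (contDiffAt_const.mul hp)) (fun c => (hu' c).add (contDiffAt_const.mul hp'))
    (by rw [e1]; exact hs) (by rw [e2]; exact hs') a
  rwa [e1, e2] at this

/-- the error of the parametrix for an invariant linear operator -/
theorem lin_bd (h : 𝒜.Su θ B H α τ m M CT cθ) (hKF : 0 ≤ KF) (hε : 0 ≤ ε) {k : ℝ → X → ℝ} {d : ℝ}
    (hd : 0 ≤ d) (hk : 𝒜.GH α τ k d) {t : ℝ} (ht : t ∈ Icc 0 τ) {a : 𝒜.ι → E → Jet E →L[ℝ] ℝ}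
    {c KA : ℝ} (hKA : 0 ≤ KA) (a0 : ∀ i, ∀ y ∈ ball (0 : E) 4, ‖a i y‖ ≤ KF)
    (a1 : ∀ i, Hol α KA (a i) (ball 0 4))
    (a2 : ∀ i, ∀ y ∈ ball (0 : E) 4, ‖(a i y).comp j2 - c • B i‖ ≤ ε)
    (inv : ∀ i j, ∀ y ∈ ball (0 : E) 4, ∀ y' ∈ ball (0 : E) 4,
      (𝒜.e i).symm y = (𝒜.e j).symm y' → ∀ p : X → ℝ,
      ContDiffAt ℝ 2 (fun z => p ((𝒜.e i).symm z)) y →
      ContDiffAt ℝ 2 (fun z => p ((𝒜.e j).symm z)) y' →
      a i y (jet (fun z => p ((𝒜.e i).symm z)) y) = a j y' (jet (fun z => p ((𝒜.e j).symm z)) y'))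
    (j : 𝒜.ι) :
    (∀ y ∈ ball (0 : E) 4, |a j y (jet (𝒜.loc j (𝒜.Q θ H k) t) y) -
      c * 𝒜.S θ B H k t ((𝒜.e j).symm y)| ≤ N₀ * (m * d * (KF * cθ + ε))) ∧
    Hol α (N₀ * (CT * (ε * (M * d) + m * d * (2 * KF * cθ + cθ * KA + KA + ε * cθ))))
      (fun y => a j y (jet (𝒜.loc j (𝒜.Q θ H k) t) y) - c * 𝒜.S θ B H k t ((𝒜.e j).symm y))
      (ball 0 4) := by
  have hc := h.cθ1
  have hm := h.m0
  have hM := h.m0.trans h.mM
  have hT := h.CT1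
  set ρ : 𝒜.ι → E → ℝ := fun i y => a i y (JM (jet θ y) (jet (𝒜.vi H k i t) y)) -
    θ y * (c • B i) (jet (𝒜.vi H k i t) y).2.2 with hρ
  have ρ0 : ∀ i y, 3 < ‖y‖ → ρ i y = 0 := fun i y hy => by
    simp only [hρ, h.jθ_zero hy, JM_zero, h.θ0 y hy, map_zero, zero_mul, sub_zero]
  have ρb := fun i => err_bd (α := α) (θ := θ) (a := a i) (b := c • B i)
    (z := jet (𝒜.vi H k i t)) (KA := KA) (m := m * d) (M := M * d) hc hKF hε (by positivity)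
    h.θb h.θh h.Mb h.Mh (a0 i) (a1 i) (a2 i)
    (fun y _ => (h.v i k d hd hk).2.2.1.sup t ht y (mem_univ _))
    (((h.v i k d hd hk).2.2.1.hol t ht).mono (subset_univ _))
    (fun y _ => (h.v i k d hd hk).2.2.2.sup t ht y (mem_univ _))
    (((h.v i k d hd hk).2.2.2.hol t ht).mono (subset_univ _))
  have key : ∀ y ∈ ball (0 : E) 4, a j y (jet (𝒜.loc j (𝒜.Q θ H k) t) y) -
      c * 𝒜.S θ B H k t ((𝒜.e j).symm y) = ∑ i ∈ 𝒜.N j, ext (𝒜.e i) (ρ i) ((𝒜.e j).symm y) := by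
    intro y hy
    rw [h.jet_Q hd hk j ht hy, h.S_loc k j t hy, map_sum, Finset.mul_sum, ← Finset.sum_sub_distrib]
    refine Finset.sum_congr rfl fun i _ => ?_
    by_cases hx : (𝒜.e j).symm y ∈ 𝒜.supp i
    · obtain ⟨y', hy', hx⟩ := hx
      have hy4 := sub34 hy'
      have h1 := inv i j y' hy4 y hy hx (𝒜.P θ i (𝒜.vi H k i t))
        (((h.P_jet hd hk i i).1 t ht).contDiffAt (isOpen_ball.mem_nhds hy4))
        (((h.P_jet hd hk i j).1 t ht).contDiffAt (isOpen_ball.mem_nhds hy))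
      rw [h.jet_P i (h.v_c2 hd hk i ht) hy4] at h1
      rw [← h1, ← hx, 𝒜.ext_loc i _ hy4, Su.P_loc i _ hy4]
      simp only [hρ, smul_apply, smul_eq_mul, jet, D2]
      ring
    · have h1 : jet (fun y => 𝒜.P θ i (𝒜.vi H k i t) ((𝒜.e j).symm y)) y = 0 := by
        rw [← jet_zero y]
        refine jet_congr ?_
        filter_upwards [𝒜.ev_not_supp i j hy hx] with z hz using h.P_zero i _ _ hz
      rw [h1, map_zero, h.P_zero i _ _ hx, 𝒜.ext_zero i (ρ0 i) hx, mul_zero, sub_zero]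
  have hcard : ((𝒜.N j).card : ℝ) ≤ N₀ := by exact_mod_cast 𝒜.card j
  constructor
  · intro y hy
    rw [key y hy]
    refine (Finset.abs_sum_le_sum_abs _ _).trans ?_
    refine (Finset.sum_le_card_nsmul _ _ (m * d * (KF * cθ + ε)) fun i _ =>
      𝒜.ext_bound i (ρ0 i) (by positivity) (ρb i).1 _).trans ?_
    rw [nsmul_eq_mul]
    exact mul_le_mul_of_nonneg_right hcard (by positivity)
  · intro y hy y' hy'
    simp only
    rw [key y hy, key y' hy', ← Finset.sum_sub_distrib]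
    refine (norm_sum_le _ _).trans ?_
    refine (Finset.sum_le_card_nsmul _ _ (CT * (ε * (M * d) + m * d *
      (2 * KF * cθ + cθ * KA + KA + ε * cθ)) * ‖y - y'‖ ^ α) fun i _ => ?_).trans ?_
    · exact h.tr0 i j (ext (𝒜.e i) (ρ i)) _ (by positivity) (fun x hx => 𝒜.ext_zero i (ρ0 i) hx)
        ((ρb i).2.congr fun z hz => (𝒜.ext_loc i (ρ i) hz).symm) y hy y' hy'
    · rw [nsmul_eq_mul, ← mul_assoc]
      exact mul_le_mul_of_nonneg_right (mul_le_mul_of_nonneg_right hcard (by positivity))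
        (by positivity)

omit [NormedSpace ℝ E] [FiniteDimensional ℝ E] [DecidableEq Λ] in
theorem PB.pi {G : Type} [NormedAddCommGroup G] {a b : ℝ} {I : Set ℝ} {s : Set E}
    {f : Λ → ℝ → E → G} (ha : 0 ≤ a) (hb : 0 ≤ b) (h : ∀ c, PB α I s (f c) a b) :
    PB α I s (fun t y c => f c t y) a b :=
  ⟨continuousOn_pi.2 fun c => (h c).cont,
    fun t ht y hy => (pi_norm_le_iff_of_nonneg ha).2 fun c => (h c).sup t ht y hy,
    fun t ht y hy y' hy' => (pi_norm_le_iff_of_nonneg (by positivity)).2 fun c =>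
      (h c).hol t ht y hy y' hy'⟩

section

variable (h : 𝒜.Su θ B H α τ m M CT cθ) (hF : ∀ i, AdmS α KF δ T ε (B i) (F i) (A i))
  (hI : InvS 𝒜 δ T F) (hτ : τ ≤ T) {N : ℝ} (hN : 0 ≤ N) (hδ : N₀ * (CT * cθ * m * N) < δ)

include h hN in
theorem QS_jet {g : ℝ → X × Λ → ℝ} (hg : GS 𝒜 α τ g N) (j : 𝒜.ι) :
    PB α (Icc 0 τ) (ball 0 4) (fun t => jl 𝒜 j (QS 𝒜 θ H g t))
      (N₀ * (CT * cθ * m * N)) (N₀ * (3 * CT * cθ * M * N)) := by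
  have hc := h.cθ1
  have hm := h.m0
  have hM := h.m0.trans h.mM
  have hT := h.CT1
  exact PB.pi (by positivity) (by positivity) fun b => h.Q_jet hN (hg b) j

include h hI hτ hN hδ

theorem ΨS_loc {g : ℝ → X × Λ → ℝ} (hg : GS 𝒜 α τ g N) (j : 𝒜.ι) (a : Λ) {t : ℝ}
    (ht : t ∈ Icc 0 τ) {y : E} (hy : y ∈ ball (0 : E) 4) :
    ΨS 𝒜 θ B H F g t ((𝒜.e j).symm y, a) =
      F j a t y (jl 𝒜 j (QS 𝒜 θ H g t) y) - 𝒜.S θ B H (cp g a) t ((𝒜.e j).symm y) := by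
  exact congrArg (· - _) (opS_loc hI ⟨ht.1, ht.2.trans hτ⟩ (fun j b => h.Q_c2 hN (hg b) j ht)
    (fun j y hy => ((QS_jet h hN hg j).sup t ht y hy).trans_lt hδ) j a hy)

include hF

theorem ΨS_cont {g : ℝ → X × Λ → ℝ} (hg : GS 𝒜 α τ g N) (j : 𝒜.ι) (a : Λ) :
    ContinuousOn (fun q : ℝ × E => ΨS 𝒜 θ B H F g q.1 ((𝒜.e j).symm q.2, a))
      (Icc 0 τ ×ˢ ball 0 4) := by
  refine (ContinuousOn.sub ?_ (h.S_cont hN (hg a) j)).congr fun q hq =>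
    ΨS_loc h hI hτ hN hδ hg j a hq.1 hq.2
  refine ((hF j).cont a).comp (f := fun q : ℝ × E => (q.1, q.2, jl 𝒜 j (QS 𝒜 θ H g q.1) q.2))
    (continuousOn_fst.prodMk (continuousOn_snd.prodMk (QS_jet h hN hg j).cont)) fun q hq => ?_
  exact ⟨⟨hq.1.1, hq.1.2.trans hτ⟩, hq.2,
    mem_ball_zero_iff.2 (((QS_jet h hN hg j).sup _ hq.1 _ hq.2).trans_lt hδ)⟩

/-- the derivative of `Ψ` at `g` in the direction `k` -/
theorem DΨS (hKF : 0 ≤ KF) (hε : 0 ≤ ε) {g k : ℝ → X × Λ → ℝ} {d : ℝ} (hd : 0 ≤ d)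
    (hg : GS 𝒜 α τ g N) (hk : GS 𝒜 α τ k d) (j : 𝒜.ι) (a : Λ) {t : ℝ} (ht : t ∈ Icc 0 τ) {KA : ℝ}
    (hKA : KA = KF * (1 + N₀ * (3 * CT * cθ * M * N))) :
    (∀ y ∈ ball (0 : E) 4, |∑ b, A j a b t y (jl 𝒜 j (QS 𝒜 θ H g t) y)
      (jl 𝒜 j (QS 𝒜 θ H k t) y b) - 𝒜.S θ B H (cp k a) t ((𝒜.e j).symm y)| ≤
        Fintype.card Λ * (N₀ * (m * d * (KF * cθ + ε)))) ∧
    Hol α (Fintype.card Λ *
      (N₀ * (CT * (ε * (M * d) + m * d * (2 * KF * cθ + cθ * KA + KA + ε * cθ)))))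
      (fun y => ∑ b, A j a b t y (jl 𝒜 j (QS 𝒜 θ H g t) y) (jl 𝒜 j (QS 𝒜 θ H k t) y b) -
        𝒜.S θ B H (cp k a) t ((𝒜.e j).symm y)) (ball 0 4) := by
  have htT : t ∈ Icc 0 T := ⟨ht.1, ht.2.trans hτ⟩
  have hc := h.cθ1
  have hM := h.m0.trans h.mM
  have hT := h.CT1
  have hz : ∀ i, ∀ y ∈ ball (0 : E) 4, ‖jl 𝒜 i (QS 𝒜 θ H g t) y‖ < δ := fun i y hy =>
    ((QS_jet h hN hg i).sup t ht y hy).trans_lt hδ
  have key := fun b => lin_bd h hKF hε hd (hk b) ht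
    (a := fun i y => A i a b t y (jl 𝒜 i (QS 𝒜 θ H g t) y)) (c := kr a b) (KA := KA)
    (by rw [hKA]; positivity)
    (fun i y hy => (hF i).bdA a b t htT y hy _ (mem_ball_zero_iff.2 (hz i y hy)))
    (fun i y hy y' hy' => by
      refine ((hF i).holA a b t htT y hy _ (mem_ball_zero_iff.2 (hz i y hy)) y' hy' _
        (mem_ball_zero_iff.2 (hz i y' hy'))).trans ?_
      rw [hKA, mul_assoc, add_mul, one_mul]
      exact mul_le_mul_of_nonneg_left (add_le_add le_rfl ((QS_jet h hN hg i).hol t ht y hy y' hy'))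
        hKF)
    (fun i y hy => (hF i).near a b t htT y hy _ (mem_ball_zero_iff.2 (hz i y hy)))
    (fun i j y hy y' hy' hx p hp hp' => invS_lin hF hI htT hy hy' hx
      (fun c => (h.Q_c2 hN (hg c) i ht).contDiffAt (isOpen_ball.mem_nhds hy))
      (fun c => (h.Q_c2 hN (hg c) j ht).contDiffAt (isOpen_ball.mem_nhds hy')) hp hp'
      (hz i y hy) (hz j y' hy') a b) j
  have e : ∀ y, ∑ b, A j a b t y (jl 𝒜 j (QS 𝒜 θ H g t) y) (jl 𝒜 j (QS 𝒜 θ H k t) y b) -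
      𝒜.S θ B H (cp k a) t ((𝒜.e j).symm y) = ∑ b, (A j a b t y (jl 𝒜 j (QS 𝒜 θ H g t) y)
        (jet (𝒜.loc j (𝒜.Q θ H (cp k b)) t) y) - kr a b * 𝒜.S θ B H (cp k b) t ((𝒜.e j).symm y)) :=
    fun y => by
      rw [Finset.sum_sub_distrib]
      congr 1
      simp [kr]
  simp only [e]
  refine ⟨fun y hy => (Finset.abs_sum_le_sum_abs _ _).trans
    ((Finset.sum_le_card_nsmul _ _ _ fun b _ => (key b).1 y hy).trans (by simp)),
    fun y hy y' hy' => ?_⟩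
  simp only
  rw [← Finset.sum_sub_distrib]
  refine (norm_sum_le _ _).trans
    ((Finset.sum_le_card_nsmul _ _ _ fun b _ => (key b).2 y hy y' hy').trans ?_)
  simp [mul_assoc]

/-- **the contraction estimate** -/
theorem contrS (hKF : 0 ≤ KF) (hε : 0 ≤ ε) {KA : ℝ}
    (hKA : KA = KF * (1 + N₀ * (3 * CT * cθ * M * N)))
    (s1 : Fintype.card Λ * (N₀ * (m * (KF * cθ + ε))) ≤ 1 / 2)
    (s2 : Fintype.card Λ *
      (N₀ * (CT * (ε * M + m * (2 * KF * cθ + cθ * KA + KA + ε * cθ)))) ≤ 1 / 2)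
    {g g' : ℝ → X × Λ → ℝ} {d : ℝ} (hd : 0 ≤ d) (hg : GS 𝒜 α τ g N) (hg' : GS 𝒜 α τ g' N)
    (hk : GS 𝒜 α τ (fun t x => g t x - g' t x) d) :
    GS 𝒜 α τ (fun t x => ΨS 𝒜 θ B H F g t x - ΨS 𝒜 θ B H F g' t x) (d / 2) := by
  intro a j
  set k : ℝ → X × Λ → ℝ := fun t x => g t x - g' t x with hkd
  have hG : ∀ s ∈ Icc (0 : ℝ) 1, GS 𝒜 α τ (fun t x => g' t x + s * k t x) N := by
    intro s hs b i
    have h1 := ((hg' b i).const_smul (1 - s)).add ((hg b i).const_smul s)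
    rw [abs_of_nonneg (sub_nonneg.2 hs.2), abs_of_nonneg hs.1] at h1
    refine (h1.congr fun t _ y _ => ?_).mono (le_of_eq (by ring)) (le_of_eq (by ring))
    simp only [hkd, smul_eq_mul, cp]; ring
  have b1 : Fintype.card Λ * (N₀ * (m * d * (KF * cθ + ε))) ≤ d / 2 := by
    calc _ = Fintype.card Λ * (N₀ * (m * (KF * cθ + ε))) * d := by ring
      _ ≤ 1 / 2 * d := mul_le_mul_of_nonneg_right s1 hd
      _ = _ := by ring
  have b2 : Fintype.card Λ *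
      (N₀ * (CT * (ε * (M * d) + m * d * (2 * KF * cθ + cθ * KA + KA + ε * cθ)))) ≤ d / 2 := by
    calc _ = Fintype.card Λ *
          (N₀ * (CT * (ε * M + m * (2 * KF * cθ + cθ * KA + KA + ε * cθ)))) * d := by ring
      _ ≤ 1 / 2 * d := mul_le_mul_of_nonneg_right s2 hd
      _ = _ := by ring
  set φ : ℝ → E → ℝ → ℝ := fun t y s => F j a t y (jl 𝒜 j (QS 𝒜 θ H g' t) y +
    s • jl 𝒜 j (QS 𝒜 θ H k t) y) - (𝒜.S θ B H (cp g' a) t ((𝒜.e j).symm y) +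
      s * 𝒜.S θ B H (cp k a) t ((𝒜.e j).symm y)) with hφ
  set D : ℝ → ℝ → E → ℝ := fun t s y => ∑ b, A j a b t y
    (jl 𝒜 j (QS 𝒜 θ H (fun t x => g' t x + s * k t x) t) y)
    (jl 𝒜 j (QS 𝒜 θ H k t) y b) - 𝒜.S θ B H (cp k a) t ((𝒜.e j).symm y) with hD
  have lin : ∀ s, ∀ t ∈ Icc 0 τ, ∀ y ∈ ball (0 : E) 4,
      jl 𝒜 j (QS 𝒜 θ H (fun t x => g' t x + s * k t x) t) y =
        jl 𝒜 j (QS 𝒜 θ H g' t) y + s • jl 𝒜 j (QS 𝒜 θ H k t) y := fun s t ht y hy =>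
    funext fun b => h.jet_Q_lin hN hd (hg' b) (hk b) s j ht hy
  have hder : ∀ t ∈ Icc 0 τ, ∀ y ∈ ball (0 : E) 4, ∀ s ∈ Icc (0 : ℝ) 1,
      HasDerivWithinAt (φ t y) (D t s y) (Icc 0 1) s := by
    intro t ht y hy s hs
    have e1 := lin s t ht y hy
    have h1 := (hF j).line a ⟨ht.1, ht.2.trans hτ⟩ hy _ (jl 𝒜 j (QS 𝒜 θ H k t) y) s
      (by rw [← e1]; exact ((QS_jet h hN (hG s hs) j).sup t ht y hy).trans_lt hδ)
    have h2 : HasDerivAt (fun s : ℝ => 𝒜.S θ B H (cp g' a) t ((𝒜.e j).symm y) +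
        s * 𝒜.S θ B H (cp k a) t ((𝒜.e j).symm y)) (𝒜.S θ B H (cp k a) t ((𝒜.e j).symm y)) s := by
      simpa using ((hasDerivAt_id s).mul_const (𝒜.S θ B H (cp k a) t ((𝒜.e j).symm y))).const_add
        (𝒜.S θ B H (cp g' a) t ((𝒜.e j).symm y))
    simp only [hD, e1]
    exact (h1.sub h2).hasDerivWithinAt
  have hval : ∀ t ∈ Icc 0 τ, ∀ y ∈ ball (0 : E) 4,
      ΨS 𝒜 θ B H F g t ((𝒜.e j).symm y, a) - ΨS 𝒜 θ B H F g' t ((𝒜.e j).symm y, a) =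
        φ t y 1 - φ t y 0 := by
    intro t ht y hy
    have e0 : (fun t x => g' t x + 1 * k t x) = g := by
      funext t x; simp only [hkd]; ring
    have e0' : (fun t x => cp g' a t x + 1 * cp k a t x) = cp g a := by
      funext t x; simp only [hkd, cp]; ring
    have e1 := lin 1 t ht y hy
    have e2 := h.S_lin hN hd (hg' a) (hk a) 1 j ht hy
    rw [e0] at e1
    rw [e0'] at e2
    rw [ΨS_loc h hI hτ hN hδ hg j a ht hy, ΨS_loc h hI hτ hN hδ hg' j a ht hy, e1, e2]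
    simp only [hφ, zero_smul, add_zero, zero_mul]
  have hDb := fun t (ht : t ∈ Icc 0 τ) s (hs : s ∈ Icc (0 : ℝ) 1) =>
    DΨS h hF hI hτ hN hδ hKF hε hd (hG s hs) hk j a ht hKA
  refine ⟨(ΨS_cont h hF hI hτ hN hδ hg j a).sub (ΨS_cont h hF hI hτ hN hδ hg' j a),
    fun t ht y hy => ?_, fun t ht y hy y' hy' => ?_⟩
  · simp only [cp]
    rw [hval t ht y hy]
    exact norm_image_sub_le_of_norm_deriv_le_segment_01' (hder t ht y hy) fun s hs =>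
      ((hDb t ht s (Ico_subset_Icc_self hs)).1 y hy).trans b1
  · simp only [cp]
    rw [hval t ht y hy, hval t ht y' hy']
    have h1 := norm_image_sub_le_of_norm_deriv_le_segment_01'
      (f := fun s => φ t y s - φ t y' s) (C := d / 2 * ‖y - y'‖ ^ α)
      (fun s hs => (hder t ht y hy s hs).sub (hder t ht y' hy' s hs)) fun s hs =>
        ((hDb t ht s (Ico_subset_Icc_self hs)).2.mono_const b2) y hy y' hy'
    convert h1 using 2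
    ring

/-- the value at zero -/
theorem ΨS_zero : GS 𝒜 α τ (ΨS 𝒜 θ B H F fun _ _ => 0) KF := by
  intro a j
  have h0 : GS 𝒜 α τ (fun _ (_ : X × Λ) => (0 : ℝ)) 0 := fun _ i => PB.zero _ _ _
  have hN' : GS 𝒜 α τ (fun _ (_ : X × Λ) => (0 : ℝ)) N := fun b i => (h0 b i).mono hN hN
  have e : ∀ t ∈ Icc 0 τ, ∀ y ∈ ball (0 : E) 4,
      ΨS 𝒜 θ B H F (fun _ _ => 0) t ((𝒜.e j).symm y, a) = F j a t y 0 := by
    intro t ht y hy
    have h1 := (QS_jet h le_rfl h0 j).sup t ht y hy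
    rw [mul_zero, mul_zero, norm_le_zero_iff] at h1
    have h2 := h.S_lin le_rfl le_rfl (h0 a) (h0 a) (-1) j ht hy
    have h3 : (fun s x => cp (fun _ (_ : X × Λ) => (0 : ℝ)) a s x +
        -1 * cp (fun _ (_ : X × Λ) => (0 : ℝ)) a s x) = cp (fun _ (_ : X × Λ) => (0 : ℝ)) a := by
      funext s x; simp [cp]
    rw [h3] at h2
    rw [ΨS_loc h hI hτ hN hδ hN' j a ht hy, h1]
    linarith
  refine ⟨ΨS_cont h hF hI hτ hN hδ hN' j a, fun t ht y hy => ?_, fun t ht => ?_⟩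
  · exact (congrArg norm (e t ht y hy)).trans_le ((hF j).bdF a t ⟨ht.1, ht.2.trans hτ⟩ y hy)
  · exact ((hF j).holF a t ⟨ht.1, ht.2.trans hτ⟩).congr fun y hy => (e t ht y hy).symm

end

end Vale.Agent.P216ST
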