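import Vale.Agent.P253W.FP.At1

/-! # Lattices with a Lipschitz partition of unity; smooth partitions of unity -/

open Set Metric Filter Topology
open scoped Manifold ContDiff

noncomputable section

namespace Vale.Agent.P216ST

open Vale.Agent.P253W.FP.At (tent tent_ne tent_lip sum_tent abs_prod_sub abs_cl_sub)

variable (E : Type) [NormedAddCommGroup E] [NormedSpace ℝ E]

/-- a lattice with a partition of unity by translates of one function -/
structure Lat where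
  Z : Type
  emb : Z → E
  T : E → ℝ
  c : ℝ
  c0 : 0 ≤ c
  bd : ∀ y, |T y| ≤ 1
  ne : ∀ y, T y ≠ 0 → ‖y‖ < 2
  lip : ∀ y y', |T y - T y'| ≤ c * ‖y - y'‖
  sum : ∀ y, ∑ᶠ k, T (y - emb k) = 1
  box : ∀ R : ℝ, ∃ N : ℕ, ∀ w, ∃ B : Finset Z, B.card ≤ N ∧ ∀ k, ‖w - emb k‖ ≤ R → k ∈ B

variable [FiniteDimensional ℝ E]

theorem exists_lat : Nonempty (Lat E) := by
  obtain ⟨n, hn⟩ : ∃ n, Module.finrank ℝ E = n := ⟨_, rfl⟩
  have φ₀ : E ≃L[ℝ] (Fin n → ℝ) := ContinuousLinearEquiv.ofFinrankEq (by simp [hn])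
  set κ : ℝ := ‖(φ₀.symm : (Fin n → ℝ) →L[ℝ] E)‖ + 1 with hκ
  have κ0 : 0 < κ := by positivity
  set φ : E →L[ℝ] (Fin n → ℝ) := κ • (φ₀ : E →L[ℝ] (Fin n → ℝ)) with hφ
  have h1 : ∀ y, ‖y‖ ≤ ‖φ y‖ := fun y => by
    have := (φ₀.symm : (Fin n → ℝ) →L[ℝ] E).le_opNorm (φ₀ y)
    simp only [ContinuousLinearEquiv.coe_coe, ContinuousLinearEquiv.symm_apply_apply] at this
    simp only [hφ, smul_apply, ContinuousLinearEquiv.coe_coe, norm_smul,
      Real.norm_of_nonneg κ0.le]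
    nlinarith [norm_nonneg (φ₀ y)]
  have h2 : ∀ y q, |φ y q| ≤ ‖φ‖ * ‖y‖ := fun y q =>
    (norm_le_pi_norm (φ y) q).trans (φ.le_opNorm y)
  let emb : (Fin n → ℤ) → E := fun k => φ₀.symm (κ⁻¹ • fun q => (k q : ℝ))
  have h3 : ∀ y k q, φ (y - emb k) q = φ y q - k q := fun y k q => by
    simp [hφ, emb, mul_sub, κ0.ne']
  refine ⟨⟨Fin n → ℤ, emb, fun y => ∏ q, tent (φ y q), n * (2 * ‖φ‖), by positivity, fun y => ?_,
    fun y h => ?_, fun y y' => ?_, fun y => ?_, fun R => ?_⟩⟩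
  · rw [Finset.abs_prod]
    exact Finset.prod_le_one (fun _ _ => abs_nonneg _) fun i _ => abs_cl_sub _ _
  · refine (h1 y).trans_lt (lt_of_le_of_lt ((pi_norm_le_iff_of_nonneg zero_le_one).2 fun q =>
      (tent_ne (Finset.prod_ne_zero_iff.1 h q (Finset.mem_univ _))).le) one_lt_two)
  · refine (abs_prod_sub _ (fun _ => abs_cl_sub _ _) fun _ => abs_cl_sub _ _).trans ?_
    refine (Finset.sum_le_card_nsmul _ _ (2 * ‖φ‖ * ‖y - y'‖) fun q _ => ?_).trans (le_of_eq ?_)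
    · refine (tent_lip _ _).trans ?_
      have := h2 (y - y') q
      rw [map_sub, Pi.sub_apply] at this
      linarith
    · simp; ring
  · rw [finsum_eq_sum_of_support_subset
      (s := Fintype.piFinset fun q => ({⌊φ y q⌋, ⌊φ y q⌋ + 1} : Finset ℤ))]
    · simp only [h3]
      rw [← Finset.prod_univ_sum (fun q => ({⌊φ y q⌋, ⌊φ y q⌋ + 1} : Finset ℤ))
        fun q (k : ℤ) => tent (φ y q - k)]
      exact Finset.prod_eq_one fun q _ => sum_tent _
    · intro k hk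
      refine Fintype.mem_piFinset.2 fun q => ?_
      have h4 := abs_lt.1 (tent_ne (Finset.prod_ne_zero_iff.1 hk q (Finset.mem_univ _)))
      rw [h3] at h4
      have h5 : k q - 1 ≤ ⌊φ y q⌋ := Int.le_floor.2 (by push_cast; linarith)
      have h6 : ⌊φ y q⌋ < k q + 1 := Int.floor_lt.2 (by push_cast; linarith)
      simp only [Finset.mem_insert, Finset.mem_singleton]
      omega
  · obtain ⟨r, hr⟩ := exists_nat_ge (‖φ‖ * R)
    refine ⟨(2 * r + 2) ^ n, fun w => ⟨Fintype.piFinset fun q =>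
      Finset.Icc (⌊φ w q⌋ - r) (⌊φ w q⌋ + r + 1), ?_, fun k hk => ?_⟩⟩
    · have h : ∀ a : ℤ, (a + r + 1 + 1 - (a - r)).toNat = 2 * r + 2 := fun a => by omega
      simp [h]
    · refine Fintype.mem_piFinset.2 fun q => Finset.mem_Icc.2 ?_
      have h4 := abs_le.1 (((h2 _ q).trans (mul_le_mul_of_nonneg_left hk (norm_nonneg _))).trans hr)
      rw [h3] at h4
      have h5 : k q - r - 1 ≤ ⌊φ w q⌋ := Int.le_floor.2 (by push_cast; linarith)
      have h6 : ⌊φ w q⌋ < k q + r + 1 := Int.floor_lt.2 (by push_cast; linarith)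
      omega

/-- a finite smooth partition of unity subordinate to charts -/
theorem exists_pu (X : Type) [TopologicalSpace X] [ChartedSpace E X] [IsManifold 𝓘(ℝ, E) ∞ X]
    [CompactSpace X] [T2Space X] : ∃ (m : ℕ) (pt : Fin m → X) (ρ : Fin m → X → ℝ),
      (∀ a, ContMDiff 𝓘(ℝ, E) 𝓘(ℝ, ℝ) ∞ (ρ a)) ∧
      (∀ a, tsupport (ρ a) ⊆ (chartAt E (pt a)).source) ∧ (∀ a x, 0 ≤ ρ a x) ∧
      ∀ x, ∑ a, ρ a x = 1 := by
  obtain ⟨t, ht⟩ := isCompact_univ.elim_finite_subcover (fun x : X => (chartAt E x).source)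
    (fun x => (chartAt E x).open_source) fun x _ => mem_iUnion.2 ⟨x, mem_chart_source E x⟩
  let pt : Fin t.card → X := fun a => (t.equivFin.symm a : X)
  obtain ⟨ρ, hρ⟩ := SmoothPartitionOfUnity.exists_isSubordinate 𝓘(ℝ, E) (M := X) isClosed_univ
    (fun a => (chartAt E (pt a)).source) (fun a => (chartAt E _).open_source) fun x hx => by
      obtain ⟨y, hy, h⟩ := mem_iUnion₂.1 (ht hx)
      exact mem_iUnion.2 ⟨t.equivFin ⟨y, hy⟩, by simpa [pt] using h⟩
  refine ⟨_, pt, fun a => ρ a, fun a => (ρ a).contMDiff, hρ, ρ.nonneg, fun x => ?_⟩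
  rw [← finsum_eq_sum_of_fintype]
  exact ρ.sum_eq_one (mem_univ x)

end Vale.Agent.P216ST
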