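import Vale.Agent.P216ST.Core
import Vale.Agent.P216R.Weak
import Vale.Agent.P216R.Met

/-! # Linear parabolic equations on a compact manifold -/

set_option maxSynthPendingDepth 3
set_option linter.unusedSectionVars false

open Set Metric Filter Topology
open scoped Manifold ContDiff
open Vale.Agent.P272.K.R (Bil D2)
open Vale.Agent.P272.K.LIN (Jet jet contDiffAt_jet)

noncomputable section

namespace Vale.Agent.P216ST

open Vale.Agent.P253W.FP Vale.Agent.P253W.FP.At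
open Vale.Agent.P216R (rd dom Wa wa_of_contDiffOn contDiffOn_of_wa contDiffWithinAt_univ_of)

variable {E : Type} [NormedAddCommGroup E] [NormedSpace ℝ E] [FiniteDimensional ℝ E]
  {X : Type} [TopologicalSpace X] [ChartedSpace E X] [IsManifold 𝓘(ℝ, E) ∞ X]

theorem dom_univ (a : X) : dom E a univ = (chartAt E a).target := by simp [dom]

theorem ev_BL2 {F : Type} [NormedAddCommGroup F] [NormedSpace ℝ F] {f : ℝ × E → F} {a b : ℝ}
    {O Q : Set E} (hO : IsOpen O) (hQ : IsCompact Q) (hQO : Q ⊆ O)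
    (hf : ContDiffOn ℝ ∞ f (Icc a b ×ˢ O)) : ∀ᶠ L in atTop, BL L f (Icc a b ×ˢ Q) := by
  have hs := (isCompact_Icc (a := a) (b := b)).prod hQ
  obtain ⟨K, hK⟩ := LocallyLipschitzOn.exists_lipschitzOnWith_of_compact (f := f) hs
    fun x hx => by
      obtain ⟨K, t, ht, h⟩ := ((contDiffWithinAt_univ_of hf hO hx.1 (hQO hx.2)).of_le
        (m := 1) (by exact_mod_cast le_top)).exists_lipschitzOnWith
          ((convex_Icc a b).prod convex_univ)
      exact ⟨K, t, nhdsWithin_mono _ (prod_mono_right (subset_univ _)) ht, h⟩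
  obtain ⟨C, hC⟩ := hs.exists_bound_of_continuousOn hK.continuousOn
  filter_upwards [eventually_ge_atTop (K : ℝ), eventually_ge_atTop C] with L h1 h2 x hx
  exact ⟨(hC x hx).trans h2, fun y hy => (hK.norm_sub_le hx hy).trans
    (mul_le_mul_of_nonneg_right h1 (norm_nonneg _))⟩

/-- smoothness may be tested in one chart at each point -/
theorem smooth_of_local {F : Type} [NormedAddCommGroup F] [NormedSpace ℝ F] {u : ℝ → X → F}
    {I : Set ℝ} (h : ∀ x, ∃ a U, IsOpen U ∧ U ⊆ (chartAt E a).target ∧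
      x ∈ (chartAt E a).symm '' U ∧
      ContDiffOn ℝ ∞ (fun q : ℝ × E => rd E (u q.1) a q.2) (I ×ˢ U)) (b : X) :
    ContDiffOn ℝ ∞ (fun q : ℝ × E => rd E (u q.1) b q.2) (I ×ˢ (chartAt E b).target) := by
  intro q hq
  obtain ⟨a, U, h1, h2, ⟨y, hy, e⟩, h4⟩ := h ((chartAt E b).symm q.2)
  have hs : (chartAt E b).symm q.2 ∈ (chartAt E a).source := e ▸ (chartAt E a).map_target (h2 hy)
  have e' : trn E b a q.2 = y := by rw [trn, ← e, (chartAt E a).right_inv (h2 hy)]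
  have h5 : ContDiffWithinAt ℝ ∞ (fun q : ℝ × E => rd E (u q.1) a (trn E b a q.2))
      (I ×ˢ (chartAt E b).target) q :=
    ContDiffWithinAt.comp q (g := fun q : ℝ × E => rd E (u q.1) a q.2) (t := I ×ˢ univ)
      (f := fun q : ℝ × E => (q.1, trn E b a q.2))
      (by rw [e']; exact contDiffWithinAt_univ_of h4 h1 hq.1 hy)
      (contDiffAt_fst.prodMk ((trn_smooth hq.2 hs).comp q contDiffAt_snd)).contDiffWithinAt
      fun _ hp => ⟨hp.1, trivial⟩
  have h6 : ∀ᶠ z in 𝓝 q.2, ∀ t, rd E (u t) b z = rd E (u t) a (trn E b a z) :=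
    (rd_trn (fun x t => u t x) hq.2 hs).mono fun z hz t => congrFun hz t
  exact h5.congr_of_eventuallyEq (mem_nhdsWithin_of_mem_nhds
    ((continuous_snd.tendsto q).eventually h6 |>.mono fun p hp => hp p.1)) (h6.self_of_nhds q.1)

/-- a linear second order elliptic operator with smooth coefficients -/
structure LinD (L : ℝ → (X → ℝ) → X → ℝ) (l : X → ℝ → E → Jet E →L[ℝ] ℝ) (I : Set ℝ) : Prop where
  sm : ∀ a, ContDiffOn ℝ ∞ (fun q : ℝ × E => l a q.1 q.2) (I ×ˢ (chartAt E a).target)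
  ell : ∀ a, ∀ t ∈ I, ∀ y ∈ (chartAt E a).target, ∀ ξ : E →L[ℝ] ℝ, ξ ≠ 0 →
    0 < l a t y (j2 (ξ.smulRight ξ))
  eq : ∀ a, ∀ t ∈ I, ∀ y ∈ (chartAt E a).target, ∀ u : X → ℝ, ContDiffAt ℝ 2 (rd E u a) y →
    L t u ((chartAt E a).symm y) = l a t y (jet (rd E u a) y)

variable (E) in
/-- smooth solutions of `u_t = L u + f` -/
structure Sol (L : ℝ → (X → ℝ) → X → ℝ) (f : ℝ → X → ℝ) (I : Set ℝ) (u : ℝ → X → ℝ) : Prop where
  sm : SmF E u I univ
  eqn : ∀ t ∈ I, ∀ x, HasDerivWithinAt (fun s => u s x) (L t (u t) x + f t x) I t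

variable {L : ℝ → (X → ℝ) → X → ℝ} {l : X → ℝ → E → Jet E →L[ℝ] ℝ} {f u v : ℝ → X → ℝ}
  {I J : Set ℝ} {a b c : ℝ}

theorem LinD.mono (D : LinD L l I) (h : J ⊆ I) : LinD L l J :=
  ⟨fun a => (D.sm a).mono (prod_mono_left h), fun a t ht => D.ell a t (h ht),
    fun a t ht => D.eq a t (h ht)⟩

theorem SmF.mono {U : Set X} (H : SmF E u I U) (h : J ⊆ I) : SmF E u J U :=
  fun a => (H a).mono (prod_mono_left h)

theorem SmF.congr {U : Set X} (H : SmF E u I U) (h : ∀ t ∈ I, EqOn (v t) (u t) U) : SmF E v I U :=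
  fun a => (H a).congr fun q hq => h q.1 hq.1 hq.2.2

theorem SmF.sm0 {U : Set X} (H : SmF E u I U) {t : ℝ} (ht : t ∈ I) : Sm0 E (u t) U :=
  fun a => sm_slice (f := fun t => rd E (u t) a) (H a) ht

theorem Sol.congr (H : Sol E L f I u) (h : ∀ t ∈ I, v t = u t) : Sol E L f I v :=
  ⟨H.sm.congr fun t ht _ _ => by rw [h t ht], fun t ht x => by
    rw [h t ht]
    exact (H.eqn t ht x).congr (fun s hs => by rw [h s hs]) (by rw [h t ht])⟩

theorem two_le : (2 : WithTop ℕ∞) ≤ ∞ := WithTop.coe_le_coe.2 le_top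

theorem Sol.union (hI : IsClosed I) (hJ : IsClosed J) (hc : Convex ℝ (I ∪ J))
    (D : LinD L l (I ∪ J)) (hf : SmF E f (I ∪ J) univ) (H : Sol E L f I u) (H' : Sol E L f J u) :
    Sol E L f (I ∪ J) u := by
  have key : ∀ {I : Set ℝ}, IsClosed I → Sol E L f I u → ∀ t x,
      HasDerivWithinAt (fun s => u s x) (L t (u t) x + f t x) I t := by
    intro I hI H t x
    by_cases ht : t ∈ I
    · exact H.eqn t ht x
    · exact HasFDerivWithinAt.of_notMem_closure (by rwa [hI.closure_eq])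
  have e := fun t x => (key hI H t x).union (key hJ H' t x)
  refine ⟨fun a => ?_, fun t _ x => e t x⟩
  have o := P216R.isOpen_dom (E := E) a isOpen_univ
  refine contDiffOn_of_wa (f := fun t => rd E (u t) a)
    (F := fun t y => l a t y (jet (rd E (u t) a) y) + rd E (f t) a y) hc o
    ((wa_of_contDiffOn o (H.sm a) 0).union hI hJ (wa_of_contDiffOn o (H'.sm a) 0))
    (fun n h => ?_) fun t ht y hy => ?_
  · have h1 := (wa_of_contDiffOn o ((dom_univ (E := E) a).symm ▸ D.sm a) n).map₂ o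
      (h.prod o (h.fderiv.prod o h.fderiv.fderiv))
      (Φ := fun q : (Jet E →L[ℝ] ℝ) × Jet E => q.1 q.2) (by fun_prop)
    exact h1.map₂ o (wa_of_contDiffOn (f := fun t => rd E (f t) a) o (hf a) n)
      (Φ := fun q => q.1 + q.2) (by fun_prop)
  · have h1 : Sm0 E (u t) univ := ht.elim H.sm.sm0 H'.sm.sm0
    rw [← D.eq a t ht y hy.1 _ ((h1.at isOpen_univ hy).of_le two_le)]
    exact e t _

theorem Sol.cat (hab : a ≤ b) (hbc : b ≤ c) (D : LinD L l (Icc a c)) (hf : SmF E f (Icc a c) univ)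
    (H : Sol E L f (Icc a b) u) (H' : Sol E L f (Icc b c) v) (e : v b = u b) :
    Sol E L f (Icc a c) fun t => if t ≤ b then u t else v t := by
  rw [← Icc_union_Icc_eq_Icc hab hbc] at D hf ⊢
  refine Sol.union isClosed_Icc isClosed_Icc (by rw [Icc_union_Icc_eq_Icc hab hbc]; exact convex_Icc _ _)
    D hf (H.congr fun t ht => if_pos ht.2) (H'.congr fun t ht => ?_)
  split_ifs with h
  · rw [le_antisymm h ht.1, e]
  · rfl

/-- the principal part of the linear operator -/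
def lA (k : ((Jet E →L[ℝ] ℝ) × ℝ) × (Unit → ℝ)) : Bil E →L[ℝ] ℝ := k.1.1.comp j2

/-- the lower order part of the linear operator -/
def lG (x : (((Jet E →L[ℝ] ℝ) × ℝ) × (Unit → ℝ)) × (Unit → E →L[ℝ] ℝ)) (_ : Unit) : ℝ :=
  x.1.1.1 (x.1.2 (), x.2 (), 0) + x.1.1.2

theorem opE_lin (k : (Jet E →L[ℝ] ℝ) × ℝ) (w : Unit → E → ℝ) (y : E) (c : Unit) :
    opE lA lG k w y c = k.1 (jet (w ()) y) + k.2 := by
  rw [opE, lA, lG, ← add_assoc, ContinuousLinearMap.comp_apply, ← map_add]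
  simp [j2_apply, jet]

theorem lin_fin (D : LinD L l I) {m : ℕ} {pt : Fin m → X} {Q : Fin m → Set E}
    (hQ : ∀ i, Q i ⊆ (chartAt E (pt i)).target) {μ N t₀ : ℝ} (s0 : 0 < μ) (N0 : N ≠ 0) {u₀ : X → ℝ}
    (h₀ : Sm0 E u₀ univ) {v : ℝ → Unit → X → ℝ} (v0 : ∀ c x, v 0 c x = 0) {J' : Set ℝ}
    (hJ : J ⊆ I) (hm : MapsTo (fun t => (t - t₀) / μ) J J')
    (hv : ∀ x, ∃ i U, IsOpen U ∧ U ⊆ Q i ∧ x ∈ (chartAt E (pt i)).symm '' U ∧
      ContDiffOn ℝ ∞ (fun q : ℝ × E => rd E (v q.1 ()) (pt i) q.2) (J' ×ˢ U) ∧ ∀ r ∈ J', ∀ y ∈ U,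
        HasDerivWithinAt (fun r => rd E (v r ()) (pt i) y) (μ * (l (pt i) (t₀ + μ * r) y
          (jet (rd E (v r ()) (pt i)) y) + N⁻¹ * (l (pt i) (t₀ + μ * r) y (jet (rd E u₀ (pt i)) y) +
            rd E (f (t₀ + μ * r)) (pt i) y))) J' r) :
    ∃ u, Sol E L f J u ∧ u t₀ = u₀ := by
  have j0 : ∀ i, ∀ y ∈ (chartAt E i).target, ContDiffAt ℝ ∞ (rd E u₀ i) y := fun i y hy =>
    h₀.at isOpen_univ ⟨hy, trivial⟩
  have sv := smooth_of_local (u := fun t => v t ()) fun x =>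
    let ⟨i, U, h1, h2, h3, h4, _⟩ := hv x; ⟨pt i, U, h1, h2.trans (hQ i), h3, h4⟩
  refine ⟨fun t x => u₀ x + N * v ((t - t₀) / μ) () x, ⟨fun i => ?_, fun t ht x => ?_⟩,
    funext fun x => by simp [v0]⟩
  · rw [dom_univ]
    exact (ContDiffOn.comp (g := rd E u₀ i) (fun y hy => (j0 i y hy).contDiffWithinAt)
      contDiffOn_snd fun _ hq => hq.2).add (contDiffOn_const.mul ((sv i).comp
        (f := fun q : ℝ × E => ((q.1 - t₀) / μ, q.2)) (by fun_prop) fun q hq => ⟨hm hq.1, hq.2⟩))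
  · obtain ⟨i, U, h1, h2, ⟨y, hy, rfl⟩, h4, h5⟩ := hv x
    have a1 := hQ i (h2 hy)
    have e1 : t₀ + μ * ((t - t₀) / μ) = t := by field_simp; ring
    have a2 : ContDiffAt ℝ 2 (rd E (v ((t - t₀) / μ) ()) (pt i)) y :=
      ((sm_slice (f := fun t => rd E (v t ()) (pt i)) h4 (hm ht)).contDiffAt
        (h1.mem_nhds hy)).of_le two_le
    have a3 := (j0 _ _ a1).of_le two_le
    have d1 : HasDerivWithinAt (fun t => (t - t₀) / μ) (1 / μ) J t :=
      (((hasDerivAt_id' t).sub_const t₀).div_const _).hasDerivWithinAt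
    refine (((h5 _ (hm ht) y hy).comp t d1 hm).const_mul N |>.const_add _).congr_deriv ?_
    have e2 := (jet_add a3 (contDiffAt_const (c := N).mul a2)).trans (by rw [jet_const_mul N a2])
    rw [D.eq _ t (hJ ht) y a1 _ (a3.add (contDiffAt_const.mul a2))]
    erw [e2]
    simp only [e1, map_add, map_smul, smul_eq_mul, rd, Function.comp_apply]
    field_simp
    ring

variable [CompactSpace X] [T2Space X]

theorem lin_step (D : LinD L l (Icc a b)) (hf : SmF E f (Icc a b) univ) : ∃ σ > 0,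
    ∀ t₀ ∈ Ico a b, ∀ u₀ : X → ℝ, Sm0 E u₀ univ →
      ∃ u, Sol E L f (Icc t₀ (min b (t₀ + σ))) u ∧ u t₀ = u₀ := by
  obtain ⟨m, pt, Q, hQ, H⟩ := core E X
  obtain ⟨K, hK, K0⟩ := ((eventually_all.2 fun i => ev_BL2 (chartAt E (pt i)).open_target (hQ i).1
    (hQ i).2 (D.sm (pt i))).and (eventually_ge_atTop 1)).exists
  obtain ⟨η, η0, H⟩ := H Unit ((Jet E →L[ℝ] ℝ) × ℝ) (fun _ => univ) (fun _ => lA) (fun _ => lG)
    (fun i => ((fun q : ℝ × E => l (pt i) q.1 q.2) '' (Icc a b ×ˢ Q i)) ×ˢ closedBall 0 1)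
    ⟨fun _ => isOpen_univ, fun _ => ContDiff.contDiffOn (by unfold lA; fun_prop),
      fun _ => ContDiff.contDiffOn (by unfold lG; fun_prop), fun i =>
      ((isCompact_Icc.prod (hQ i).1).image_of_continuousOn ((D.sm _).continuousOn.mono
        (prod_mono_right (hQ i).2))).prod (isCompact_closedBall _ _), fun _ _ _ => trivial, by
      rintro i ⟨_, r⟩ ⟨⟨q, hq, rfl⟩, -⟩ ξ hξ
      exact D.ell _ _ hq.1 _ ((hQ i).2 hq.2) ξ hξ⟩ K (by linarith)
  have e2 : ∀ᶠ s in 𝓝[>] (0 : ℝ), K * s ^ 2 < η :=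
    ((show Continuous fun s : ℝ => K * s ^ 2 by fun_prop).tendsto' 0 0 (by simp)
      ).eventually_lt_const η0 |>.filter_mono nhdsWithin_le_nhds
  obtain ⟨s, ⟨⟨τ, hτ, H⟩, s2⟩, s0⟩ := ((H.and e2).and self_mem_nhdsWithin).exists
  replace s0 : 0 < s ^ 2 := pow_pos s0 2
  refine ⟨s ^ 2 * τ, mul_pos s0 hτ.1, fun t₀ ht₀ u₀ h₀ => ?_⟩
  have j0 : ∀ i, ∀ y ∈ (chartAt E i).target, ContDiffAt ℝ ∞ (rd E u₀ i) y := fun i y hy =>
    h₀.at isOpen_univ ⟨hy, trivial⟩
  let F : X → ℝ × E → ℝ := fun i q => l i q.1 q.2 (jet (rd E u₀ i) q.2) + rd E (f q.1) i q.2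
  have sF : ∀ i, ContDiffOn ℝ ∞ (F i) (Icc a b ×ˢ (chartAt E i).target) := fun i =>
    ((D.sm i).clm_apply fun q hq => ((contDiffAt_jet (k := ∞) (j0 i _ hq.2)).comp q
      contDiffAt_snd).contDiffWithinAt).add (dom_univ (E := E) i ▸ hf i)
  obtain ⟨N, hN, N0⟩ := ((eventually_all.2 fun i => ev_BL2 (chartAt E (pt i)).open_target (hQ i).1
    (hQ i).2 (sF (pt i))).and (eventually_ge_atTop 1)).exists
  have κ0 : 0 < N⁻¹ := by positivity
  have κ1 : N⁻¹ * N = 1 := inv_mul_cancel₀ (by positivity)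
  let θ : ℝ → ℝ := fun r => min b (t₀ + s ^ 2 * r)
  have θm : ∀ r ∈ Icc (0 : ℝ) 1, θ r ∈ Icc a b := fun r hr =>
    ⟨le_min (ht₀.1.trans ht₀.2.le) (by nlinarith [ht₀.1, hr.1]), min_le_left _ _⟩
  have z1 : (0 : ℝ) ∈ Icc (0 : ℝ) 1 := ⟨le_rfl, zero_le_one⟩
  have θl : ∀ r ∈ Icc (0 : ℝ) 1, ∀ y : E, ‖(θ r, y) - (θ 0, y)‖ ≤ s ^ 2 := fun r hr y => by
    have h1 := abs_min_sub_min_le_max b (t₀ + s ^ 2 * r) b (t₀ + s ^ 2 * 0)
    rw [sub_self, abs_zero, max_eq_right (abs_nonneg _), mul_zero, add_zero, add_sub_cancel_left,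
      abs_of_nonneg (mul_nonneg s0.le hr.1)] at h1
    simpa [θ] using h1.trans (mul_le_of_le_one_right s0.le hr.2)
  have θs : ∀ (r : ℝ) (y y' : E), ‖(θ r, y) - (θ r, y')‖ = ‖y - y'‖ := fun r y y' => by simp
  have nF : ∀ x y : ℝ, ‖N⁻¹ * x - N⁻¹ * y‖ = N⁻¹ * ‖x - y‖ := fun x y => by
    rw [← mul_sub, norm_mul, Real.norm_of_nonneg κ0.le]
  have hτ' : min τ ((b - t₀) / s ^ 2) ∈ Ioc 0 τ :=
    ⟨lt_min hτ.1 (div_pos (sub_pos.2 ht₀.2) s0), min_le_left _ _⟩
  have θe : ∀ r ∈ Icc 0 (min τ ((b - t₀) / s ^ 2)), θ r = t₀ + s ^ 2 * r := fun r hr =>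
    min_eq_right (by linarith [(le_div_iff₀' s0).1 (hr.2.trans (min_le_right _ _))])
  have sub : Icc 0 (min τ ((b - t₀) / s ^ 2)) ⊆ Icc (0 : ℝ) 1 :=
    Icc_subset_Icc_right (hτ'.2.trans hτ.2)
  obtain ⟨v, v0, hv⟩ := H (fun i r y => (l (pt i) (θ r) y, N⁻¹ * F (pt i) (θ r, y)))
    (fun i => (((D.sm _).continuousOn.prodMk (continuousOn_const.mul (sF _).continuousOn)).comp
      (f := fun q : ℝ × E => (θ q.1, q.2)) (by fun_prop) fun q hq => ⟨θm _ hq.1, (hQ i).2 hq.2⟩))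
    (fun i r hr y hy => by
      have m1 : (θ r, y) ∈ Icc a b ×ˢ Q i := ⟨θm r hr, hy⟩
      have m0 : (θ 0, y) ∈ Icc a b ×ˢ Q i := ⟨θm 0 z1, hy⟩
      refine ⟨⟨⟨_, m1, rfl⟩, ?_⟩, ?_, fun y' hy' => ?_⟩
      · rw [mem_closedBall_zero_iff, norm_mul, Real.norm_of_nonneg κ0.le, ← κ1]
        exact mul_le_mul_of_nonneg_left (hN i _ m1).1 κ0.le
      · rw [Prod.mk_sub_mk, Prod.norm_mk, nF]
        have h1 := mul_le_mul_of_nonneg_left (((hN i _ m1).2 _ m0).trans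
          (mul_le_mul_of_nonneg_left (θl r hr y) (by linarith))) κ0.le
        rw [← mul_assoc, κ1] at h1
        exact max_le (((hK i _ m1).2 _ m0).trans ((mul_le_mul_of_nonneg_left (θl r hr y)
          (by linarith)).trans s2.le)) (by nlinarith)
      · have m2 : (θ r, y') ∈ Icc a b ×ˢ Q i := ⟨θm r hr, hy'⟩
        rw [Prod.mk_sub_mk, Prod.norm_mk, nF]
        have h1 := mul_le_mul_of_nonneg_left ((hN i _ m1).2 _ m2) κ0.le
        rw [← mul_assoc, κ1, θs] at h1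
        have h2 := (hK i _ m1).2 _ m2
        rw [θs] at h2
        exact max_le h2 (by nlinarith [norm_nonneg (y - y')]))
    (fun r hr i j y hy y' hy' e w W hW hx hw _ _ => funext fun c => by
      have a1 := (hQ i).2 hy
      have a2 := (hQ j).2 hy'
      simp only [opE_lin, F]
      rw [← D.eq _ _ (θm r hr) y a1 _ (((hw ()).at hW ⟨a1, hx⟩).of_le two_le),
        ← D.eq _ _ (θm r hr) y' a2 _ (((hw ()).at hW ⟨a2, mem_preimage.2 (e ▸ hx)⟩).of_le two_le),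
        ← D.eq _ _ (θm r hr) y a1 _ ((j0 _ _ a1).of_le two_le),
        ← D.eq _ _ (θm r hr) y' a2 _ ((j0 _ _ a2).of_le two_le)]
      simp only [rd, Function.comp_apply, e]) _ hτ'
    fun i => (((D.sm _).prodMk ((contDiffOn_const (c := N⁻¹)).mul (sF _))).comp
      (f := fun q : ℝ × E => (t₀ + s ^ 2 * q.1, q.2)) (by fun_prop)
      fun q hq => ⟨θe _ hq.1 ▸ θm _ (sub hq.1), hq.2⟩).congr fun q hq => by
        simp only [θe _ hq.1, Function.comp_apply]
  refine lin_fin D (fun i => (hQ i).2) s0 (N := N) (by positivity) h₀ v0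
    (J' := Icc 0 (min τ ((b - t₀) / s ^ 2))) (fun t ht => ⟨ht₀.1.trans ht.1,
    ht.2.trans (min_le_left _ _)⟩) (fun t ht => ⟨div_nonneg (sub_nonneg.2 ht.1) s0.le,
      le_min ((div_le_iff₀' s0).2 (by linarith [ht.2.trans (min_le_right _ _)]))
        (div_le_div_of_nonneg_right (by linarith [ht.2.trans (min_le_left _ _)]) s0.le)⟩)
    fun x => ?_
  obtain ⟨i, U, h1, h2, h3, h4, h5⟩ := hv x
  refine ⟨i, U, h1, h2, h3, h4 (), fun r hr y hy => ?_⟩
  have := (h5 r hr y hy).2 ()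
  rwa [opE_lin, θe r hr] at this

/-- **Linear equations on a compact interval.** -/
theorem lin_Icc (hab : a < b) (D : LinD L l (Icc a b)) (hf : SmF E f (Icc a b) univ) {u₀ : X → ℝ}
    (h₀ : Sm0 E u₀ univ) : ∃ u, Sol E L f (Icc a b) u ∧ u a = u₀ := by
  obtain ⟨σ, σ0, H⟩ := lin_step D hf
  have key : ∀ n : ℕ, ∃ u, Sol E L f (Icc a (min b (a + (n + 1) * σ))) u ∧ u a = u₀ := fun n => by
    induction n with
    | zero => simpa using H a ⟨le_rfl, hab⟩ u₀ h₀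
    | succ n ih =>
      obtain ⟨u, hu, e⟩ := ih
      have p : 0 ≤ ((n : ℝ) + 1) * σ := by positivity
      rcases le_or_gt b (a + (n + 1) * σ) with h | h
      · rw [min_eq_left h] at hu
        exact ⟨u, by rwa [min_eq_left (by push_cast; linarith)], e⟩
      · rw [min_eq_right h.le] at hu
        obtain ⟨v, hv, e'⟩ := H _ ⟨by linarith, h⟩ _ (hu.sm.sm0 ⟨by linarith, le_rfl⟩)
        have s : Icc a (min b (a + (n + 1) * σ + σ)) ⊆ Icc a b :=
          Icc_subset_Icc_right (min_le_left _ _)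
        rw [show a + (((n + 1 : ℕ) : ℝ) + 1) * σ = a + (n + 1) * σ + σ by push_cast; ring]
        have p' : a ≤ a + (n + 1) * σ := by linarith
        exact ⟨_, hu.cat p' (le_min h.le (by linarith)) (D.mono s) (hf.mono s) hv e',
          (if_pos p').trans e⟩
  obtain ⟨n, hn⟩ := exists_nat_ge ((b - a) / σ)
  obtain ⟨u, hu⟩ := key n
  rw [min_eq_left (by nlinarith [(div_le_iff₀ σ0).1 hn])] at hu
  exact ⟨u, hu⟩

/-- **Linear equations on a half line.** -/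
theorem lin_Ici (D : LinD L l (Ici a)) (hf : SmF E f (Ici a) univ) {u₀ : X → ℝ}
    (h₀ : Sm0 E u₀ univ) : ∃ u, Sol E L f (Ici a) u ∧ u a = u₀ := by
  have s : ∀ n : ℕ, Icc (a + n) (a + n + 1) ⊆ Ici a := fun n t ht =>
    le_trans (le_add_of_nonneg_right n.cast_nonneg) ht.1
  choose! S S1 S2 using fun (n : ℕ) (w : X → ℝ) (hw : Sm0 E w univ) =>
    lin_Icc (lt_add_one (a + n)) (D.mono (s n)) (hf.mono (s n)) hw
  let w : ℕ → X → ℝ := fun n => Nat.rec u₀ (fun n w => S n w (a + n + 1)) n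
  have hw : ∀ n, Sm0 E (w n) univ := fun n => by
    induction n with
    | zero => exact h₀
    | succ n ih => exact (S1 n _ ih).sm.sm0 ⟨by linarith, le_rfl⟩
  let u : ℝ → X → ℝ := fun t => S ⌊t - a⌋₊ (w ⌊t - a⌋₊) t
  have hu : ∀ n : ℕ, Sol E L f (Icc (a + n) (a + n + 1)) u := fun n =>
    (S1 n _ (hw n)).congr fun t ht => by
      have p : (0 : ℝ) ≤ n := n.cast_nonneg
      rcases ht.2.eq_or_lt with rfl | h
      · have e : ⌊a + n + 1 - a⌋₊ = n + 1 := by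
          rw [show a + n + 1 - a = ((n + 1 : ℕ) : ℝ) by push_cast; ring, Nat.floor_natCast]
        have := S2 (n + 1) _ (hw (n + 1))
        push_cast at this
        simp only [u, e]
        rw [add_assoc a, this, ← add_assoc a]
      · simp only [u, (Nat.floor_eq_iff (by linarith [ht.1] : 0 ≤ t - a)).2
          ⟨(by linarith [ht.1] : (n : ℝ) ≤ t - a), by linarith⟩]
  have hu' : ∀ n : ℕ, Sol E L f (Icc a (a + n + 1)) u := fun n => by
    induction n with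
    | zero => simpa using hu 0
    | succ n ih =>
      have p : (0 : ℝ) ≤ n := n.cast_nonneg
      have h1 := hu (n + 1)
      push_cast at h1 ⊢
      rw [← add_assoc] at h1 ⊢
      simpa using ih.cat (by linarith) (by linarith) (D.mono Icc_subset_Ici_self)
        (hf.mono Icc_subset_Ici_self) h1 rfl
  have nb : ∀ t, Icc a (a + ⌊t - a⌋₊ + 1) ∈ 𝓝[Ici a] t := fun t => by
    rw [← Ici_inter_Iic]
    exact inter_mem_nhdsWithin _ (Iic_mem_nhds (by linarith [Nat.lt_floor_add_one (t - a)]))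
  refine ⟨u, ⟨fun i q hq => ?_, fun t ht x => ((hu' _).eqn t (mem_of_mem_nhdsWithin ht (nb t))
    x).mono_of_mem_nhdsWithin (nb t)⟩, (by simpa [u] using S2 0 _ (hw 0) : u a = w 0)⟩
  refine ((hu' _).sm i q ⟨mem_of_mem_nhdsWithin hq.1 (nb _), hq.2⟩).mono_of_mem_nhdsWithin ?_
  rw [show q = (q.1, q.2) from rfl, nhdsWithin_prod_eq]
  exact prod_mem_prod (nb _) self_mem_nhdsWithin

end Vale.Agent.P216ST
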