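import Vale.Agent.P216R.Loc
import Vale.Agent.P216R.Met
import Vale.Agent.P216G.Ode
import Mathlib.Analysis.Calculus.FDeriv.Extend

/-! # Local flows of time dependent vector fields, smooth up to the initial time -/

open scoped ContDiff Topology
open Set Filter Metric

noncomputable section

namespace Vale.Agent.P216ST

open Vale.Agent.P216R

variable {F : Type} [NormedAddCommGroup F] [NormedSpace ℝ F]

section SQ

variable {E : Type} [NormedAddCommGroup E] [NormedSpace ℝ E]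

/-- a family of solutions of `x' = W t x` in the variable `s`, `t = s ^ 2` -/
structure SQ (W : ℝ → E → E) (I : Set ℝ) (O : Set E) (χ : ℝ → F → E) (ε : ℝ) (V : Set F) :
    Prop where
  vec : ∀ t ∈ I, ∀ x ∈ O, PS W I t x
  pos : 0 < ε
  sub : Ico 0 (ε ^ 2) ⊆ I
  isOpen : IsOpen V
  sm : ∀ s ∈ Ioo (-ε) ε, ∀ y ∈ V, PS χ univ s y
  mem : ∀ s ∈ Ioo (-ε) ε, ∀ y ∈ V, χ s y ∈ O
  eqn : ∀ s ∈ Ioo (-ε) ε, ∀ y ∈ V, HasDerivAt (fun s => χ s y) ((2 * s) • W (s ^ 2) (χ s y)) s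

theorem ps_univ {X : Type} [NormedAddCommGroup X] [NormedSpace ℝ X] {χ : X → F → E} {s : X} {y : F} :
    PS χ univ s y ↔ ContDiffAt ℝ ∞ (fun p : X × F => χ p.1 p.2) (s, y) := by
  rw [PS, univ_prod_univ, contDiffWithinAt_univ]

variable {W : ℝ → E → E} {I : Set ℝ} {O : Set E} {χ : ℝ → F → E} {ε : ℝ} {V : Set F}

theorem sq_mem {s : ℝ} (hs : s ∈ Ioo (-ε) ε) : s ^ 2 ∈ Ico 0 (ε ^ 2) :=
  ⟨sq_nonneg s, sq_lt_sq' hs.1 hs.2⟩

theorem sqrt_mem (hε : 0 < ε) {t : ℝ} (ht : t ∈ Ico 0 (ε ^ 2)) : √t ∈ Ioo (-ε) ε :=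
  ⟨(neg_neg_of_pos hε).trans_le (Real.sqrt_nonneg t), (Real.sqrt_lt' hε).2 ht.2⟩

namespace SQ

variable (h : SQ W I O χ ε V)
include h

/-- the system for the solution together with its derivative in the parameter -/
theorem aug : SQ (fun t (q : E × (F →L[ℝ] E)) => (W t q.1, fderiv ℝ (W t) q.1 ∘L q.2)) I
    (O ×ˢ univ) (fun s y => (χ s y, fderiv ℝ (χ s) y)) ε V where
  vec t ht q hq := ((h.vec t ht _ hq.1).base q.2).prodMk
    ((((h.vec t ht _ hq.1).fderiv ht).base q.2).clm_comp (by fun_prop))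
  pos := h.pos
  sub := h.sub
  isOpen := h.isOpen
  sm s hs y hy := (h.sm s hs y hy).prodMk ((h.sm s hs y hy).fderiv (mem_univ _))
  mem s hs y hy := ⟨h.mem s hs y hy, mem_univ _⟩
  eqn s hs y hy := by
    refine (h.eqn s hs y hy).prodMk ((P216G.hasDerivAt_fderiv_snd (ps_univ.1 (h.sm s hs y hy))
      (Z := fun y => (2 * s) • W (s ^ 2) (χ s y)) (by
        filter_upwards [h.isOpen.mem_nhds hy] with z hz using h.eqn s hs z hz)).congr_deriv ?_)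
    have a1 := h.sub (sq_mem hs)
    exact ((((h.vec _ a1 _ (h.mem s hs y hy)).contDiffAt a1).differentiableAt
      (by simp)).hasFDerivAt.comp y (((h.sm s hs y hy).contDiffAt (mem_univ _)).differentiableAt
        (by simp)).hasFDerivAt |>.const_smul (2 * s)).fderiv

theorem cont : ContinuousOn (fun p : ℝ × F => χ (√p.1) p.2) (Ico 0 (ε ^ 2) ×ˢ V) := fun p hp =>
  (ContinuousAt.comp (f := fun p : ℝ × F => (√p.1, p.2))
    (ps_univ.1 (h.sm _ (sqrt_mem h.pos hp.1) _ hp.2)).continuousAt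
    (by fun_prop)).continuousWithinAt

omit h in
variable (W χ) in
/-- the total derivative -/
def D (p : ℝ × F) : ℝ × F →L[ℝ] E :=
  (ContinuousLinearMap.fst ℝ ℝ F).smulRight (W p.1 (χ (√p.1) p.2)) +
    fderiv ℝ (χ (√p.1)) p.2 ∘L ContinuousLinearMap.snd ℝ ℝ F

theorem cD {m : ℕ} (k : ContDiffOn ℝ m (fun p : ℝ × F => (χ (√p.1) p.2, fderiv ℝ (χ (√p.1)) p.2))
    (Ico 0 (ε ^ 2) ×ˢ V)) : ContDiffOn ℝ m (D W χ) (Ico 0 (ε ^ 2) ×ˢ V) := by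
  refine ContDiffOn.add (contDiffOn_const.smulRight fun p hp => ?_) (k.snd.clm_comp contDiffOn_const)
  exact ContDiffWithinAt.comp p (g := fun q : ℝ × E => W q.1 q.2)
    (f := fun p : ℝ × F => (p.1, χ (√p.1) p.2))
    ((h.vec _ (h.sub hp.1) _ (h.mem _ (sqrt_mem h.pos hp.1) _ hp.2)).of_le (mod_cast le_top))
    (contDiffWithinAt_fst.prodMk (k p hp).fst) fun q hq => ⟨h.sub hq.1, mem_univ _⟩

theorem fd0 {p : ℝ × F} (hp : p ∈ Ioo 0 (ε ^ 2) ×ˢ V) :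
    HasFDerivAt (fun p : ℝ × F => χ (√p.1) p.2) (D W χ p) p := by
  have a1 := sqrt_mem h.pos (Ioo_subset_Ico_self hp.1)
  have a2 := ((ps_univ.1 (h.sm _ a1 _ hp.2)).differentiableAt (by simp)).hasFDerivAt
  have a3 := (h.eqn _ a1 _ hp.2).unique (a2.comp_hasDerivAt (f := fun s => (s, p.2)) _
    ((hasDerivAt_id _).prodMk (hasDerivAt_const _ p.2)))
  have a4 := (a2.comp p.2 (hasFDerivAt_prodMk_right _ p.2)).fderiv
  have a5 : √p.1 ≠ 0 := (Real.sqrt_pos.2 hp.1.1).ne'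
  refine (a2.comp (f := fun p : ℝ × F => (√p.1, p.2)) p
    (((Real.hasDerivAt_sqrt hp.1.1.ne').comp_hasFDerivAt p
      (hasFDerivAt_fst (𝕜 := ℝ) (p := p))).prodMk hasFDerivAt_snd)).congr_fderiv ?_
  rw [Real.sq_sqrt hp.1.1.le] at a3
  generalize fderiv ℝ (fun p : ℝ × F => χ p.1 p.2) (√p.1, p.2) = L at a3 a4
  refine ContinuousLinearMap.ext fun q => ?_
  have a6 : fderiv ℝ (χ (√p.1)) p.2 q.2 = L (0, q.2) := congrArg (fun A : F →L[ℝ] E => A q.2) a4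
  have a7 : L (1 / (2 * √p.1) * q.1, q.2) = (1 / (2 * √p.1) * q.1) • L (1, 0) + L (0, q.2) := by
    rw [← map_smul, ← map_add]
    simp
  refine a7.trans ?_
  rw [← a3, ← a6, smul_smul, show 1 / (2 * √p.1) * q.1 * (2 * √p.1) = q.1 by field_simp]
  rfl

theorem fd {p : ℝ × F} (hp : p ∈ Ico 0 (ε ^ 2) ×ˢ V) :
    HasFDerivWithinAt (fun p : ℝ × F => χ (√p.1) p.2) (D W χ p) (Ico 0 (ε ^ 2) ×ˢ V) p := by
  rcases hp.1.1.eq_or_lt with e | e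
  · obtain ⟨δ, hδ, a1⟩ := nhds_basis_closedBall.mem_iff.1 (h.isOpen.mem_nhds hp.2)
    have a0 : 0 < ε ^ 2 / 2 := half_pos (pow_pos h.pos 2)
    have a2 : closure (Ioo 0 (ε ^ 2 / 2) ×ˢ ball p.2 δ) = Icc 0 (ε ^ 2 / 2) ×ˢ closedBall p.2 δ := by
      rw [closure_prod_eq, closure_Ioo a0.ne, closure_ball _ hδ.ne']
    have a3 : Icc 0 (ε ^ 2 / 2) ×ˢ closedBall p.2 δ ⊆ Ico 0 (ε ^ 2) ×ˢ V :=
      prod_mono (Icc_subset_Ico_right (by linarith)) a1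
    have a4 : Ioo 0 (ε ^ 2 / 2) ×ˢ ball p.2 δ ⊆ Ioo 0 (ε ^ 2) ×ˢ V :=
      prod_mono (Ioo_subset_Ioo_right (by linarith)) (ball_subset_closedBall.trans a1)
    have a5 := a4.trans (prod_mono Ioo_subset_Ico_self subset_rfl)
    refine (hasFDerivWithinAt_closure_of_tendsto_fderiv
      (fun q hq => (h.fd0 (a4 hq)).differentiableAt.differentiableWithinAt)
      ((convex_Ioo _ _).prod (convex_ball _ _)) (isOpen_Ioo.prod isOpen_ball)
      (fun q hq => (h.cont q (a3 (a2 ▸ hq))).mono a5) ?_).mono_of_mem_nhdsWithin ?_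
    · refine ((((h.cD (m := 0) (contDiffOn_zero.2 h.aug.cont)).continuousOn p hp).mono
        a5).tendsto).congr' ?_
      filter_upwards [self_mem_nhdsWithin] with q hq using (h.fd0 (a4 hq)).fderiv.symm
    · rw [a2]
      filter_upwards [self_mem_nhdsWithin, nhdsWithin_le_nhds (prod_mem_nhds
        (Iic_mem_nhds (e ▸ a0 : p.1 < ε ^ 2 / 2)) (closedBall_mem_nhds p.2 hδ))] with q b1 b2
      exact ⟨⟨b1.1.1, b2.1⟩, b2.2⟩
  · exact (h.fd0 ⟨⟨e, hp.1.2⟩, hp.2⟩).hasFDerivWithinAt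

theorem dt {t : ℝ} (ht : t ∈ Ico 0 (ε ^ 2)) {y : F} (hy : y ∈ V) :
    HasDerivWithinAt (fun s => χ (√s) y) (W t (χ (√t) y)) (Ico 0 (ε ^ 2)) t := by
  refine ((h.fd (p := (t, y)) ⟨ht, hy⟩).comp_hasDerivWithinAt (f := fun s => (s, y)) t
    ((hasDerivWithinAt_id t _).prodMk (hasDerivWithinAt_const t _ y))
    fun s hs => mk_mem_prod hs hy).congr_deriv ?_
  simp [D]

end SQ

end SQ

theorem SQ.nat (m : ℕ) : ∀ {E : Type} [NormedAddCommGroup E] [NormedSpace ℝ E] {W : ℝ → E → E}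
    {I : Set ℝ} {O : Set E} {χ : ℝ → F → E} {ε : ℝ} {V : Set F}, SQ W I O χ ε V →
    ContDiffOn ℝ m (fun p : ℝ × F => χ (√p.1) p.2) (Ico 0 (ε ^ 2) ×ˢ V) := by
  induction m with
  | zero => exact fun h => contDiffOn_zero.2 h.cont
  | succ m ih =>
    intro E _ _ W I O χ ε V h
    exact (contDiffOn_succ_iff_hasFDerivWithinAt_of_uniqueDiffOn
      ((uniqueDiffOn_Ico _ _).prod h.isOpen.uniqueDiffOn)).2
      ⟨by simp, _, h.cD (ih h.aug), fun p hp => h.fd hp⟩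

variable {E : Type} [NormedAddCommGroup E] [NormedSpace ℝ E]

/-- a local flow of the time dependent vector field `W` -/
structure LF (W : ℝ → E → E) (O : Set E) (ψ : ℝ → E → E) (τ : ℝ) (V : Set E) : Prop where
  isOpen : IsOpen V
  zero : ∀ y ∈ V, ψ 0 y = y
  sm : ∀ t ∈ Icc 0 τ, ∀ y ∈ V, PS ψ (Icc 0 τ) t y
  mem : ∀ t ∈ Icc 0 τ, ∀ y ∈ V, ψ t y ∈ O
  eqn : ∀ t ∈ Icc 0 τ, ∀ y ∈ V, HasDerivWithinAt (fun s => ψ s y) (W t (ψ t y)) (Icc 0 τ) t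
  var : ∀ t ∈ Icc 0 τ, ∀ y ∈ V, HasDerivWithinAt (fun s => fderiv ℝ (ψ s) y)
    (fderiv ℝ (W t) (ψ t y) ∘L fderiv ℝ (ψ t) y) (Icc 0 τ) t
  inj : ∀ t ∈ Icc 0 τ, ∀ y ∈ V, Function.Injective (fderiv ℝ (ψ t) y)

theorem exists_sq [FiniteDimensional ℝ E] {W : ℝ → E → E} {T : ℝ} (hT : 0 < T) {O : Set E}
    (hO : IsOpen O) (hW : ∀ t ∈ Icc 0 T, ∀ x ∈ O, PS W (Icc 0 T) t x) {y₀ : E} (hy : y₀ ∈ O) :
    ∃ χ ε V, y₀ ∈ V ∧ (∀ y ∈ V, χ 0 y = y) ∧ SQ W (Icc 0 T) O χ ε V := by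
  have a0 := Real.sqrt_pos.2 hT
  have a1 : ∀ s ∈ Ioo (-√T) √T, s ^ 2 ∈ Icc 0 T := fun s hs =>
    ⟨sq_nonneg s, (sq_mem hs).2.le.trans_eq (Real.sq_sqrt hT.le)⟩
  obtain ⟨ε, hε, A, b1, b2, Φ, b3, b4, b5⟩ := P219.RG.exists_flow_smooth
    (fun q : ℝ × E => ((1 : ℝ), (2 * q.1) • W (q.1 ^ 2) q.2)) (Ioo (-√T) √T ×ˢ O)
    (isOpen_Ioo.prod hO) (contDiffOn_const.prodMk (ContDiffOn.smul (by fun_prop) fun q hq =>
      ContDiffWithinAt.comp q (g := fun q : ℝ × E => W q.1 q.2) (f := fun q : ℝ × E => (q.1 ^ 2, q.2))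
        (hW _ (a1 _ hq.1) _ hq.2) (by fun_prop) fun r hr => ⟨a1 _ hr.1, mem_univ _⟩))
    (0, y₀) ⟨⟨by linarith, a0⟩, hy⟩
  have c0 : Continuous fun y : E => ((0 : ℝ), y) := by fun_prop
  have c1 : ∀ q ∈ A, ∀ s ∈ Ioo (-ε) ε, (Φ s q).1 = s + q.1 := fun q hq s hs => by
    have d : ∀ t ∈ Ioo (-ε) ε, HasDerivAt (fun s => (Φ s q).1 - s) (1 - 1) t := fun t ht =>
      ((ContinuousLinearMap.fst ℝ ℝ E).hasFDerivAt.comp_hasDerivAt t (b4 q hq t ht).2).sub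
        (hasDerivAt_id t)
    have := isOpen_Ioo.is_const_of_deriv_eq_zero isPreconnected_Ioo
      (fun t ht => (d t ht).differentiableAt.differentiableWithinAt)
      (fun t ht => (d t ht).deriv.trans (sub_self _)) hs (y := 0) ⟨by linarith, hε⟩
    rw [b3 q hq] at this
    linarith
  have c2 : Ioo (-min ε √T) (min ε √T) ⊆ Ioo (-ε) ε :=
    Ioo_subset_Ioo (neg_le_neg (min_le_left _ _)) (min_le_left _ _)
  refine ⟨fun s y => (Φ s (0, y)).2, min ε √T, _ ⁻¹' A, b2,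
    fun y hy => congrArg Prod.snd (b3 _ hy), hW, lt_min hε a0, fun t ht => ⟨ht.1, ht.2.le.trans ?_⟩, b1.preimage c0, fun s hs y hy => ?_,
    fun s hs y hy => (b4 _ hy s (c2 hs)).1.2, fun s hs y hy => ?_⟩
  · exact (pow_le_pow_left₀ (lt_min hε a0).le (min_le_right _ _) 2).trans_eq (Real.sq_sqrt hT.le)
  · exact ps_univ.2 (ContDiffAt.comp (s, y) (f := fun p : ℝ × E => (p.1, ((0 : ℝ), p.2)))
      (b5.contDiffAt ((isOpen_Ioo.prod b1).mem_nhds ⟨c2 hs, hy⟩)) (by fun_prop)).snd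
  · have : HasDerivAt (fun s => (Φ s (0, y)).2) ((2 * (Φ s (0, y)).1) • W ((Φ s (0, y)).1 ^ 2)
        (Φ s (0, y)).2) s :=
      (ContinuousLinearMap.snd ℝ ℝ E).hasFDerivAt.comp_hasDerivAt s (b4 _ hy s (c2 hs)).2
    rwa [c1 _ hy s (c2 hs), add_zero] at this

/-- existence of local flows -/
theorem exists_lf [FiniteDimensional ℝ E] {W : ℝ → E → E} {T : ℝ} (hT : 0 < T) {O : Set E}
    (hO : IsOpen O) (hW : ∀ t ∈ Icc 0 T, ∀ x ∈ O, PS W (Icc 0 T) t x) {y₀ : E} (hy : y₀ ∈ O) :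
    ∃ ψ V, y₀ ∈ V ∧ ∀ᶠ τ in 𝓝[>] 0, LF W O ψ τ V := by
  obtain ⟨χ, ε, V, a1, a2, h⟩ := exists_sq hT hO hW hy
  have a3 : (0 : ℝ) ∈ Ioo (-ε) ε := ⟨by linarith [h.pos], h.pos⟩
  have a4 : fderiv ℝ (χ 0) y₀ = ContinuousLinearMap.id ℝ E := by
    rw [← fderiv_id (x := y₀)]
    exact EventuallyEq.fderiv_eq (eventually_of_mem (h.isOpen.mem_nhds a1) a2)
  have a5 : ContinuousAt (fun p : ℝ × E => ‖fderiv ℝ (χ (√p.1)) p.2 - ContinuousLinearMap.id ℝ E‖)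
      (0, y₀) := ((ContinuousAt.comp_of_eq (f := fun p : ℝ × E => (√p.1, p.2))
        (ps_univ.1 ((h.sm 0 a3 y₀ a1).fderiv (mem_univ _))).continuousAt (by fun_prop)
        (by simp)).sub continuousAt_const).norm
  obtain ⟨δ, hδ, a6⟩ := Metric.eventually_nhds_iff_ball.1
    (a5.eventually (gt_mem_nhds (a := 1) (by simp [a4])))
  refine ⟨fun t => χ (√t), V ∩ ball y₀ δ, ⟨a1, mem_ball_self hδ⟩, ?_⟩
  filter_upwards [Ioo_mem_nhdsGT (lt_min hδ (pow_pos h.pos 2))] with τ hτ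
  have b1 : Icc 0 τ ⊆ Ico 0 (ε ^ 2) := Icc_subset_Ico_right (hτ.2.trans_le (min_le_right _ _))
  refine ⟨h.isOpen.inter isOpen_ball, fun y hy => by rw [Real.sqrt_zero, a2 y hy.1],
    fun t ht y hy => contDiffWithinAt_univ_of ((contDiffOn_infty.2 fun m => h.nat m).mono
      (prod_mono b1 subset_rfl)) h.isOpen ht hy.1,
    fun t ht y hy => h.mem _ (sqrt_mem h.pos (b1 ht)) _ hy.1,
    fun t ht y hy => (h.dt (b1 ht) hy.1).mono b1,
    fun t ht y hy => (ContinuousLinearMap.snd ℝ E (E →L[ℝ] E)).hasFDerivAt.comp_hasDerivWithinAt t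
      ((h.aug.dt (b1 ht) hy.1).mono b1),
    fun t ht y hy => (injective_iff_map_eq_zero _).2 fun v hv => ?_⟩
  have b2 := a6 (t, y) (by
    rw [← ball_prod_same]
    exact ⟨by simpa [abs_of_nonneg ht.1] using ht.2.trans_lt (hτ.2.trans_le (min_le_left _ _)),
      hy.2⟩)
  have b3 := (fderiv ℝ (χ (√t)) y - ContinuousLinearMap.id ℝ E).le_opNorm v
  rw [sub_apply, hv, zero_sub, norm_neg, ContinuousLinearMap.id_apply] at b3
  by_contra b4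
  nlinarith [norm_pos_iff.2 b4]

end Vale.Agent.P216ST
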